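import Vale.Agent.P181.H162.Table

/-!
# P181 (T4): the blocks and the row assignments
-/

set_option autoImplicit false

namespace Vale.Agent.P181.H162

open Finset

namespace Par

variable (P : Par)

/-- the index set of the blocks. -/
abbrev B : Type := Σ q : Fin P.N, Σ i : Fin (P.R1 + 1), Fin (P.M q i)

theorem exists_kappa : ∃ κ : P.B → ℕ, Function.Injective κ ∧
    ∀ x, P.lam (P.S + 1) ≤ κ x ∧ κ x < P.lam P.R1 ∧ ∀ i, i ≤ P.S → κ x ∉ P.rsv i := by
  classical
  set Z : Finset ℕ := (Ico P.R1 (P.S + 1)).biUnion P.rsv with hZ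
  set Av : Finset ℕ := Ico (P.lam (P.S + 1)) (P.lam P.R1) \ Z with hAv
  have hZc : Z.card ≤ ∑ i ∈ Ico P.R1 (P.S + 1), (P.k + 1) * (P.lam i / P.a + 2) := by
    refine card_biUnion_le.trans (sum_le_sum fun i hi => ?_)
    rw [rsv, Nat.card_Ico, Nat.add_sub_cancel_left]
    rw [mem_Ico] at hi
    exact Nat.mul_le_mul_left _ (by have := P.w_le i (by omega); omega)
  have hcard : Fintype.card P.B ≤ Av.card := by
    have h1 : Fintype.card P.B = ∑ q, ∑ i, P.M q i := by
      simp [B, Fintype.card_sigma]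
    have h2 : (Ico (P.lam (P.S + 1)) (P.lam P.R1)).card - Z.card ≤ Av.card :=
      le_card_sdiff _ _
    rw [Nat.card_Ico] at h2
    have h3 := P.room
    rw [h1]
    omega
  rw [← Fintype.card_coe] at hcard
  obtain ⟨f⟩ := Function.Embedding.nonempty_of_card_le hcard
  refine ⟨fun x => (f x : ℕ), fun x y hxy => f.injective (Subtype.ext hxy), fun x => ?_⟩
  have h : ((f x : ℕ)) ∈ Ico (P.lam (P.S + 1)) (P.lam P.R1) \ Z := (f x).2
  rw [mem_sdiff, mem_Ico] at h
  obtain ⟨⟨h1, h2⟩, h3⟩ := h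
  refine ⟨h1, h2, fun i hi hc => ?_⟩
  rcases Nat.lt_or_ge i P.R1 with h4 | h4
  · replace hc : ((f x : ℕ)) ∈ P.rsv i := hc
    rw [rsv, mem_Ico] at hc
    have := P.anti (show i + 1 ≤ P.R1 by omega)
    omega
  · apply h3
    rw [hZ, mem_biUnion]
    exact ⟨i, mem_Ico.2 ⟨h4, by omega⟩, hc⟩

/-- the column of a block. -/
noncomputable def kap : P.B → ℕ := P.exists_kappa.choose

theorem kap_inj : Function.Injective P.kap := P.exists_kappa.choose_spec.1

theorem kap_ge (x : P.B) : P.lam (P.S + 1) ≤ P.kap x := (P.exists_kappa.choose_spec.2 x).1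

theorem kap_lt (x : P.B) : P.kap x < P.lam P.R1 := (P.exists_kappa.choose_spec.2 x).2.1

theorem kap_rsv (x : P.B) (i : ℕ) (hi : i ≤ P.S) : P.kap x ∉ P.rsv i :=
  (P.exists_kappa.choose_spec.2 x).2.2 i hi

/-- the columns where row `i` is served by a free point. -/
noncomputable def bl (i : ℕ) : Finset ℕ :=
  (univ.filter (fun x : P.B => (x.2.1 : ℕ) = i)).image P.kap

theorem mem_bl {i c : ℕ} : c ∈ P.bl i ↔ ∃ x : P.B, (x.2.1 : ℕ) = i ∧ P.kap x = c := by
  simp [bl]

theorem card_bl (i : ℕ) : (P.bl i).card = P.A i := by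
  classical
  rw [bl, card_image_of_injective _ P.kap_inj]
  unfold A
  have h1 : (univ.filter (fun x : P.B => (x.2.1 : ℕ) = i)).card =
      ∑ x : P.B, if (x.2.1 : ℕ) = i then 1 else 0 := by
    rw [card_filter]
  rw [h1, Fintype.sum_sigma]
  refine sum_congr rfl fun q _ => ?_
  rw [Fintype.sum_sigma]
  have h2 : ∀ j : Fin (P.R1 + 1), (∑ x : Fin (P.M q j),
      if (((⟨q, ⟨j, x⟩⟩ : P.B).2.1 : Fin (P.R1 + 1)) : ℕ) = i then 1 else 0) =
      if (j : ℕ) = i then P.M q j else 0 := by
    intro j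
    by_cases hj : (j : ℕ) = i
    · simp [hj]
    · simp [hj]
  rw [sum_congr rfl fun j _ => h2 j]
  split_ifs with h
  · rw [sum_eq_single_of_mem (⟨i, h⟩ : Fin (P.R1 + 1)) (mem_univ _)]
    · simp
    · intro j _ hj
      rw [if_neg]
      intro hj'
      exact hj (Fin.ext hj')
  · refine sum_eq_zero fun j _ => ?_
    rw [if_neg]
    intro hj
    exact h (hj ▸ j.2)

theorem bl_sub (i : ℕ) : P.bl i ⊆ range (P.lam i) := by
  intro c hc
  rw [mem_bl] at hc
  obtain ⟨x, hx, rfl⟩ := hc
  have h1 := P.kap_lt x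
  have h2 : i ≤ P.R1 := by have := x.2.1.2; omega
  have h3 := P.anti h2
  rw [mem_range]
  omega

theorem kap_own (x : P.B) (i : ℕ) (hi : i ≤ P.S) (j : Fin 2) : P.kap x ∉ P.own i j := by
  intro h
  exact P.kap_rsv x i hi (P.own_short i hi h (P.kap_ge x))

theorem kap_up (x : P.B) (i : ℕ) (j : Fin 2) : P.kap x ∉ P.up i j := by
  intro h
  have h1 := P.up_lt h
  have h2 := P.kap_ge x
  have h3 := P.hL
  have h4 := P.ha
  omega

theorem kap_mrk (x : P.B) (i p : ℕ) (hi : i ≤ P.S) (hp : p < P.w i) : P.kap x ∉ P.mrk i p := by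
  intro h
  exact P.kap_rsv x i hi (P.mrk_sub i p hp h)

/-- the columns whose row `i` is served by a mixed position of class `i`. -/
def owns (i : ℕ) : Finset ℕ := if i < P.S then P.own i 0 ∪ P.own i 1 else ∅

/-- the columns whose row `i` is served by a mixed position of class `i - 1`. -/
def ups (i : ℕ) : Finset ℕ := if 0 < i then P.up (i - 1) 0 ∪ P.up (i - 1) 1 else ∅

/-- the columns whose row `i` is served by a pure position. -/
noncomputable def pur (i : ℕ) : Finset ℕ :=
  ((range (P.lam i) \ P.bl i) \ P.owns i) \ P.ups i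

theorem card_owns (i : ℕ) (hi : i ≤ P.S) :
    (P.owns i).card = if i < P.S then 2 * P.a - P.U i else 0 := by
  unfold owns
  split_ifs with h
  · rw [card_union_of_disjoint (P.disj_own i hi), P.card_own i hi, P.card_own i hi]
    have h1 := P.u_add i
    have h2 := P.u_le i 0
    have h3 := P.u_le i 1
    omega
  · rfl

theorem card_ups (i : ℕ) : (P.ups i).card = P.V i := by
  unfold ups
  cases i with
  | zero => simp [P.V_zero]
  | succ i =>
    rw [if_pos (Nat.succ_pos i), Nat.add_sub_cancel, card_union_of_disjoint (P.disj_up i),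
      P.card_up, P.card_up, P.u_add, P.V_succ]

theorem owns_sub (i : ℕ) (hi : i ≤ P.S) : P.owns i ⊆ range (P.lam i) \ P.bl i := by
  intro c hc
  unfold owns at hc
  split_ifs at hc with h
  · rw [mem_sdiff]
    have key : ∀ j : Fin 2, c ∈ P.own i j → c ∈ range (P.lam i) ∧ c ∉ P.bl i := by
      intro j hj
      refine ⟨P.own_sub i hi j hj, fun hb => ?_⟩
      rw [mem_bl] at hb
      obtain ⟨x, -, rfl⟩ := hb
      exact P.kap_own x i hi j hj
    rcases mem_union.1 hc with hc | hc
    · exact key 0 hc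
    · exact key 1 hc
  · simp at hc

theorem mem_ups {i c : ℕ} : c ∈ P.ups i ↔ ∃ i' j, i = i' + 1 ∧ c ∈ P.up i' j := by
  unfold ups
  constructor
  · intro h
    split_ifs at h with h0
    · rcases mem_union.1 h with h | h
      · exact ⟨i - 1, 0, by omega, h⟩
      · exact ⟨i - 1, 1, by omega, h⟩
    · simp at h
  · rintro ⟨i', j, rfl, h⟩
    rw [if_pos (Nat.succ_pos i'), Nat.add_sub_cancel, mem_union]
    fin_cases j
    · exact Or.inl h
    · exact Or.inr h

theorem mem_owns {i c : ℕ} : c ∈ P.owns i ↔ i < P.S ∧ ∃ j, c ∈ P.own i j := by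
  unfold owns
  constructor
  · intro h
    split_ifs at h with h0
    · rcases mem_union.1 h with h | h
      · exact ⟨h0, 0, h⟩
      · exact ⟨h0, 1, h⟩
    · simp at h
  · rintro ⟨h0, j, h⟩
    rw [if_pos h0, mem_union]
    fin_cases j
    · exact Or.inl h
    · exact Or.inr h

theorem ups_sub (i : ℕ) (hi : i ≤ P.S) :
    P.ups i ⊆ (range (P.lam i) \ P.bl i) \ P.owns i := by
  intro c hc
  rw [mem_ups] at hc
  obtain ⟨i', j, rfl, h⟩ := hc
  rw [mem_sdiff, mem_sdiff]
  refine ⟨⟨P.up_sub (i' + 1) (by omega) j h, fun hb => ?_⟩, fun ho => ?_⟩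
  · rw [mem_bl] at hb
    obtain ⟨x, -, rfl⟩ := hb
    exact P.kap_up x i' j h
  · rw [mem_owns] at ho
    obtain ⟨-, j', h'⟩ := ho
    exact (Finset.disjoint_left.1 (P.disj_own_up (i' := i') hi j' j)) h' h

theorem card_pur (i : ℕ) (hi : i ≤ P.S) : (P.pur i).card = P.a * P.w i := by
  unfold pur
  rw [card_sdiff_of_subset (P.ups_sub i hi), card_sdiff_of_subset (P.owns_sub i hi),
    card_sdiff_of_subset (P.bl_sub i), P.card_ups, P.card_owns i hi, P.card_bl, card_range]
  have h1 := P.A_add_le i hi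
  have h2 : P.tau i = P.lam i - P.A i := rfl
  have h3 := P.U_le i
  have h4 := P.ha
  split_ifs with h
  · have h5 := P.w_eq i h
    have h6 := P.tau_ge i hi
    have h7 := P.V_le i
    omega
  · have : i = P.S := by omega
    subst this
    have h5 := P.w_last
    omega

/-- the columns of the upper services of `(i, j)` are pure in row `i`. -/
theorem up_pur (i : ℕ) (hi : i ≤ P.S) (j : Fin 2) : P.up i j ⊆ P.pur i := by
  intro c h
  unfold pur
  rw [mem_sdiff, mem_sdiff, mem_sdiff]
  refine ⟨⟨⟨P.up_sub i (by omega) j h, fun hb => ?_⟩, fun ho => ?_⟩, fun hu => ?_⟩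
  · rw [mem_bl] at hb
    obtain ⟨x, -, rfl⟩ := hb
    exact P.kap_up x i j h
  · rw [mem_owns] at ho
    obtain ⟨-, j', h'⟩ := ho
    exact (Finset.disjoint_left.1 (P.disj_own_up (i' := i) hi j' j)) h' h
  · rw [mem_ups] at hu
    obtain ⟨i', j', rfl, h'⟩ := hu
    exact (Finset.disjoint_left.1 (P.disj_up_succ i' j' j)) h' h

theorem mrk_pur (i p : ℕ) (hi : i ≤ P.S) (hp : p < P.w i) : P.mrk i p ⊆ P.pur i := by
  intro c h
  have hr := P.mrk_sub i p hp h
  unfold pur
  rw [mem_sdiff, mem_sdiff, mem_sdiff]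
  refine ⟨⟨⟨?_, fun hb => ?_⟩, fun ho => ?_⟩, fun hu => ?_⟩
  · rw [rsv, mem_Ico] at hr
    have := P.rsv_le i hi
    rw [mem_range]
    omega
  · rw [mem_bl] at hb
    obtain ⟨x, -, rfl⟩ := hb
    exact P.kap_mrk x i p hi hp h
  · rw [mem_owns] at ho
    obtain ⟨-, j', h'⟩ := ho
    exact (Finset.disjoint_left.1 (P.disj_mrk_own i p hi j')) h h'
  · rw [mem_ups] at hu
    obtain ⟨i', j', rfl, h'⟩ := hu
    have h1 := P.up_lt h'
    have h2 := P.mrk_ge hi h
    have h3 := P.hL
    have h4 := P.ha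
    omega

/-- the `p`-th column of the upper services of `(i, j)`. -/
def pt (i : ℕ) (j : Fin 2) (p : ℕ) : ℕ := P.us i j + p

theorem pt_mem (i : ℕ) (j : Fin 2) (p : ℕ) (hp : p < 3) : P.pt i j p ∈ P.up i j := by
  have := P.u_ge i j
  rw [up, mem_Ico, pt]
  omega

/-- the prescribed columns of the pure position `(i, p)`. -/
def pre (i p : ℕ) : Finset ℕ :=
  P.mrk i p ∪ (if p < 3 then {P.pt i 0 p, P.pt i 1 p} else ∅)

theorem exists_pi (i : ℕ) (hi : i ≤ P.S) :
    ∃ π : ℕ → Fin (P.w i), (∀ p, ((P.pur i).filter (fun c => π c = p)).card = P.a) ∧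
      (∀ p : Fin (P.w i), ∀ c ∈ P.mrk i p, π c = p) ∧
      (∀ p : Fin (P.w i), (p : ℕ) < 3 → ∀ j, π (P.pt i j p) = p) := by
  classical
  have hw := P.w_ge i hi
  have : Nonempty (Fin (P.w i)) := ⟨⟨0, by omega⟩⟩
  have h0 := P.ha
  have hmem : ∀ (p : ℕ) (c : ℕ), c ∈ P.pre i p → (c ∈ P.mrk i p) ∨
      (p < 3 ∧ ∃ j, c = P.pt i j p) := by
    intro p c hc
    rw [pre, mem_union] at hc
    rcases hc with hc | hc
    · exact Or.inl hc
    · right
      split_ifs at hc with h3
      · rw [mem_insert, mem_singleton] at hc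
        rcases hc with hc | hc
        · exact ⟨h3, 0, hc⟩
        · exact ⟨h3, 1, hc⟩
      · simp at hc
  have hptlt : ∀ j p, p < 3 → P.pt i j p < 2 * (P.a + 5) := fun j p hp =>
    P.up_lt (P.pt_mem i j p hp)
  have hmge : ∀ p c, c ∈ P.mrk i p → 2 * (P.a + 5) ≤ c := by
    intro p c hc
    have h1 := P.mrk_ge hi hc
    have h2 := P.hL
    omega
  have hptinj : ∀ j j' p p', p < 3 → p' < 3 → P.pt i j p = P.pt i j' p' → p = p' := by
    intro j j' p p' hp hp' h
    by_cases hj : j = j'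
    · subst hj
      unfold pt at h
      omega
    · exfalso
      have h1 := P.pt_mem i j p hp
      have h2 := P.pt_mem i j' p' hp'
      rw [← h] at h2
      have hd := P.disj_up i
      rw [Finset.disjoint_left] at hd
      fin_cases j <;> fin_cases j'
      · exact hj rfl
      · exact hd h1 h2
      · exact hd h2 h1
      · exact hj rfl
  obtain ⟨π, h1, h2⟩ := exists_assign (P.pur i) (fun _ : Fin (P.w i) => P.a)
    (by rw [P.card_pur i hi]; simp [mul_comm]) (fun p => P.pre i p)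
    (by
      intro p c hc
      rcases hmem p c hc with h | ⟨h3, j, rfl⟩
      · exact P.mrk_pur i p hi p.2 h
      · exact P.up_pur i hi j (P.pt_mem i j p h3))
    (by
      intro p q hpq
      have hpq' : (p : ℕ) ≠ q := fun h => hpq (Fin.ext h)
      rw [Finset.disjoint_left]
      intro c hc hc'
      rcases hmem p c hc with h | ⟨h3, j, rfl⟩
      · rcases hmem q c hc' with h' | ⟨h3', j', rfl⟩
        · exact (Finset.disjoint_left.1 (P.disj_mrk i p q hpq')) h h'
        · have h5 := hmge p _ h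
          have h6 := hptlt j' q h3'
          omega
      · rcases hmem q _ hc' with h' | ⟨h3', j', h4⟩
        · have h5 := hmge q _ h'
          have h6 := hptlt j p h3
          omega
        · exact hpq' (hptinj j j' p q h3 h3' h4))
    (by
      intro p
      refine (card_union_le _ _).trans ?_
      rw [P.card_mrk]
      have h5 : (if (p : ℕ) < 3 then ({P.pt i 0 p, P.pt i 1 p} : Finset ℕ) else ∅).card ≤ 2 := by
        split_ifs
        · exact card_le_two
        · simp
      omega)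
  refine ⟨π, h1, fun p c hc => h2 p c ?_, fun p hp j => h2 p _ ?_⟩
  · rw [pre, mem_union]
    exact Or.inl hc
  · rw [pre, mem_union, if_pos hp, mem_insert, mem_singleton]
    right
    fin_cases j
    · exact Or.inl rfl
    · exact Or.inr rfl

end Par

end Vale.Agent.P181.H162
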