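import Vale.Agent.P181.T6.Spec

/-!
# P181 (T6/LB6), (C2'): the numbers of the construction
-/

set_option autoImplicit false

namespace Vale.Agent.P181.H162

open Vale.Agent.P181.T6 Vale.Agent.P181.T4

/-- the number of test columns -/
def TT (b m u Y : ℕ) : ℕ := 4 * m * ((b / 4 + 1) / Y + u)

/-- the number of test and zone columns (`k` = degree) -/
def TD (k b m u Y : ℕ) : ℕ := TT b m u Y + 8 * m * k

/-- the number of fixed columns: tests, zones, guards, padding -/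
def FC (k b m u Y x G P : ℕ) : ℕ := TD k b m u Y + 2 * G * x ^ 2 + P

/-- The numbers of the construction (`k` = degree, `b` letters, rows `lam i`, `i < n`):
`m` digits in base `u`, blocks of size `Y`, `R = 4 m u Y` top rows, length class `[l, 4 l)`, guards:
`G` superblocks of `x` blocks of `h` points, `P` padding columns, `La` = load of a point in tests
and zones, `wm` = lower bound of the numbers of pure letters, `Nl` = lower bound of the number of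
normal points. -/
structure Par6 (k b n : ℕ) (lam : ℕ → ℕ) (m u Y R l x h G P La wm Nl : ℕ) : Prop where
  hm : Even m
  hm2 : 2 ≤ m
  hu : 1 ≤ u
  hY : 1 ≤ Y
  hR : R = 4 * m * u * Y
  hb : b ≤ 4 * u ^ m
  hRl : 8 * R ≤ l
  hl : 16 ≤ l
  hln : l ≤ n
  hx : 1 ≤ x
  hh : h = l / 4
  hoff : 4 * lam (4 * l - 1) ≤ lam (l - 1)
  /- rows -/
  hk : 100 ≤ k
  hRk : 64 * R ≤ k
  hK : 16 * (La + m + 1) ≤ k
  hxk : 32 * x ≤ k
  hrow : k * (wm + 3) + (b / 4 + 1) / Y + u ≤ lam (l - 1)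
  htop : ∑ r ∈ Finset.range R, lam r + 2 * k * R + k * Nl ≤ k * b
  /- tests and zones -/
  hcl : 16 * l + 3 ≤ Nl
  hLa : TD k b m u Y * (4 * l) / ((Nl - 3) / 4) + 1 ≤ La
  /- guards -/
  hG : 2 * R + b ≤ G * x * h
  hGw : G + 1 ≤ wm
  hpr : 2 * x ^ 2 + R + 1 ≤ k
  /- fill -/
  hcells : FC k b m u Y x G P * (4 * l) + m * Nl ≤ k * Nl
  hP : 2 * R * k + b * (La + 4 * x + 2) ≤ P * (l - R)
  hroom : 4 * l * (2 * k + 4 * x) < P * (l - R)
  /- window -/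
  hwin : 8 * FC k b m u Y x G P + 8 ≤ lam (l - 1)

/-- **[LE]** the numbers exist. -/
def Par6Stmt : Prop := ∀ ε : ℝ, 0 < ε → ε ≤ 1 / 2 → ∀ᶠ a : ℕ in Filter.atTop, ∀ (k b n : ℕ)
  (lam : Fin n → ℕ), Hyp ε a k b n lam →
  ∃ m u Y R l x h G P La wm Nl : ℕ, Par6 k b n (ex lam) m u Y R l x h G P La wm Nl ∧
    ∀ N, Nl ≤ N → N ≤ b → Nums ε a k b n lam R N l (FC k b m u Y x G P * (4 * l))

/-- **[LC2]** number of normal points, pure letters and exponents of the special letters. -/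
def RowsStmt : Prop := ∀ (k b R K wm Nl : ℕ) (lam : ℕ → ℕ) (tau : ℕ → ℕ → ℕ), 100 ≤ k →
  64 * R ≤ k → 16 * (K + 1) ≤ k →
  (∀ r < R, k * (wm + 3) + ∑ q ∈ Finset.range b, tau q r ≤ lam r) →
  ∑ r ∈ Finset.range R, lam r + 2 * k * R + k * Nl ≤ k * b →
  ∃ (N : ℕ) (w : ℕ → ℕ) (rho : ℕ → Fin 2 → ℕ), N ≤ b ∧ Nl ≤ N ∧
    (∀ r < R, lam r = k * w r + ∑ q ∈ Finset.range N, tau q r + (rho r 0 + rho r 1)) ∧
    (∀ r < R, wm ≤ w r) ∧ ∑ r ∈ Finset.range R, w r + (2 * R + N) = b ∧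
    (∀ r < R, ∀ j, K < rho r j ∧ 8 * rho r j ≤ 7 * k) ∧
    ∀ r < R, ∀ r' < R, ∀ j j', rho r j = rho r' j' → r = r' ∧ j = j'

/-- **[LT]** the addresses of the letters `q < b` and the blocks of the tests. -/
def TestsStmt : Prop := ∀ (b u m Y : ℕ), 1 ≤ u → 1 ≤ Y → b ≤ 4 * u ^ m →
  ∃ (cl : ℕ → Fin 4) (dig : ℕ → Fin m → Fin u) (pos : ℕ → Fin m → Fin Y)
    (blk : ℕ → Fin m → ℕ) (nb : Fin 4 → Fin m → Fin u → ℕ),
    (∀ q < b, ∀ q' < b, cl q = cl q' → (∀ t, dig q t = dig q' t) → q = q') ∧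
    (∀ q < b, ∀ t, blk q t < nb (cl q) t (dig q t)) ∧
    (∀ q < b, ∀ q' < b, ∀ t, cl q = cl q' → dig q t = dig q' t → blk q t = blk q' t →
      pos q t = pos q' t → q = q') ∧
    (∀ c t, ∑ x, nb c t x ≤ (b / 4 + 1) / Y + u) ∧
    (∀ N, ∀ c, (N - 3) / 4 ≤ ((Finset.range N).filter fun q => cl q = c).card)

end Vale.Agent.P181.H162
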