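import Vale.Agent.P181.H162.PtF
import Vale.Agent.P181.H162.Par6
import Vale.Agent.P181.H411.Deal

/-!
# P181 (T6), (C2'): the data of the construction
-/

set_option autoImplicit false

namespace Vale.Agent.P181.H162

open Finset Vale.Agent.P181.T6 Vale.Agent.P181.T4

/-- the number of marks of the letter `q` in the row `r`. -/
def tau6 {m u Y R : ℕ} (cl : ℕ → Fin 4) (dig : ℕ → Fin m → Fin u) (pos : ℕ → Fin m → Fin Y)
    (row : Fin 4 × Fin m × Fin u × Fin Y ≃ Fin R) (q r : ℕ) : ℕ :=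
  (univ.filter fun t : Fin m => ((row (cl q, t, dig q t, pos q t) : Fin R) : ℕ) = r).card

/-- All the data of the construction. -/
structure Dat (e b n : ℕ) (lam : ℕ → ℕ) where
  m : ℕ
  u : ℕ
  Y : ℕ
  R : ℕ
  l : ℕ
  x : ℕ
  h : ℕ
  G : ℕ
  P : ℕ
  La : ℕ
  wm : ℕ
  Nl : ℕ
  H : Par6 e b n lam m u Y R l x h G P La wm Nl
  anti : Antitone lam
  cl : ℕ → Fin 4
  dig : ℕ → Fin m → Fin u
  pos : ℕ → Fin m → Fin Y
  blk : ℕ → Fin m → ℕ
  nb : Fin 4 → Fin m → Fin u → ℕ
  addr : ∀ q < b, ∀ q' < b, cl q = cl q' → (∀ t, dig q t = dig q' t) → q = q'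
  blk_lt : ∀ q < b, ∀ t, blk q t < nb (cl q) t (dig q t)
  blk_inj : ∀ q < b, ∀ q' < b, ∀ t, cl q = cl q' → dig q t = dig q' t → blk q t = blk q' t →
      pos q t = pos q' t → q = q'
  nb_le : ∀ c t, ∑ x, nb c t x ≤ (b / 4 + 1) / Y + u
  cl_card : ∀ N, ∀ c, (N - 3) / 4 ≤ ((Finset.range N).filter fun q => cl q = c).card
  row : Fin 4 × Fin m × Fin u × Fin Y ≃ Fin R
  N : ℕ
  w : ℕ → ℕ
  rho : ℕ → Fin 2 → ℕ
  N_le : N ≤ b
  Nl_le : Nl ≤ N
  lam_eq : ∀ r < R, lam r = e * w r + ∑ q ∈ Finset.range N, tau6 cl dig pos row q r +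
    (rho r 0 + rho r 1)
  wm_le : ∀ r < R, wm ≤ w r
  w_sum : ∑ r ∈ Finset.range R, w r + (2 * R + N) = b
  rho_lt : ∀ r < R, ∀ j, La + m < rho r j ∧ 8 * rho r j ≤ 7 * e
  rho_inj : ∀ r < R, ∀ r' < R, ∀ j j', rho r j = rho r' j' → r = r' ∧ j = j'

namespace Dat

variable {e b n : ℕ} {lam : ℕ → ℕ} (D : Dat e b n lam)

/-- points -/
abbrev Pt : Type := Pnt D.R D.N

/-- tests and zones -/
abbrev KT : Type := Σ a : Fin 4 × Fin D.m × Fin D.u, Fin (D.nb a.1 a.2.1 a.2.2)
abbrev KZ : Type := Fin 4 × Fin D.m × Fin 2 × Fin e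
abbrev KD : Type := D.KT ⊕ D.KZ
/-- guards and padding -/
abbrev KG : Type := Fin D.G × Fin D.x × Fin D.x × Fin 2
abbrev KF : Type := D.KG ⊕ Fin D.P
/-- the largest number of pure letters -/
def W : ℕ := (range D.R).sup D.w
/-- frames -/
abbrev KC : Type := Fin D.W × Fin (D.R + 1)
abbrev K : Type := (D.KD ⊕ D.KF) ⊕ D.KC

theorem le_W {r : ℕ} (hr : r < D.R) : D.w r ≤ D.W := le_sup (f := D.w) (mem_range.2 hr)

theorem R_pos : 0 < D.R := by
  have h1 := D.H.hm2
  have h2 := D.H.hu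
  have h3 := D.H.hY
  rw [D.H.hR]
  positivity

theorem lam_le {r : ℕ} (hr : r < D.R) : lam (D.l - 1) ≤ lam r := by
  apply D.anti
  have := D.H.hRl
  omega

theorem nb_sum : ∑ a : Fin 4 × Fin D.m × Fin D.u, D.nb a.1 a.2.1 a.2.2 ≤ TT b D.m D.u D.Y := by
  rw [Fintype.sum_prod_type]
  have h1 : ∀ c : Fin 4, ∑ y : Fin D.m × Fin D.u, D.nb c y.1 y.2 ≤
      D.m * ((b / 4 + 1) / D.Y + D.u) := by
    intro c
    rw [Fintype.sum_prod_type]
    refine (sum_le_sum fun t _ => D.nb_le c t).trans ?_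
    rw [sum_const, card_univ, Fintype.card_fin, smul_eq_mul]
  refine (sum_le_sum fun c _ => h1 c).trans ?_
  rw [sum_const, card_univ, Fintype.card_fin, smul_eq_mul, TT, mul_assoc]

theorem card_KD : Fintype.card D.KD ≤ TD e b D.m D.u D.Y := by
  rw [Fintype.card_sum, Fintype.card_sigma]
  simp only [Fintype.card_fin, Fintype.card_prod]
  have h1 := D.nb_sum
  unfold TD
  have h2 : 4 * (D.m * (2 * e)) = 8 * D.m * e := by ring
  omega

theorem card_KF : Fintype.card D.KF = 2 * D.G * D.x ^ 2 + D.P := by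
  simp only [Fintype.card_sum, Fintype.card_fin, Fintype.card_prod]
  ring

theorem card_fix : Fintype.card (D.KD ⊕ D.KF) ≤ FC e b D.m D.u D.Y D.x D.G D.P := by
  rw [Fintype.card_sum, D.card_KF]
  have := D.card_KD
  unfold FC
  omega

/-- an enumeration of the fixed columns -/
noncomputable def idx : D.KD ⊕ D.KF ≃ Fin (Fintype.card (D.KD ⊕ D.KF)) := Fintype.equivFin _

/-- the columns -/
noncomputable def col : D.K → ℕ
  | Sum.inl κ => 2 * (lam (4 * D.l - 1) + D.idx κ) + 1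
  | Sum.inr (g, o) => 2 * (g * (D.R + 1) + o)

theorem col_inj : Function.Injective D.col := by
  rintro (κ | ⟨g, o⟩) (κ' | ⟨g', o'⟩) h
  · simp only [col] at h
    congr 1
    apply D.idx.injective
    apply Fin.ext
    omega
  · simp only [col] at h
    omega
  · simp only [col] at h
    omega
  · simp only [col] at h
    have h1 : (g : ℕ) * (D.R + 1) + o = g' * (D.R + 1) + o' := by omega
    have h2 : (g : ℕ) = g' := by
      have e1 : ((g : ℕ) * (D.R + 1) + o) / (D.R + 1) = g := by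
        rw [add_comm, Nat.add_mul_div_right _ _ (Nat.succ_pos _), Nat.div_eq_of_lt o.2, zero_add]
      have e2 : ((g' : ℕ) * (D.R + 1) + o') / (D.R + 1) = g' := by
        rw [add_comm, Nat.add_mul_div_right _ _ (Nat.succ_pos _), Nat.div_eq_of_lt o'.2, zero_add]
      rw [← e1, h1, e2]
    rw [h2] at h1
    have h3 : g = g' := Fin.ext h2
    have h4 : o = o' := Fin.ext (by omega)
    rw [h3, h4]

theorem col_fix (κ : D.KD ⊕ D.KF) : D.col (Sum.inl κ) < lam (D.l - 1) ∧
    lam (4 * D.l - 1) ≤ D.col (Sum.inl κ) := by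
  have h1 := (D.idx κ).2
  have h2 := D.card_fix
  have h3 := D.H.hwin
  have h4 := D.H.hoff
  simp only [col]
  omega

/-- the lengths of the fixed columns -/
theorem len_fix (κ : D.KD ⊕ D.KF) : D.l ≤ len6 n lam (D.col (Sum.inl κ)) ∧
    len6 n lam (D.col (Sum.inl κ)) < 4 * D.l := by
  obtain ⟨h1, h2⟩ := D.col_fix κ
  have h3 := D.H.hl
  have h4 := D.H.hln
  constructor
  · have : D.l - 1 < len6 n lam (D.col (Sum.inl κ)) := (lt_len6 D.anti).2 ⟨by omega, h1⟩
    omega
  · by_contra hcon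
    have : 4 * D.l - 1 < len6 n lam (D.col (Sum.inl κ)) := by omega
    have h5 := ((lt_len6 D.anti).1 this).2
    omega

/-- the number of cells of a fixed column below the row `R` -/
noncomputable def nc (κ : D.KD ⊕ D.KF) : ℕ := len6 n lam (D.col (Sum.inl κ)) - D.R

theorem nc_le (κ : D.KD ⊕ D.KF) : D.nc κ ≤ 4 * D.l := by
  have := (D.len_fix κ).2
  unfold nc
  omega

theorem le_nc (κ : D.KD ⊕ D.KF) : D.l - D.R ≤ D.nc κ := by
  have := (D.len_fix κ).1
  unfold nc
  omega

/-- The marks. -/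
def isM : D.K → ℕ → D.Pt → Prop
  | Sum.inl (Sum.inl (Sum.inl ⟨(c, t, x), β⟩)), i, Sum.inr q =>
      D.cl q = c ∧ D.dig q t = x ∧ D.blk q t = β ∧ ((D.row (c, t, x, D.pos q t) : Fin D.R) : ℕ) = i
  | Sum.inl (Sum.inl (Sum.inr (c, t, j, i0))), i, Sum.inl (r, j') =>
      (r : ℕ) = i ∧ j' = j ∧ (D.row.symm r).1 = c ∧ (D.row.symm r).2.1 = t ∧ (i0 : ℕ) < D.rho r j
  | _, _, _ => False

theorem lt_b (q : Fin D.N) : (q : ℕ) < b := q.2.trans_le D.N_le

theorem isM_unique {k : D.K} {i : ℕ} {q q' : D.Pt} (h : D.isM k i q) (h' : D.isM k i q') :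
    q = q' := by
  rcases k with ((⟨⟨c, t, x⟩, β⟩ | ⟨c, t, j, i0⟩) | κ) | κ
  · rcases q with s | q
    · exact absurd h (by simp [isM])
    rcases q' with s' | q'
    · exact absurd h' (by simp [isM])
    simp only [isM] at h h'
    obtain ⟨h1, h2, h3, h4⟩ := h
    obtain ⟨h1', h2', h3', h4'⟩ := h'
    have h5 : D.row (c, t, x, D.pos q t) = D.row (c, t, x, D.pos q' t) :=
      Fin.ext (h4.trans h4'.symm)
    have h6 := D.row.injective h5
    simp only [Prod.mk.injEq, true_and] at h6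
    have h7 := D.blk_inj q (D.lt_b q) q' (D.lt_b q') t (h1.trans h1'.symm) (h2.trans h2'.symm)
      (h3.trans h3'.symm) h6
    rw [Fin.ext h7]
  · rcases q with ⟨r, j1⟩ | q
    · rcases q' with ⟨r', j1'⟩ | q'
      · simp only [isM] at h h'
        have h1 : r = r' := Fin.ext (h.1.trans h'.1.symm)
        rw [h1, h.2.1, h'.2.1]
      · exact absurd h' (by simp [isM])
    · exact absurd h (by simp [isM])
  · exact absurd h (by simp [isM])
  · exact absurd h (by simp [isM])

open Classical in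
/-- marks -/
noncomputable def mrk (k : D.K) (i : ℕ) : Option D.Pt :=
  if h : ∃ q, D.isM k i q then some h.choose else none

theorem mrk_iff {k : D.K} {i : ℕ} {q : D.Pt} : D.mrk k i = some q ↔ D.isM k i q := by
  unfold mrk
  constructor
  · intro h
    split_ifs at h with h1
    rw [← Option.some.inj h]
    exact h1.choose_spec
  · intro h
    have h1 : ∃ q, D.isM k i q := ⟨q, h⟩
    rw [dif_pos h1]
    exact congrArg some (D.isM_unique h1.choose_spec h)

/-- the class of the bottoms of the family `(c, t)`. -/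
def bc (c : Fin 4) (t : ℕ) : Fin 4 :=
  if (c : ℕ) < 2 then (if t % 2 = 0 then 2 else 3) else (if t % 2 = 0 then 0 else 1)

theorem bc_ne (c : Fin 4) (t : ℕ) : bc c t ≠ c := by
  unfold bc
  by_cases h : t % 2 = 0 <;> fin_cases c <;> simp [h]

/-- for another class there is a direction whose bottoms avoid it. -/
theorem exists_bc {c c' : Fin 4} {m : ℕ} (hm : 2 ≤ m) : ∃ t : Fin m, bc c t ≠ c' := by
  have h0 : bc c 0 ≠ bc c 1 := by
    unfold bc
    fin_cases c <;> simp
  by_cases h : bc c 0 = c'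
  · exact ⟨⟨1, by omega⟩, fun h' => h0 (h.trans h'.symm)⟩
  · exact ⟨⟨0, by omega⟩, h⟩

/-- the class of the bottom of a test or zone column -/
def bcl : D.KD → Fin 4
  | Sum.inl ⟨(c, t, _), _⟩ => bc c t
  | Sum.inr (c, t, _, _) => bc c t

/-- the enumeration of the points -/
def ix : D.Pt → ℕ
  | Sum.inl (r, j) => 2 * r + j
  | Sum.inr q => 2 * D.R + q

/-- the superblock of a point -/
def sb (p : D.Pt) : ℕ := D.ix p / D.h / D.x

/-- the block of a point in its superblock -/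
def ub (p : D.Pt) : ℕ := D.ix p / D.h % D.x

theorem ix_inj : Function.Injective D.ix := by
  rintro (⟨r, j⟩ | q) (⟨r', j'⟩ | q') h
  · simp only [ix] at h
    have h1 : r = r' := Fin.ext (by omega)
    have h2 : j = j' := Fin.ext (by omega)
    rw [h1, h2]
  · simp only [ix] at h
    omega
  · simp only [ix] at h
    omega
  · simp only [ix] at h
    have h1 : q = q' := Fin.ext (by omega)
    rw [h1]

theorem ix_lt (p : D.Pt) : D.ix p < 2 * D.R + D.N := by
  rcases p with ⟨r, j⟩ | q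
  · simp only [ix]
    omega
  · simp only [ix]
    omega

/-- the points of a guard -/
def gd (g : D.KG) : Finset D.Pt :=
  univ.filter fun p => D.sb p = g.1 ∧ (D.ub p = g.2.1 ∨ D.ub p = g.2.2.1)

/-- the prescribed pure letters -/
def pr : D.K → ℕ → Option ℕ
  | Sum.inl (Sum.inr (Sum.inl (g, _, _, o))), _ => some (g + o)
  | Sum.inr (g, o), i => if g + (if i = o then 1 else 0) < D.w i then
      some (g + (if i = o then 1 else 0)) else none
  | _, _ => none

/-- the fixed columns -/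
def fx : D.K → Prop
  | Sum.inl _ => True
  | Sum.inr _ => False

end Dat

end Vale.Agent.P181.H162
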