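import Vale.Agent.P181.H162.Dat6

/-!
# P181 (T6), (C2'): the pattern of the construction
-/

set_option autoImplicit false

namespace Vale.Agent.P181.H162

open Finset Vale.Agent.P181.T6 Vale.Agent.P181.T4

namespace Dat

variable {e b n : ℕ} {lam : ℕ → ℕ} (D : Dat e b n lam)

/-- for the count of the prescriptions -/
def prf : D.K → (Fin D.x × Fin D.x × Fin 2) ⊕ Fin (D.R + 1)
  | Sum.inl (Sum.inr (Sum.inl (_, u, v, o))) => Sum.inl (u, v, o)
  | Sum.inr (_, o) => Sum.inr o
  | _ => Sum.inr 0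

theorem pr_card {i : ℕ} (g : ℕ) : (univ.filter fun k : D.K => D.pr k i = some g).card ≤ e := by
  have h1 : (univ.filter fun k : D.K => D.pr k i = some g).card ≤
      (univ : Finset ((Fin D.x × Fin D.x × Fin 2) ⊕ Fin (D.R + 1))).card := by
    refine card_le_card_of_injOn D.prf (fun _ _ => mem_univ _) ?_
    intro k hk k' hk' hkk
    rw [mem_coe, mem_filter] at hk hk'
    have h1 := hk.2
    have h2 := hk'.2
    rcases k with ((κ | (⟨g1, u, v, o⟩ | p)) | ⟨g1, o⟩)
    · simp [pr] at h1
    · rcases k' with ((κ' | (⟨g1', u', v', o'⟩ | p')) | ⟨g1', o'⟩)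
      · simp [pr] at h2
      · simp only [prf, Sum.inl.injEq, Prod.mk.injEq] at hkk
        obtain ⟨e1, e2, e3⟩ := hkk
        simp only [pr, Option.some.injEq] at h1 h2
        subst e1 e2 e3
        have e4 : g1 = g1' := Fin.ext (by omega)
        subst e4
        rfl
      · simp [pr] at h2
      · simp [prf] at hkk
    · simp [pr] at h1
    · rcases k' with ((κ' | (⟨g1', u', v', o'⟩ | p')) | ⟨g1', o'⟩)
      · simp [pr] at h2
      · simp [prf] at hkk
      · simp [pr] at h2
      · simp only [prf, Sum.inr.injEq] at hkk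
        subst hkk
        simp only [pr] at h1 h2
        have e4 : g1 = g1' := by
          apply Fin.ext
          split_ifs at h1 h2
          · simp only [Option.some.injEq] at h1 h2
            omega
          · simp only [Option.some.injEq] at h1 h2
            omega
        subst e4
        rfl
  refine h1.trans ?_
  rw [card_univ, Fintype.card_sum]
  simp only [Fintype.card_fin, Fintype.card_prod]
  have h2 := D.H.hpr
  have h3 : D.x * (D.x * 2) = 2 * D.x ^ 2 := by ring
  omega

/-- deal -/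
theorem exists_botD : ∃ β : D.KD → Finset (Fin D.N), (∀ κ, ∀ q ∈ β κ, D.cl q = D.bcl κ) ∧
    (∀ κ, (β κ).card = D.nc (Sum.inl κ)) ∧ ∀ q, dg β q ≤ D.La := by
  classical
  have hcl := D.H.hcl
  have hNl := D.Nl_le
  set A : Fin 4 → Finset (Fin D.N) := fun c => univ.filter fun q : Fin D.N => D.cl q = c with hA
  have hAc : ∀ c, (D.Nl - 3) / 4 ≤ (A c).card := by
    intro c
    have h1 := D.cl_card D.N c
    have h2 : ((range D.N).filter fun q => D.cl q = c).card = (A c).card := by
      rw [hA]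
      simp only
      rw [← card_image_of_injective (univ.filter fun q : Fin D.N => D.cl q = c)
        Fin.val_injective]
      congr 1
      ext q
      simp only [mem_filter, mem_range, mem_image, mem_univ, true_and]
      constructor
      · rintro ⟨h3, h4⟩
        exact ⟨⟨q, h3⟩, h4, rfl⟩
      · rintro ⟨q', h3, rfl⟩
        exact ⟨q'.2, h3⟩
    rw [← h2]
    refine le_trans ?_ h1
    apply Nat.div_le_div_right
    omega
  have hAl : ∀ c, 4 * D.l ≤ (A c).card := by
    intro c
    have := hAc c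
    omega
  choose β hβ1 hβ2 hβ3 using fun c => exists_deal (ι := D.KD) (A c)
    (fun κ => D.nc (Sum.inl κ)) (fun κ => (D.nc_le _).trans (hAl c))
  refine ⟨fun κ => β (D.bcl κ) κ, ?_, ?_, ?_⟩
  · intro κ q hq
    exact (mem_filter.1 (hβ1 _ κ hq)).2
  · intro κ
    exact hβ2 _ κ
  · intro q
    have h1 : dg (fun κ => β (D.bcl κ) κ) q ≤ dg (β (D.cl q)) q := by
      unfold dg
      refine card_le_card ?_
      intro κ hκ
      rw [mem_filter] at hκ ⊢
      have h2 := (mem_filter.1 (hβ1 _ κ hκ.2)).2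
      refine ⟨mem_univ _, ?_⟩
      rw [h2]
      exact hκ.2
    refine h1.trans ((hβ3 (D.cl q) q).trans ?_)
    refine le_trans ?_ D.H.hLa
    apply Nat.add_le_add_right
    have h3 : ∑ κ : D.KD, D.nc (Sum.inl κ) ≤ TD e b D.m D.u D.Y * (4 * D.l) := by
      refine (sum_le_sum fun κ _ => D.nc_le (Sum.inl κ)).trans ?_
      rw [sum_const, card_univ, smul_eq_mul]
      exact Nat.mul_le_mul_right _ D.card_KD
    refine (Nat.div_le_div_right h3).trans ?_
    apply Nat.div_le_div_left (hAc _)
    have := D.H.hl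
    omega

/-- The bottoms. -/
structure Bot where
  bD : D.KD → Finset (Fin D.N)
  bF : D.KF → Finset D.Pt
  d : Fin D.N → ℕ
  bD_cl : ∀ κ, ∀ q ∈ bD κ, D.cl q = D.bcl κ
  bD_card : ∀ κ, (bD κ).card = D.nc (Sum.inl κ)
  bD_load : ∀ q, dg bD q ≤ D.La
  gd_sub : ∀ g, D.gd g ⊆ bF (Sum.inl g)
  bF_card : ∀ κ, (bF κ).card = D.nc (Sum.inr κ)
  spec : ∀ s : Fin D.R × Fin 2, D.rho s.1 s.2 + dg bF (Sum.inl s) = e
  norm : ∀ q : Fin D.N, D.m + dg bD q + dg bF (Sum.inr q) + d q = e
  bal : ∀ q q', d q ≤ d q' + 1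

/-- the bottoms of all columns -/
def bt (B : D.Bot) : D.K → Finset D.Pt
  | Sum.inl (Sum.inl κ) => (B.bD κ).map ⟨Sum.inr, Sum.inr_injective⟩
  | Sum.inl (Sum.inr κ) => B.bF κ
  | Sum.inr _ => ∅

theorem isM_cases {k : D.K} {i : ℕ} {q : D.Pt} (h : D.isM k i q) :
    ∃ κ : D.KD, k = Sum.inl (Sum.inl κ) := by
  rcases k with (κ | κ) | κ
  · exact ⟨κ, rfl⟩
  · exact absurd h (by simp [isM])
  · exact absurd h (by simp [isM])

theorem isM_row {k : D.K} {i i' : ℕ} {q : D.Pt} (h : D.isM k i q) (h' : D.isM k i' q) :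
    i = i' := by
  rcases k with ((⟨⟨c, t, x⟩, β⟩ | ⟨c, t, j, i0⟩) | κ) | κ
  · rcases q with s | q
    · exact absurd h (by simp [isM])
    · simp only [isM] at h h'
      exact h.2.2.2.symm.trans h'.2.2.2
  · rcases q with ⟨r, j1⟩ | q
    · simp only [isM] at h h'
      exact h.1.symm.trans h'.1
    · exact absurd h (by simp [isM])
  · exact absurd h (by simp [isM])
  · exact absurd h (by simp [isM])

theorem isM_bt (B : D.Bot) {k : D.K} {i : ℕ} {q : D.Pt} (h : D.isM k i q) : q ∉ D.bt B k := by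
  rcases k with ((⟨⟨c, t, x⟩, β⟩ | ⟨c, t, j, i0⟩) | κ) | κ
  · rcases q with s | q
    · exact absurd h (by simp [isM])
    · simp only [isM] at h
      intro hq
      simp only [bt, mem_map, Function.Embedding.coeFn_mk, Sum.inr.injEq, exists_eq_right] at hq
      have h1 := B.bD_cl _ q hq
      rw [h.1] at h1
      exact bc_ne c t h1.symm
  · rcases q with ⟨r, j1⟩ | q
    · intro hq
      simp [bt] at hq
    · exact absurd h (by simp [isM])
  · exact absurd h (by simp [isM])
  · exact absurd h (by simp [isM])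

theorem G_lt {i : ℕ} (hi : i < D.R) : D.G < D.w i := by
  have h1 := D.wm_le i hi
  have h2 := D.H.hGw
  omega

theorem w_lam {i : ℕ} (hi : i < D.R) : e * D.w i ≤ lam i := by
  have h1 := D.lam_eq i hi
  omega

theorem pr_lt {k : D.K} {i g : ℕ} (hi : i < D.R) (h : D.pr k i = some g) : g < D.w i := by
  rcases k with ((κ | (⟨g1, u, v, o⟩ | p)) | ⟨g1, o⟩)
  · simp [pr] at h
  · simp only [pr, Option.some.injEq] at h
    have := D.G_lt hi
    omega
  · simp [pr] at h
  · simp only [pr] at h
    split_ifs at h with h1 h2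
    · simp only [Option.some.injEq] at h
      omega
    · simp only [Option.some.injEq] at h
      omega

theorem col_fix_lt (κ : D.KD ⊕ D.KF) {i : ℕ} (hi : i < D.R) : D.col (Sum.inl κ) < lam i :=
  (D.col_fix κ).1.trans_le (D.lam_le hi)

theorem pr_col {k : D.K} {i g : ℕ} (hi : i < D.R) (h : D.pr k i = some g) :
    D.col k < lam i := by
  rcases k with (κ | ⟨g1, o⟩)
  · exact D.col_fix_lt κ hi
  · have h1 : (g1 : ℕ) < D.w i := by
      simp only [pr] at h
      split_ifs at h with h1 h2
      · omega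
      · omega
    have h2 := D.w_lam hi
    have h3 := D.H.hRk
    have h4 := o.2
    simp only [col]
    have h5 : (2 * (D.R + 1)) * (g1 + 1) ≤ e * D.w i :=
      Nat.mul_le_mul (by have := D.H.hk; omega) h1
    have h6 : (2 * (D.R + 1)) * ((g1 : ℕ) + 1) = 2 * (g1 * (D.R + 1)) + 2 * (D.R + 1) := by ring
    omega

end Dat

end Vale.Agent.P181.H162
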