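import Vale.Agent.P181.H162.Dat6P

/-!
# P181 (T6), (C2'): the pattern of the construction has the required properties
-/

set_option autoImplicit false

namespace Vale.Agent.P181.H162

open Finset Vale.Agent.P181.T6 Vale.Agent.P181.T4

namespace Dat

variable {e b n : ℕ} {lam : ℕ → ℕ} (D : Dat e b n lam)

open Classical in
/-- the rows -/
def RowEq : Prop := ∀ i < D.R, lam i = e * D.w i +
  (univ.filter fun k : D.K => ∃ q, D.isM k i q).card

theorem mrk_ne_none {k : D.K} {i : ℕ} : D.mrk k i ≠ none ↔ ∃ q, D.isM k i q := by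
  rw [Option.ne_none_iff_exists']
  simp only [D.mrk_iff]

open Classical in
/-- the pattern -/
noncomputable def pt (B : D.Bot) (hrow : D.RowEq) : Vale.Agent.P181.H162.Pt e n D.R D.N lam D.w D.K where
  anti := D.anti
  R_le := by
    have h1 := D.H.hRl
    have h2 := D.H.hln
    omega
  R_pos := D.R_pos
  w_pos := fun i hi => by
    have := D.G_lt hi
    omega
  col := D.col
  col_inj := D.col_inj
  mrk := D.mrk
  pr := D.pr
  fx := D.fx
  bt := D.bt B
  fx_col := by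
    rintro (κ | κ) hκ i hi
    · exact D.col_fix_lt κ hi
    · exact absurd hκ id
  pr_col := fun k i g hi h => D.pr_col hi h
  mrk_fx := by
    intro k i q _ h
    obtain ⟨κ, rfl⟩ := D.isM_cases (D.mrk_iff.1 h)
    trivial
  mrk_inj := fun k i i' q _ _ h h' => D.isM_row (D.mrk_iff.1 h) (D.mrk_iff.1 h')
  mrk_bt := fun k i q _ h => D.isM_bt B (D.mrk_iff.1 h)
  pr_mk := by
    intro k i g _ h
    by_contra hcon
    obtain ⟨q, hq⟩ := D.mrk_ne_none.1 hcon
    obtain ⟨κ, rfl⟩ := D.isM_cases hq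
    simp [pr] at h
  pr_lt := fun k i g hi h => D.pr_lt hi h
  pr_card := fun i _ g => D.pr_card g
  row := by
    intro i hi
    rw [hrow i hi]
    congr 1
    apply congrArg card
    ext k
    rw [mem_filter, mem_filter, D.mrk_ne_none]
  bt_card := by
    rintro ((κ | κ) | κ) hκ
    · show ((B.bD κ).map _).card = _
      rw [card_map, B.bD_card]
      rfl
    · show (B.bF κ).card = _
      rw [B.bF_card]
      rfl
    · exact absurd hκ id

theorem pt_pr (B : D.Bot) (hrow : D.RowEq) : (D.pt B hrow).pr = D.pr := rfl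

variable {D} in
theorem occ_iff {B : D.Bot} {hrow : D.RowEq} {k : D.K} {q : D.Pt} :
    (D.pt B hrow).occ k q ↔ (∃ i < D.R, D.isM k i q) ∨ (D.fx k ∧ q ∈ D.bt B k) := by
  unfold Pt.occ
  constructor
  · rintro (⟨i, h1, h2⟩ | h)
    · exact Or.inl ⟨i, h1, D.mrk_iff.1 h2⟩
    · exact Or.inr h
  · rintro (⟨i, h1, h2⟩ | h)
    · exact Or.inl ⟨i, h1, D.mrk_iff.2 h2⟩
    · exact Or.inr h

theorem sb_lt (q : D.Pt) : D.sb q < D.G := by
  have h1 := D.ix_lt q
  have h2 := D.H.hG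
  have h3 := D.N_le
  unfold sb
  rw [Nat.div_div_eq_div_mul]
  apply Nat.div_lt_of_lt_mul
  have h4 : D.h * D.x * D.G = D.G * D.x * D.h := by ring
  omega

theorem ub_lt (q : D.Pt) : D.ub q < D.x := Nat.mod_lt _ D.H.hx

/-- the guard -/
def kg (g : D.KG) : D.K := Sum.inl (Sum.inr (Sum.inl g))

variable {D} in
theorem occ_kg {B : D.Bot} {hrow : D.RowEq} {g : D.KG} {q : D.Pt} (h : q ∈ D.gd g) :
    (D.pt B hrow).occ (D.kg g) q := occ_iff.2 (Or.inr ⟨trivial, B.gd_sub g h⟩)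

theorem types (B : D.Bot) (hrow : D.RowEq) : (D.pt B hrow).dsg.Types := by
  refine (D.pt B hrow).types (D.G + 1) (Nat.succ_pos _) (fun r => D.G_lt r.2) ?_ ?_ D.sb
    (fun q => by have := D.sb_lt q; omega) ?_ ?_
  · intro r r' _ g hg hg'
    refine ⟨Sum.inr (⟨g, hg.trans_le (D.le_W r.2)⟩, Fin.last D.R), ?_, ?_⟩
    · rw [D.pt_pr B hrow]
      simp only [pr, Fin.val_last]
      have h1 : ¬ ((r : ℕ) = D.R) := by have := r.2; omega
      simp only [h1, if_false, add_zero, hg, if_true]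
    · rw [D.pt_pr B hrow]
      simp only [pr, Fin.val_last]
      have h1 : ¬ ((r' : ℕ) = D.R) := by have := r'.2; omega
      simp only [h1, if_false, add_zero, hg', if_true]
  · intro r r' hr g hg hg'
    refine ⟨Sum.inr (⟨g, hg.trans_le (D.le_W r.2)⟩, r'.castSucc), ?_, ?_⟩
    · rw [D.pt_pr B hrow]
      simp only [pr, Fin.val_castSucc]
      have h1 : ¬ ((r : ℕ) = r') := fun h => hr (Fin.ext h)
      simp only [h1, if_false, add_zero, hg, if_true]
    · rw [D.pt_pr B hrow]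
      simp only [pr, Fin.val_castSucc, if_true, hg']
  · intro q r g hg
    rcases hg with hg | hg
    · refine ⟨D.kg (⟨D.sb q, D.sb_lt q⟩, ⟨D.ub q, D.ub_lt q⟩, ⟨D.ub q, D.ub_lt q⟩, 0),
        occ_kg ?_, ?_⟩
      · unfold gd
        rw [mem_filter]
        exact ⟨mem_univ _, rfl, Or.inl rfl⟩
      · rw [hg]
        rfl
    · refine ⟨D.kg (⟨D.sb q, D.sb_lt q⟩, ⟨D.ub q, D.ub_lt q⟩, ⟨D.ub q, D.ub_lt q⟩, 1),
        occ_kg ?_, ?_⟩
      · unfold gd
        rw [mem_filter]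
        exact ⟨mem_univ _, rfl, Or.inl rfl⟩
      · rw [hg]
        rfl
  · intro q q' _ hs
    refine ⟨D.kg (⟨D.sb q, D.sb_lt q⟩, ⟨D.ub q, D.ub_lt q⟩, ⟨D.ub q', D.ub_lt q'⟩, 0),
      occ_kg ?_, occ_kg ?_⟩
    · unfold gd
      rw [mem_filter]
      exact ⟨mem_univ _, rfl, Or.inl rfl⟩
    · unfold gd
      rw [mem_filter]
      exact ⟨mem_univ _, hs.symm, Or.inr rfl⟩

/-- the family of a row -/
def fam (r : Fin D.R) : Fin 4 × Fin D.m := ((D.row.symm r).1, (D.row.symm r).2.1)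

theorem row_inj {c c' : Fin 4} {t t' : Fin D.m} {x x' : Fin D.u} {y y' : Fin D.Y}
    (h : ((D.row (c, t, x, y) : Fin D.R) : ℕ) = D.row (c', t', x', y')) :
    c = c' ∧ t = t' ∧ x = x' ∧ y = y' := by
  have h1 := D.row.injective (Fin.ext h)
  simp only [Prod.mk.injEq] at h1
  exact h1

/-- what a column with a missing row looks like: its family, and the points in it. -/
theorem col_fam {k : D.K} {i : ℕ} {q0 : D.Pt} (h : D.isM k i q0) :
    ∃ κ : D.KD, k = Sum.inl (Sum.inl κ) ∧ ∃ (hi : i < D.R), D.bcl κ =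
      bc (D.row.symm ⟨i, hi⟩).1 (D.row.symm ⟨i, hi⟩).2.1 := by
  obtain ⟨κ, rfl⟩ := D.isM_cases h
  refine ⟨κ, rfl, ?_⟩
  rcases κ with ⟨⟨c, t, x⟩, β⟩ | ⟨c, t, j, i0⟩
  · rcases q0 with s | q
    · exact absurd h (by simp [isM])
    · simp only [isM] at h
      have hi : i < D.R := by rw [← h.2.2.2]; exact Fin.is_lt _
      refine ⟨hi, ?_⟩
      have h1 : (⟨i, hi⟩ : Fin D.R) = D.row (c, t, x, D.pos q t) := Fin.ext h.2.2.2.symm
      rw [h1, Equiv.symm_apply_apply]
      rfl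
  · rcases q0 with ⟨r, j1⟩ | q
    · simp only [isM] at h
      have hi : i < D.R := by rw [← h.1]; exact r.2
      refine ⟨hi, ?_⟩
      have h1 : (⟨i, hi⟩ : Fin D.R) = r := Fin.ext h.1.symm
      rw [h1, h.2.2.1, h.2.2.2.1]
      rfl
    · exact absurd h (by simp [isM])

/-- a normal point with a mark in row `i`. -/
theorem isM_norm {k : D.K} {i : ℕ} {q : Fin D.N} (h : D.isM k i (Sum.inr q)) :
    ∃ (t : Fin D.m) (hb : D.blk q t < D.nb (D.cl q) t (D.dig q t)),
      k = Sum.inl (Sum.inl (Sum.inl ⟨(D.cl q, t, D.dig q t), ⟨D.blk q t, hb⟩⟩)) ∧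
      ((D.row (D.cl q, t, D.dig q t, D.pos q t) : Fin D.R) : ℕ) = i := by
  rcases k with ((⟨⟨c, t, x⟩, β⟩ | ⟨c, t, j, i0⟩) | κ) | κ
  · simp only [isM] at h
    obtain ⟨rfl, rfl, h3, h4⟩ := h
    refine ⟨t, D.blk_lt q (D.lt_b q) t, ?_, h4⟩
    have h5 : β = ⟨D.blk q t, D.blk_lt q (D.lt_b q) t⟩ := Fin.ext h3.symm
    rw [h5]
  · exact absurd h (by simp [isM])
  · exact absurd h (by simp [isM])
  · exact absurd h (by simp [isM])

/-- a special point with a mark in row `i`. -/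
theorem isM_spec {k : D.K} {i : ℕ} {s : Fin D.R × Fin 2} (h : D.isM k i (Sum.inl s)) :
    (s.1 : ℕ) = i ∧ ∃ i0 : Fin e, (i0 : ℕ) < D.rho s.1 s.2 ∧
      k = Sum.inl (Sum.inl (Sum.inr ((D.row.symm s.1).1, (D.row.symm s.1).2.1, s.2, i0))) := by
  obtain ⟨r, j1⟩ := s
  rcases k with ((⟨⟨c, t, x⟩, β⟩ | ⟨c, t, j, i0⟩) | κ) | κ
  · exact absurd h (by simp [isM])
  · simp only [isM] at h
    obtain ⟨h1, h2, h3, h4, h5⟩ := h
    subst h2 h3 h4
    exact ⟨h1, i0, h5, rfl⟩
  · exact absurd h (by simp [isM])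
  · exact absurd h (by simp [isM])

theorem isM_test (q : Fin D.N) (t : Fin D.m) :
    D.isM (Sum.inl (Sum.inl (Sum.inl ⟨(D.cl q, t, D.dig q t),
      ⟨D.blk q t, D.blk_lt q (D.lt_b q) t⟩⟩)))
      (D.row (D.cl q, t, D.dig q t, D.pos q t) : Fin D.R) (Sum.inr q) := ⟨rfl, rfl, rfl, rfl⟩

/-- the class of a normal point in a bottom of a test or zone -/
theorem mem_bt_norm {B : D.Bot} {κ : D.KD} {q : D.Pt} (h : q ∈ D.bt B (Sum.inl (Sum.inl κ))) :
    ∃ q' : Fin D.N, q = Sum.inr q' ∧ q' ∈ B.bD κ ∧ D.cl q' = D.bcl κ := by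
  simp only [bt, mem_map, Function.Embedding.coeFn_mk] at h
  obtain ⟨q', h1, h2⟩ := h
  exact ⟨q', h2.symm, h1, B.bD_cl _ _ h1⟩

theorem uniq (B : D.Bot) (hrow : D.RowEq) : (D.pt B hrow).dsg.Uniq := by
  refine (D.pt B hrow).uniq ?_
  intro k i hi q0 q h1 h2 h3
  have h1 := D.mrk_iff.1 h1
  obtain ⟨k', h3⟩ := h3
  have h3 := D.mrk_iff.1 h3
  rw [occ_iff] at h2
  rcases q with s | q
  · obtain ⟨h4, i0, h5, h6⟩ := D.isM_spec h3
    rcases h2 with ⟨i', hi', h2⟩ | ⟨-, h2⟩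
    · obtain ⟨h7, -⟩ := D.isM_spec h2
      have h8 : i' = i := h7.symm.trans h4
      subst h8
      exact D.isM_unique h2 h1
    · obtain ⟨κ, rfl⟩ := D.isM_cases h1
      obtain ⟨q', h9, -⟩ := D.mem_bt_norm h2
      exact absurd h9 (by simp)
  · obtain ⟨t, hb, h4, h5⟩ := D.isM_norm h3
    rcases h2 with ⟨i', hi', h2⟩ | ⟨-, h2⟩
    · obtain ⟨t', hb', h6, h7⟩ := D.isM_norm h2
      subst h6
      rcases q0 with s | q0
      · exact absurd h1 (by simp [isM])
      simp only [isM] at h1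
      obtain ⟨e1, e2, e3, e4⟩ := h1
      rw [← h5] at e4
      obtain ⟨f1, f2, f3, f4⟩ := D.row_inj e4
      subst f2
      rw [D.blk_inj q0 (D.lt_b q0) q (D.lt_b q) t' e1 e2 e3 f4 |> Fin.ext]
    · obtain ⟨κ, rfl, hi2, h6⟩ := D.col_fam h1
      obtain ⟨q', h7, -, h8⟩ := D.mem_bt_norm h2
      have h9 := Sum.inr.inj h7
      subst h9
      have h10 : (⟨i, hi2⟩ : Fin D.R) = D.row (D.cl q, t, D.dig q t, D.pos q t) :=
        Fin.ext h5.symm
      rw [h6, h10, Equiv.symm_apply_apply] at h8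
      exact absurd h8.symm (bc_ne _ _)

open Classical in
theorem rigid (B : D.Bot) (hrow : D.RowEq) : (D.pt B hrow).dsg.Rigid := by
  refine (D.pt B hrow).rigid (D.La + D.m) (fun r j => D.rho r j) ?_ ?_ ?_
    (fun r j => (D.rho_lt r r.2 j).1) ?_ ?_
  · intro q i
    refine ⟨((univ.filter fun κ : D.KD => q ∈ B.bD κ).image fun κ => Sum.inl (Sum.inl κ)) ∪
      (univ.image fun t : Fin D.m => Sum.inl (Sum.inl (Sum.inl ⟨(D.cl q, t, D.dig q t),
        ⟨D.blk q t, D.blk_lt q (D.lt_b q) t⟩⟩))), ?_, ?_⟩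
    · refine (card_union_le _ _).trans (add_le_add ?_ ?_)
      · exact card_image_le.trans (by
          have := B.bD_load q
          unfold dg at this
          convert this)
      · refine card_image_le.trans ?_
        rw [card_univ, Fintype.card_fin]
    · intro k q' h1 h2
      have h1 := D.mrk_iff.1 h1
      rw [occ_iff] at h2
      rw [mem_union, mem_image, mem_image]
      rcases h2 with ⟨i', hi', h2⟩ | ⟨-, h2⟩
      · right
        obtain ⟨t', hb', h6, h7⟩ := D.isM_norm h2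
        exact ⟨t', mem_univ _, h6.symm⟩
      · left
        obtain ⟨κ, rfl⟩ := D.isM_cases h1
        obtain ⟨q', h9, h10, -⟩ := D.mem_bt_norm h2
        have h11 := Sum.inr.inj h9
        subst h11
        exact ⟨κ, mem_filter.2 ⟨mem_univ _, h10⟩, rfl⟩
  · intro r j
    have hre : D.rho r j < e := by
      have h1 := D.rho_lt r r.2 j
      have h2 := D.H.hk
      omega
    refine ⟨(univ : Finset (Fin (D.rho r j))).image (fun i0 : Fin (D.rho r j) =>
      (Sum.inl (Sum.inl (Sum.inr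
      ((D.row.symm r).1, (D.row.symm r).2.1, j, ⟨i0, i0.2.trans hre⟩))) : D.K)), ?_, ?_⟩
    · rw [card_image_of_injective, card_univ, Fintype.card_fin]
      intro i0 i0' h
      simp only [Sum.inl.injEq, Sum.inr.injEq, Prod.mk.injEq, true_and, Fin.mk.injEq] at h
      exact Fin.ext h
    · intro k hk
      rw [mem_image] at hk
      obtain ⟨i0, -, rfl⟩ := hk
      exact D.mrk_iff.2 ⟨rfl, rfl, rfl, rfl, i0.2⟩
  · intro r j i
    have hre : min (D.rho r j) (D.rho i j) < e := by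
      have h1 := D.rho_lt r r.2 j
      have h2 := D.H.hk
      omega
    refine ⟨(univ : Finset (Fin (min (D.rho r j) (D.rho i j)))).image
      (fun i0 : Fin (min (D.rho r j) (D.rho i j)) => (Sum.inl (Sum.inl (Sum.inr
      ((D.row.symm r).1, (D.row.symm r).2.1, j, ⟨i0, i0.2.trans hre⟩))) : D.K)), ?_, ?_⟩
    · refine card_image_le.trans ?_
      rw [card_univ, Fintype.card_fin]
    · intro k q' h1 h2
      have h1 := D.mrk_iff.1 h1
      rw [occ_iff] at h2
      rcases h2 with ⟨i', hi', h2⟩ | ⟨-, h2⟩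
      · obtain ⟨h7, i0, h8, h9⟩ := D.isM_spec h2
        subst h9
        rcases q' with s | q'
        · obtain ⟨h10, i0', h11, h12⟩ := D.isM_spec h1
          simp only [Sum.inl.injEq, Sum.inr.injEq, Prod.mk.injEq] at h12
          obtain ⟨-, -, h13, h14⟩ := h12
          rw [mem_image]
          refine ⟨⟨i0, ?_⟩, mem_univ _, rfl⟩
          rw [← h13, h10, ← h14] at h11
          exact lt_min h8 h11
        · exact absurd h1 (by simp [isM])
      · obtain ⟨κ, rfl⟩ := D.isM_cases h1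
        obtain ⟨q', h9, h10, -⟩ := D.mem_bt_norm h2
        exact absurd h9 (by simp)
  · intro r j r' j' h
    have h1 := D.rho_inj r r.2 r' r'.2 j j' h
    exact ⟨Fin.ext h1.1, h1.2⟩
  · intro p q hpq
    have ht : ∃ t : Fin D.m, (D.cl p = D.cl q → D.dig p t ≠ D.dig q t) ∧
        bc (D.cl q) t ≠ D.cl p := by
      by_cases hc : D.cl p = D.cl q
      · have : ∃ t, D.dig p t ≠ D.dig q t := by
          by_contra hcon
          push Not at hcon
          exact hpq (Fin.ext (D.addr p (D.lt_b p) q (D.lt_b q) hc hcon))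
        obtain ⟨t, ht⟩ := this
        exact ⟨t, fun _ => ht, by rw [hc]; exact bc_ne _ _⟩
      · obtain ⟨t, ht⟩ := exists_bc (c := D.cl q) (c' := D.cl p) D.H.hm2
        exact ⟨t, fun h => absurd h hc, ht⟩
    obtain ⟨t, ht1, ht2⟩ := ht
    refine ⟨D.row (D.cl q, t, D.dig q t, D.pos q t), ⟨_, D.mrk_iff.2 (D.isM_test q t)⟩, ?_⟩
    intro k q' h1 h2
    have h1 := D.mrk_iff.1 h1
    rw [occ_iff] at h2
    rcases h2 with ⟨i', hi', h2⟩ | ⟨-, h2⟩
    · obtain ⟨t', hb', h6, h7⟩ := D.isM_norm h2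
      subst h6
      rcases q' with s | q'
      · exact absurd h1 (by simp [isM])
      simp only [isM] at h1
      obtain ⟨e1, e2, e3, e4⟩ := h1
      obtain ⟨f1, f2, f3, f4⟩ := D.row_inj e4
      subst f2
      exact ht1 f1 f3
    · obtain ⟨κ, rfl, hi2, h6⟩ := D.col_fam h1
      obtain ⟨q', h7, -, h8⟩ := D.mem_bt_norm h2
      have h9 := Sum.inr.inj h7
      subst h9
      have h10 : (⟨((D.row (D.cl q, t, D.dig q t, D.pos q t) : Fin D.R) : ℕ), hi2⟩ : Fin D.R) =
          D.row (D.cl q, t, D.dig q t, D.pos q t) := rfl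
      rw [h6, h10, Equiv.symm_apply_apply] at h8
      exact ht2 h8.symm

end Dat

end Vale.Agent.P181.H162
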