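import Mathlib

/-!
# P181 (T6): completion of prescribed sets with exact degrees
-/

set_option autoImplicit false

namespace Vale.Agent.P181.H162

open Finset

variable {α ι : Type} [Fintype α] [DecidableEq α] [Fintype ι] [DecidableEq ι]

/-- the degree of a letter in a family of sets. -/
def dg (β : ι → Finset α) (q : α) : ℕ := (univ.filter (fun c => q ∈ β c)).card

theorem sum_dg (β : ι → Finset α) : ∑ q, dg β q = ∑ c, (β c).card := by
  unfold dg
  simp_rw [card_filter]
  rw [sum_comm]
  refine sum_congr rfl fun c _ => ?_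
  rw [← card_filter]
  congr 1
  ext q
  simp

/-- replace `x` by `y` in column `c`. -/
def rep (β : ι → Finset α) (c : ι) (x y : α) : ι → Finset α :=
  Function.update β c (insert y ((β c).erase x))

theorem card_rep {β : ι → Finset α} {c : ι} {x y : α} (hx : x ∈ β c) (hy : y ∉ β c) (c' : ι) :
    (rep β c x y c').card = (β c').card := by
  unfold rep
  by_cases h : c' = c
  · subst h
    rw [Function.update_self, card_insert_of_notMem (fun h => hy (mem_of_mem_erase h)),
      card_erase_of_mem hx]
    have := card_pos.2 ⟨x, hx⟩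
    omega
  · rw [Function.update_of_ne h]

theorem sub_rep {β G : ι → Finset α} (hG : ∀ c, G c ⊆ β c) {c : ι} {x y : α} (hx : x ∉ G c)
    (c' : ι) : G c' ⊆ rep β c x y c' := by
  unfold rep
  by_cases h : c' = c
  · subst h
    rw [Function.update_self]
    intro z hz
    rw [mem_insert, mem_erase]
    right
    exact ⟨fun h => hx (h ▸ hz), hG _ hz⟩
  · rw [Function.update_of_ne h]
    exact hG c'

theorem dg_rep {β : ι → Finset α} {c : ι} {x y : α} (hx : x ∈ β c) (hy : y ∉ β c) (q : α) :
    dg (rep β c x y) q + (if q = x then 1 else 0) = dg β q + (if q = y then 1 else 0) := by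
  have hxy : x ≠ y := fun h => hy (h ▸ hx)
  have h0 : ∀ γ : ι → Finset α, dg γ q =
      (if q ∈ γ c then 1 else 0) + ∑ c' ∈ univ.erase c, (if q ∈ γ c' then 1 else 0) := by
    intro γ
    unfold dg
    rw [card_filter, ← add_sum_erase _ _ (mem_univ c)]
  have h1 : ∑ c' ∈ univ.erase c, (if q ∈ rep β c x y c' then 1 else 0) =
      ∑ c' ∈ univ.erase c, (if q ∈ β c' then 1 else 0) := by
    refine sum_congr rfl fun c' hc' => ?_
    unfold rep
    rw [Function.update_of_ne (ne_of_mem_erase hc')]
  rw [h0, h0 β, h1]
  have h2 : rep β c x y c = insert y ((β c).erase x) := by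
    unfold rep
    rw [Function.update_self]
  rw [h2]
  by_cases hqx : q = x
  · subst hqx
    have h3 : q ∉ insert y ((β c).erase q) := by
      rw [mem_insert, mem_erase]
      rintro (h | h)
      · exact hxy h
      · exact h.1 rfl
    rw [if_neg h3, if_pos hx, if_pos rfl, if_neg hxy]
    omega
  · by_cases hqy : q = y
    · subst hqy
      rw [if_pos (mem_insert_self _ _), if_neg hy, if_neg hqx, if_pos rfl]
      omega
    · have h3 : (q ∈ insert y ((β c).erase x)) ↔ q ∈ β c := by
        rw [mem_insert, mem_erase]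
        constructor
        · rintro (h | h)
          · exact absurd h hqy
          · exact h.2
        · intro h
          exact Or.inr ⟨hqx, h⟩
      simp only [h3, if_neg hqx, if_neg hqy]

/-- **Completion with exact degrees.** -/
theorem exists_fill (n : ι → ℕ) (G : ι → Finset α) (g : α → ℕ) (nmax gmax pmax : ℕ)
    (hG : ∀ c, (G c).card ≤ n c) (hn : ∀ c, n c ≤ nmax) (hna : ∀ c, n c ≤ Fintype.card α)
    (hp : ∀ q, dg G q ≤ pmax) (hpg : ∀ q, dg G q ≤ g q) (hg : ∀ q, g q ≤ gmax)
    (hsum : ∑ q, g q = ∑ c, n c)
    (hroom : nmax * (2 * gmax + pmax) < ∑ c, (n c - (G c).card)) :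
    ∃ β : ι → Finset α, (∀ c, G c ⊆ β c) ∧ (∀ c, (β c).card = n c) ∧ ∀ q, dg β q = g q := by
  classical
  -- the set of completions
  set Ω : Finset (ι → Finset α) := univ.filter (fun β => (∀ c, G c ⊆ β c) ∧ ∀ c, (β c).card = n c)
    with hΩ
  have hne : Ω.Nonempty := by
    have h1 : ∀ c, ∃ s : Finset α, G c ⊆ s ∧ s.card = n c := by
      intro c
      obtain ⟨s, h1, -, h2⟩ := exists_subsuperset_card_eq (subset_univ (G c)) (hG c)
        (by rw [card_univ]; exact hna c)
      exact ⟨s, h1, h2⟩
    choose s hs using h1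
    exact ⟨s, by rw [hΩ, mem_filter]; exact ⟨mem_univ _, fun c => (hs c).1, fun c => (hs c).2⟩⟩
  obtain ⟨β, hβ, hmin⟩ := exists_min_image Ω (fun β => ∑ q, (dg β q - g q)) hne
  rw [hΩ, mem_filter] at hβ
  obtain ⟨-, hGβ, hcard⟩ := hβ
  refine ⟨β, hGβ, hcard, ?_⟩
  have htot : ∑ q, dg β q = ∑ q, g q := by
    rw [sum_dg, hsum]
    exact sum_congr rfl fun c _ => hcard c
  by_contra hcon
  push Not at hcon
  -- an over letter and an under letter
  have hover : ∃ q, g q < dg β q := by
    by_contra h
    push Not at h
    obtain ⟨q, hq⟩ := hcon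
    have h1 : ∑ q, dg β q < ∑ q, g q :=
      sum_lt_sum (fun i _ => h i) ⟨q, mem_univ _, lt_of_le_of_ne (h q) hq⟩
    omega
  have hunder : ∃ q, dg β q < g q := by
    by_contra h
    push Not at h
    obtain ⟨q, hq⟩ := hcon
    have h1 : ∑ q, g q < ∑ q, dg β q :=
      sum_lt_sum (fun i _ => h i) ⟨q, mem_univ _, lt_of_le_of_ne (h q) (Ne.symm hq)⟩
    omega
  obtain ⟨q', hq'⟩ := hunder
  -- improving moves are impossible
  have key : ∀ (γ : ι → Finset α) (q : α), g q < dg β q → (∀ c, G c ⊆ γ c) →
      (∀ c, (γ c).card = n c) →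
      (∀ z, dg γ z + (if z = q then 1 else 0) = dg β z + (if z = q' then 1 else 0)) → False := by
    intro γ q hq h1 h2 h3
    have h4 := hmin γ (by rw [hΩ, mem_filter]; exact ⟨mem_univ _, h1, h2⟩)
    have h5 : ∑ z, (dg γ z - g z) < ∑ z, (dg β z - g z) := by
      refine sum_lt_sum (fun z _ => ?_) ⟨q, mem_univ _, ?_⟩
      · have h6 := h3 z
        by_cases hz : z = q'
        · subst hz
          rw [if_pos rfl] at h6
          by_cases hz2 : z = q
          · subst hz2
            omega
          · rw [if_neg hz2] at h6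
            omega
        · rw [if_neg hz] at h6
          by_cases hz2 : z = q
          · rw [if_pos hz2] at h6
            omega
          · rw [if_neg hz2] at h6
            omega
      · have h6 := h3 q
        rw [if_pos rfl] at h6
        have hqq : q ≠ q' := by
          rintro rfl
          omega
        rw [if_neg hqq] at h6
        omega
    omega
  -- direct moves
  have hdir : ∀ q, g q < dg β q → ∀ c, q ∈ β c → q ∉ G c → q' ∈ β c := by
    intro q hq c hc1 hc2
    by_contra hc3
    exact key (rep β c q q') q hq (sub_rep hGβ hc2) (fun c' => by rw [card_rep hc1 hc3, hcard])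
      (fun z => dg_rep hc1 hc3 z)
  -- bound for the degrees
  have hle : ∀ q, g q < dg β q → dg β q ≤ dg G q + dg β q' := by
    intro q hq
    have h1 : (univ.filter (fun c => q ∈ β c)) ⊆
        (univ.filter (fun c => q ∈ G c)) ∪ (univ.filter (fun c => q' ∈ β c)) := by
      intro c hc
      rw [mem_filter] at hc
      rw [mem_union, mem_filter, mem_filter]
      by_cases h2 : q ∈ G c
      · exact Or.inl ⟨mem_univ _, h2⟩
      · exact Or.inr ⟨mem_univ _, hdir q hq c hc.2 h2⟩
    exact (card_le_card h1).trans (card_union_le _ _)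
  have hmax : ∀ q, dg β q ≤ gmax + pmax := by
    intro q
    rcases Nat.lt_or_ge (g q) (dg β q) with h | h
    · have h1 := hle q h
      have h2 := hp q
      have h3 := hg q'
      omega
    · have h3 := hg q
      omega
  obtain ⟨q, hq⟩ := hover
  -- a free incidence of `q`
  obtain ⟨c, hc1, hc2⟩ : ∃ c, q ∈ β c ∧ q ∉ G c := by
    by_contra h
    push Not at h
    have h1 : (univ.filter (fun c => q ∈ β c)) ⊆ (univ.filter (fun c => q ∈ G c)) := by
      intro c hc
      rw [mem_filter] at hc ⊢
      exact ⟨mem_univ _, h c hc.2⟩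
    have h2 := card_le_card h1
    have h3 := hpg q
    unfold dg at h3 hq
    omega
  -- a letter `y` outside of column `c`, free in a column without `q'`
  obtain ⟨c', y, hy1, hy2, hy3, hy4⟩ : ∃ c' y, y ∈ β c' ∧ y ∉ G c' ∧ q' ∉ β c' ∧ y ∉ β c := by
    by_contra h
    push Not at h
    -- count the free incidences in the columns without `q'`
    have h1 : ∑ c', (n c' - (G c').card) ≤
        ∑ c', ((if q' ∈ β c' then nmax else 0) + (((β c').filter (fun y => y ∈ β c)).card)) := by
      refine sum_le_sum fun c' _ => ?_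
      split_ifs with h2
      · have := hn c'
        omega
      · have h3 : β c' \ G c' ⊆ (β c').filter (fun y => y ∈ β c) := by
          intro y hy
          rw [mem_sdiff] at hy
          rw [mem_filter]
          exact ⟨hy.1, h c' y hy.1 hy.2 h2⟩
        have h4 := card_le_card h3
        rw [card_sdiff_of_subset (hGβ c'), hcard] at h4
        omega
    rw [sum_add_distrib] at h1
    have h2 : ∑ c', (if q' ∈ β c' then nmax else 0) = nmax * dg β q' := by
      unfold dg
      rw [← sum_filter, sum_const, smul_eq_mul, mul_comm]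
    have h3 : ∑ c', (((β c').filter (fun y => y ∈ β c)).card) = ∑ y ∈ β c, dg β y := by
      unfold dg
      simp_rw [card_filter]
      have h4 : ∀ c', ∑ y ∈ β c', (if y ∈ β c then 1 else 0) =
          ∑ y ∈ β c, (if y ∈ β c' then 1 else 0) := by
        intro c'
        rw [← card_filter, ← card_filter]
        congr 1
        ext y
        simp only [mem_filter]
        tauto
      rw [sum_congr rfl fun c' _ => h4 c', sum_comm]
    have h4 : ∑ y ∈ β c, dg β y ≤ (β c).card * (gmax + pmax) := by
      have := sum_le_card_nsmul (β c) (fun y => dg β y) (gmax + pmax) (fun y _ => hmax y)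
      rwa [smul_eq_mul] at this
    rw [hcard] at h4
    have h5 : n c * (gmax + pmax) ≤ nmax * (gmax + pmax) := Nat.mul_le_mul_right _ (hn c)
    have h6 : nmax * dg β q' ≤ nmax * gmax := Nat.mul_le_mul_left _ (by have := hg q'; omega)
    have h7 : nmax * (2 * gmax + pmax) = nmax * gmax + nmax * (gmax + pmax) := by ring
    omega
  -- the two-step move
  have hcc : c' ≠ c := by
    rintro rfl
    exact hy4 hy1
  have hq'c : q' ∈ β c := hdir q hq c hc1 hc2
  have hyq' : y ≠ q' := by
    rintro rfl
    exact hy3 hy1
  have hyc' : y ∈ rep β c q y c' := by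
    unfold rep
    rw [Function.update_of_ne hcc]
    exact hy1
  have hq'c' : q' ∉ rep β c q y c' := by
    unfold rep
    rw [Function.update_of_ne hcc]
    exact hy3
  refine key (rep (rep β c q y) c' y q') q hq ?_ ?_ ?_
  · exact sub_rep (sub_rep hGβ hc2) hy2
  · intro d
    rw [card_rep hyc' hq'c', card_rep hc1 hy4, hcard]
  · intro z
    have h1 := dg_rep hyc' hq'c' z
    have h2 := dg_rep hc1 hy4 z
    omega

end Vale.Agent.P181.H162
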