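import Vale.Agent.P181.H162.Dat6Q
import Vale.Agent.P181.H463.F2

/-!
# P181 (T6), (C2'): the design
-/

set_option autoImplicit false

namespace Vale.Agent.P181.H162

open Finset Vale.Agent.P181.T6 Vale.Agent.P181.T4

open Classical in
/-- [F3], 539 -/
structure Counts {e b n : ℕ} {lam : ℕ → ℕ} (D : Dat e b n lam) : Prop where
  row : ∀ {i : ℕ}, i < D.R → (univ.filter fun k : D.K => ∃ q, D.isM k i q).card =
    ∑ q ∈ range D.N, tau6 D.cl D.dig D.pos D.row q i + (D.rho i 0 + D.rho i 1)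
  norm : ∀ (q : Fin D.N) {i : ℕ}, i < D.R →
    (univ.filter fun k : D.K => D.isM k i (Sum.inr q)).card = tau6 D.cl D.dig D.pos D.row q i
  tau : ∀ q : ℕ, ∑ i ∈ range D.R, tau6 D.cl D.dig D.pos D.row q i = D.m
  spec : ∀ (s : Fin D.R × Fin 2) {i : ℕ}, i < D.R →
    (univ.filter fun k : D.K => D.isM k i (Sum.inl s)).card = if i = s.1 then D.rho s.1 s.2 else 0

namespace Dat

variable {e b n : ℕ}

theorem exists_bot {lam : ℕ → ℕ} (D : Dat e b n lam) : Nonempty D.Bot := by
  obtain ⟨bD, h1, h2, h3⟩ := D.exists_botD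
  obtain ⟨bF, d, h4, h5, h6, h7, h8⟩ := D.exists_botF (dg bD) h3 (by
    rw [sum_dg]
    exact sum_congr rfl fun κ _ => h2 κ)
  exact ⟨⟨bD, bF, d, h1, h2, h3, h4, h5, h6, h7, h8⟩⟩

theorem rowEq {lam : ℕ → ℕ} (D : Dat e b n lam) (hC : Counts D) : D.RowEq := by
  intro i hi
  rw [hC.row hi, D.lam_eq i hi]
  ring

open Classical in
theorem ic_spec {lam : ℕ → ℕ} (D : Dat e b n lam) (B : D.Bot) (hC : Counts D)
    (s : Fin D.R × Fin 2) : (D.pt B (D.rowEq hC)).ic (Sum.inl s) = e := by
  unfold Pt.ic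
  have h1 : ∑ i ∈ range D.R, (univ.filter fun k : D.K =>
      (D.pt B (D.rowEq hC)).mrk k i = some (Sum.inl s)).card = D.rho s.1 s.2 := by
    have h2 : ∀ i ∈ range D.R, (univ.filter fun k : D.K =>
        (D.pt B (D.rowEq hC)).mrk k i = some (Sum.inl s)).card =
        if i = s.1 then D.rho s.1 s.2 else 0 := by
      intro i hi
      rw [← hC.spec s (mem_range.1 hi)]
      apply congrArg card
      ext k
      rw [mem_filter, mem_filter]
      exact and_congr_right fun _ => D.mrk_iff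
    rw [sum_congr rfl h2, sum_ite_eq', if_pos (mem_range.2 s.1.2)]
  have h3 : (univ.filter fun k : D.K => (D.pt B (D.rowEq hC)).fx k ∧
      Sum.inl s ∈ (D.pt B (D.rowEq hC)).bt k).card = dg B.bF (Sum.inl s) := by
    unfold dg
    symm
    refine card_bij (fun κ _ => Sum.inl (Sum.inr κ)) ?_ ?_ ?_
    · intro κ hκ
      rw [mem_filter] at hκ ⊢
      exact ⟨mem_univ _, trivial, hκ.2⟩
    · intro κ _ κ' _ h
      exact Sum.inr.inj (Sum.inl.inj h)
    · intro k hk
      rw [mem_filter] at hk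
      obtain ⟨-, hf, hk⟩ := hk
      rcases k with ((κ | κ) | κ)
      · obtain ⟨q', h9, -⟩ := D.mem_bt_norm hk
        exact absurd h9 (by simp)
      · exact ⟨κ, mem_filter.2 ⟨mem_univ _, hk⟩, rfl⟩
      · exact absurd hf id
  refine Eq.trans ?_ (B.spec s)
  refine congrArg₂ (· + ·) ?_ ?_
  · refine Eq.trans ?_ h1
    refine sum_congr rfl fun i _ => ?_
    congr!
  · refine Eq.trans ?_ h3
    congr!

open Classical in
theorem ic_norm {lam : ℕ → ℕ} (D : Dat e b n lam) (B : D.Bot) (hC : Counts D)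
    (q : Fin D.N) : (D.pt B (D.rowEq hC)).ic (Sum.inr q) + B.d q = e := by
  unfold Pt.ic
  have h1 : ∑ i ∈ range D.R, (univ.filter fun k : D.K =>
      (D.pt B (D.rowEq hC)).mrk k i = some (Sum.inr q)).card = D.m := by
    have h2 : ∀ i ∈ range D.R, (univ.filter fun k : D.K =>
        (D.pt B (D.rowEq hC)).mrk k i = some (Sum.inr q)).card =
        tau6 D.cl D.dig D.pos D.row q i := by
      intro i hi
      rw [← hC.norm q (mem_range.1 hi)]
      apply congrArg card
      ext k
      rw [mem_filter, mem_filter]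
      exact and_congr_right fun _ => D.mrk_iff
    rw [sum_congr rfl h2, hC.tau]
  have h3 : (univ.filter fun k : D.K => (D.pt B (D.rowEq hC)).fx k ∧
      Sum.inr q ∈ (D.pt B (D.rowEq hC)).bt k).card = dg B.bD q + dg B.bF (Sum.inr q) := by
    unfold dg
    have h4 : (univ.filter fun k : D.K => (D.pt B (D.rowEq hC)).fx k ∧
        Sum.inr q ∈ (D.pt B (D.rowEq hC)).bt k) =
        ((univ.filter fun κ => q ∈ B.bD κ).map ⟨fun κ => (Sum.inl (Sum.inl κ) : D.K), by
          intro κ κ' h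
          exact Sum.inl.inj (Sum.inl.inj h)⟩) ∪
        ((univ.filter fun κ => Sum.inr q ∈ B.bF κ).map ⟨fun κ => (Sum.inl (Sum.inr κ) : D.K), by
          intro κ κ' h
          exact Sum.inr.inj (Sum.inl.inj h)⟩) := by
      ext k
      simp only [mem_filter, mem_univ, true_and, mem_union, mem_map,
        Function.Embedding.coeFn_mk]
      constructor
      · rintro ⟨hf, hk⟩
        rcases k with ((κ | κ) | κ)
        · left
          obtain ⟨q', h9, h10, -⟩ := D.mem_bt_norm hk
          have := Sum.inr.inj h9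
          subst this
          exact ⟨κ, h10, rfl⟩
        · right
          exact ⟨κ, hk, rfl⟩
        · exact absurd hf id
      · rintro (⟨κ, hκ, rfl⟩ | ⟨κ, hκ, rfl⟩)
        · refine ⟨trivial, ?_⟩
          show Sum.inr q ∈ (B.bD κ).map ⟨Sum.inr, Sum.inr_injective⟩
          rw [mem_map]
          exact ⟨q, hκ, rfl⟩
        · exact ⟨trivial, hκ⟩
    rw [h4, card_union_of_disjoint, card_map, card_map]
    rw [Finset.disjoint_left]
    intro k hk hk'
    rw [mem_map] at hk hk'
    obtain ⟨κ, -, h5⟩ := hk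
    obtain ⟨κ', -, h6⟩ := hk'
    rw [← h6] at h5
    exact absurd (Sum.inl.inj h5) (by simp)
  refine Eq.trans ?_ (B.norm q)
  refine congrArg (· + B.d q) ?_
  refine Eq.trans ?_ (add_assoc D.m (dg B.bD q) (dg B.bF (Sum.inr q))).symm
  refine congrArg₂ (· + ·) ?_ ?_
  · refine Eq.trans ?_ h1
    refine sum_congr rfl fun i _ => ?_
    congr!
  · refine Eq.trans ?_ h3
    congr!

open Classical in
/-- **The design.** -/
theorem designFor {lam : Fin n → ℕ} (D : Dat e b n (ex lam)) (hC : Counts D) :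
    ∃ eta, DesignFor e b n D.R D.N (FC e b D.m D.u D.Y D.x D.G D.P * (4 * D.l)) lam eta := by
  obtain ⟨B⟩ := D.exists_bot
  refine designFor_of_pt (D.pt B (D.rowEq hC)) D.w_sum (D.types B _) (D.rigid B _) (D.uniq B _)
    (D.ic_spec B hC) B.d (D.ic_norm B hC) B.bal ?_
  have h1 : ∑ k ∈ univ.filter (fun k => (D.pt B (D.rowEq hC)).fx k),
      (len6 n (ex lam) ((D.pt B (D.rowEq hC)).col k) - D.R) ≤
      ∑ _k ∈ univ.filter (fun k => (D.pt B (D.rowEq hC)).fx k), 4 * D.l := by
    refine sum_le_sum fun k hk => ?_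
    rcases k with (κ | κ)
    · exact D.nc_le κ
    · exact absurd (mem_filter.1 hk).2 id
  refine h1.trans ?_
  rw [sum_const, smul_eq_mul]
  refine Nat.mul_le_mul_right _ ?_
  refine le_trans ?_ D.card_fix
  rw [← card_univ]
  refine card_le_card_of_surjOn (fun κ => Sum.inl κ) ?_
  intro k hk
  rcases k with (κ | κ)
  · exact ⟨κ, by simp, rfl⟩
  · exact absurd (mem_filter.1 (mem_coe.1 hk)).2 id

end Dat

end Vale.Agent.P181.H162
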