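import Vale.Agent.P181.H162.Dat6Z
import Vale.Agent.P181.H539.F3
import Vale.Agent.P181.H463.LT
import Vale.Agent.P181.H744.RowsStmt
import Vale.Agent.P181.H411.Par6

/-!
# P181 (T6/LB6), (C2'): `ExistStmt`
-/

set_option autoImplicit false

namespace Vale.Agent.P181.H162

open Finset Vale.Agent.P181.T6 Vale.Agent.P181.T4

theorem Dat.counts {e b n : ℕ} {lam : ℕ → ℕ} (D : Dat e b n lam) : Counts D where
  row := fun hi => D.card_mark_row hi
  norm := fun q _ hi => D.card_mark_norm q hi
  tau := fun q => D.sum_tau q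
  spec := fun s _ hi => D.card_mark_spec s hi

/-- the number of marks in a row is at most the number of blocks. -/
theorem sum_tau6_le {b m u Y R : ℕ} {cl : ℕ → Fin 4} {dig : ℕ → Fin m → Fin u}
    {pos : ℕ → Fin m → Fin Y} {blk : ℕ → Fin m → ℕ} {nb : Fin 4 → Fin m → Fin u → ℕ}
    (row : Fin 4 × Fin m × Fin u × Fin Y ≃ Fin R)
    (h2 : ∀ q < b, ∀ t, blk q t < nb (cl q) t (dig q t))
    (h3 : ∀ q < b, ∀ q' < b, ∀ t, cl q = cl q' → dig q t = dig q' t → blk q t = blk q' t →
      pos q t = pos q' t → q = q')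
    (h4 : ∀ c t, ∑ x, nb c t x ≤ (b / 4 + 1) / Y + u) {r : ℕ} (hr : r < R) :
    ∑ q ∈ range b, tau6 cl dig pos row q r ≤ (b / 4 + 1) / Y + u := by
  classical
  obtain ⟨⟨c, t, x, y⟩, hc⟩ : ∃ z, row z = ⟨r, hr⟩ := row.surjective _
  have hτ : ∀ q, tau6 cl dig pos row q r ≤ if cl q = c ∧ dig q t = x ∧ pos q t = y then 1 else 0 := by
    intro q
    unfold tau6
    have hsub : (univ.filter fun t' : Fin m =>
        ((row (cl q, t', dig q t', pos q t') : Fin R) : ℕ) = r) ⊆
        if cl q = c ∧ dig q t = x ∧ pos q t = y then {t} else ∅ := by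
      intro t' ht'
      have h5 : row (cl q, t', dig q t', pos q t') = row (c, t, x, y) := by
        rw [hc]
        exact Fin.ext (mem_filter.1 ht').2
      have h6 := row.injective h5
      simp only [Prod.mk.injEq] at h6
      obtain ⟨e1, e2, e3, e4⟩ := h6
      subst e2
      rw [if_pos ⟨e1, e3, e4⟩]
      exact mem_singleton_self _
    refine (card_le_card hsub).trans ?_
    split_ifs
    · simp
    · simp
  refine (sum_le_sum fun q _ => hτ q).trans ?_
  rw [← card_filter]
  refine le_trans ?_ (h4 c t)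
  refine le_trans ?_ (single_le_sum (f := fun x => nb c t x) (fun _ _ => Nat.zero_le _)
    (mem_univ x))
  have h7 : ((range b).filter fun q => cl q = c ∧ dig q t = x ∧ pos q t = y).card ≤
      (range (nb c t x)).card := by
    refine card_le_card_of_injOn (fun q => blk q t) ?_ ?_
    · intro q hq
      rw [mem_coe, mem_filter, mem_range] at hq
      obtain ⟨hb, e1, e2, e3⟩ := hq
      rw [mem_coe, mem_range]
      have := h2 q hb t
      rwa [e1, e2] at this
    · intro q hq q' hq' h
      rw [mem_coe, mem_filter, mem_range] at hq hq'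
      exact h3 q hq.1 q' hq'.1 t (hq.2.1.trans hq'.2.1.symm) (hq.2.2.1.trans hq'.2.2.1.symm) h
        (hq.2.2.2.trans hq'.2.2.2.symm)
  rwa [card_range] at h7

/-- The design from the numbers. -/
theorem exists_design {k b n m u Y R l x h G P La wm Nl : ℕ} {lam : Fin n → ℕ}
    (hlam : Antitone lam)
    (H : Par6 k b n (ex lam) m u Y R l x h G P La wm Nl) :
    ∃ N eta, Nl ≤ N ∧ N ≤ b ∧
      DesignFor k b n R N (FC k b m u Y x G P * (4 * l)) lam eta := by
  have hanti : Antitone (ex lam) := fun i j hij => ex_anti hlam hij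
  obtain ⟨cl, dig, pos, blk, nb, h1, h2, h3, h4, h5⟩ :=
    Vale.Agent.P181.H463.tests_stmt b u m Y H.hu H.hY H.hb
  have hcard : Fintype.card (Fin 4 × Fin m × Fin u × Fin Y) = Fintype.card (Fin R) := by
    simp only [Fintype.card_prod, Fintype.card_fin]
    rw [H.hR]
    ring
  let row : Fin 4 × Fin m × Fin u × Fin Y ≃ Fin R := Fintype.equivOfCardEq hcard
  obtain ⟨N, w, rho, g1, g2, g3, g4, g5, g6, g7⟩ := Vale.Agent.P181.H744.rows_stmt k b R
    (La + m) wm Nl (ex lam) (tau6 cl dig pos row) H.hk H.hRk H.hK (by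
      intro r hr
      have e1 := sum_tau6_le row h2 h3 h4 hr
      have e2 := H.hrow
      have e3 : ex lam (l - 1) ≤ ex lam r := by
        apply hanti
        have := H.hRl
        omega
      omega) H.htop
  let D : Dat k b n (ex lam) :=
    { m := m, u := u, Y := Y, R := R, l := l, x := x, h := h, G := G, P := P, La := La, wm := wm,
      Nl := Nl, H := H, anti := hanti, cl := cl, dig := dig, pos := pos, blk := blk, nb := nb,
      addr := h1, blk_lt := h2, blk_inj := h3, nb_le := h4, cl_card := h5, row := row, N := N,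
      w := w, rho := rho, N_le := g1, Nl_le := g2, lam_eq := g3, wm_le := g4, w_sum := g5,
      rho_lt := g6, rho_inj := g7 }
  obtain ⟨eta, heta⟩ := D.designFor D.counts
  exact ⟨N, eta, g2, g1, heta⟩

/-- **(C2')** -/
theorem exist_stmt : ExistStmt := by
  intro ε hε hε2
  filter_upwards [Vale.Agent.P181.H411.par6_stmt ε hε hε2] with a ha k b n lam hyp
  obtain ⟨m, u, Y, R, l, x, h, G, P, La, wm, Nl, H, hN⟩ := ha k b n lam hyp
  have hlam : Antitone lam := hyp.2.2.2.2.2.1
  obtain ⟨N, eta, h1, h2, h3⟩ := exists_design hlam H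
  exact ⟨R, N, l, _, eta, hN N h1 h2, h3⟩

end Vale.Agent.P181.H162
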