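import Vale.Agent.P181.H162.Frm2
import Vale.Agent.P181.T4.Typ

/-!
# P181 (T4), (C2): the frame from its numbers
-/

set_option autoImplicit false

namespace Vale.Agent.P181.H162

open Finset Vale.Agent.P181.T4

theorem inc_eq_cnt {m R N n : ℕ} {T : Type} [Fintype T] (Fr : Frame m R N T (Fin n))
    (srv : ℕ → ℕ → T ⊕ Fin N) (len : ℕ → ℕ) (h1 : ∀ c : Fin n, Fr.srv c = srv c)
    (h2 : ∀ c : Fin n, Fr.len c = len c) (p : T ⊕ Fin N) : Fr.inc p = cnt srv p R n len := by
  unfold Frame.inc cnt
  simp only [h1, h2]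
  refine sum_congr rfl fun c _ => ?_
  congr!
  exact h1 c

theorem frameFor_of_par {a b R L : ℕ} {lam : Fin a → ℕ} (P : Par) (ha : P.a = a)
    (hS : P.S + 1 = R) (hlam : P.lam = ex lam) (hT : P.T + P.N = b) (hN : 0 < P.N)
    (hb : b ≤ P.N + R * (L / a + 3)) (hbal : ∀ q q', ∑ i, P.M q i ≤ ∑ i, P.M q' i + 1) :
    FrameFor a b R L lam := by
  classical
  subst ha hS
  have hm : P.S + 1 < P.a := by
    by_contra h
    have h1 := P.hL
    rw [hlam] at h1
    unfold ex at h1
    rw [dif_neg h] at h1
    omega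
  have hk : ∀ q, ∑ i, P.M q i ≤ P.a := fun q => by
    have h1 := P.deg q
    have h2 := P.ha
    omega
  have hinc : ∀ p, (P.frame hm hN).inc p = cnt P.srv p (P.S + 1) (P.lam 0) (P.ln P.a) := by
    intro p
    exact inc_eq_cnt (P.frame hm hN) P.srv (P.ln P.a) (fun _ => rfl) (fun _ => rfl) p
  refine ⟨P.N, P.Tp, Fin (P.lam 0), inferInstance, inferInstance, P.frame hm hN,
    fun q => P.a - ∑ i, P.M q i, hb, ?_, ?_, ?_, ?_, ?_⟩
  · rw [P.card_Tp, hT]
  · intro i
    have h1 : (univ.filter fun c : Fin (P.lam 0) => (i : ℕ) < (P.frame hm hN).len c) =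
        univ.filter fun c : Fin (P.lam 0) => (c : ℕ) < lam i := by
      ext c
      rw [mem_filter, mem_filter]
      have h2 : (i : ℕ) < (P.frame hm hN).len c ↔ (c : ℕ) < lam i := by
        show (i : ℕ) < P.ln P.a c ↔ _
        rw [P.lt_ln]
        have h3 : P.lam i = lam i := by
          rw [hlam]
          unfold ex
          rw [dif_pos i.2]
        rw [h3]
        exact ⟨fun h => h.2, fun h => ⟨i.2, h⟩⟩
      rw [h2]
    have h4 : lam i ≤ P.lam 0 := by
      have h5 := P.anti (Nat.zero_le (i : ℕ))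
      have h3 : P.lam i = lam i := by
        rw [hlam]
        unfold ex
        rw [dif_pos i.2]
      rw [← h3]
      exact h5
    have h6 : (univ.filter fun c : Fin (P.lam 0) => (c : ℕ) < lam i).card = lam i := by
      have h7 : (univ.filter fun c : Fin (P.lam 0) => (c : ℕ) < lam i).image Fin.val =
          range (lam i) := by
        ext c
        rw [mem_image, mem_range]
        constructor
        · rintro ⟨x, hx, rfl⟩
          exact (mem_filter.1 hx).2
        · intro hc
          exact ⟨⟨c, hc.trans_le h4⟩, by rw [mem_filter]; exact ⟨mem_univ _, hc⟩, rfl⟩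
      rw [← card_image_of_injective _ Fin.val_injective, h7, card_range]
    rw [← h6]
    convert congrArg card h1 using 2
  · rintro (x | y)
    · rw [hinc]
      exact P.inc_pure hm x
    · rw [hinc]
      exact P.inc_mix hm y
  · intro q
    rw [hinc, P.inc_pt hm q]
    exact Nat.add_sub_cancel' (hk q)
  · intro q q'
    have h1 := hbal q' q
    have h2 := hk q
    have h3 := hk q'
    show P.a - ∑ i, P.M q i ≤ P.a - ∑ i, P.M q' i + 1
    omega

end Vale.Agent.P181.H162
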