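import Vale.Agent.P181.H162.Srv
import Vale.Agent.P181.H498.Design

/-!
# P181 (T4): the frame
-/

set_option autoImplicit false

namespace Vale.Agent.P181.H162

open Finset

open Classical in
/-- the number of incidences of the position `p`. -/
noncomputable def cnt {X : Type} (srv : ℕ → ℕ → X) (p : X) (R n : ℕ) (len : ℕ → ℕ) : ℕ :=
  ∑ c : Fin n, ((range (len c)).filter (fun i => i < R ∧ srv c i = p)).card

open Classical in
/-- the number of incidences of the position `p` with the row `i` of length `n`. -/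
noncomputable def rowc {X : Type} (srv : ℕ → ℕ → X) (p : X) (n i : ℕ) : ℕ :=
  ((range n).filter (fun c => srv c i = p)).card

theorem rowc_eq {X : Type} (srv : ℕ → ℕ → X) (p : X) (n i : ℕ) (s : Finset ℕ)
    (hs : ∀ c, c ∈ s ↔ c < n ∧ srv c i = p) : rowc srv p n i = s.card := by
  classical
  unfold rowc
  congr 1
  ext c
  simp only [mem_filter, mem_range, hs]

theorem rowc_eq_zero {X : Type} (srv : ℕ → ℕ → X) (p : X) (n i : ℕ)
    (hs : ∀ c, c < n → srv c i ≠ p) : rowc srv p n i = 0 := by
  rw [rowc_eq srv p n i ∅, card_empty]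
  intro c
  constructor
  · intro h
    simp at h
  · rintro ⟨h1, h2⟩
    exact absurd h2 (hs c h1)

theorem dbl {X : Type} (srv : ℕ → ℕ → X) (p : X) (R n : ℕ) (len l : ℕ → ℕ)
    (hl : ∀ c i, i < R → (i < len c ↔ c < l i)) (hn : ∀ i, l i ≤ n) :
    cnt srv p R n len = ∑ i ∈ range R, rowc srv p (l i) i := by
  classical
  have h1 : ∀ c : Fin n, ((range (len c)).filter (fun i => i < R ∧ srv c i = p)).card =
      ∑ i ∈ range R, if (i < len c ∧ srv c i = p) then 1 else 0 := by
    intro c
    rw [← card_filter]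
    congr 1
    ext i
    simp only [mem_filter, mem_range]
    tauto
  unfold cnt rowc
  rw [sum_congr rfl fun c _ => h1 c, sum_comm]
  refine sum_congr rfl fun i hi => ?_
  rw [mem_range] at hi
  rw [Fin.sum_univ_eq_sum_range (fun c => if (i < len c ∧ srv c i = p) then 1 else 0) n,
    ← card_filter]
  congr 1
  ext c
  simp only [mem_filter, mem_range]
  constructor
  · rintro ⟨-, h2, h3⟩
    exact ⟨(hl c i hi).1 h2, h3⟩
  · rintro ⟨h2, h3⟩
    exact ⟨h2.trans_le (hn i), (hl c i hi).2 h2, h3⟩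

namespace Par

variable (P : Par)

/-- the length of the column `c` (`m` rows). -/
def ln (m c : ℕ) : ℕ := ((range m).filter (fun i => c < P.lam i)).card

theorem lt_ln {m c i : ℕ} : i < P.ln m c ↔ i < m ∧ c < P.lam i := by
  have hs : ∀ i ∈ (range m).filter (fun i => c < P.lam i), ∀ j ≤ i,
      j ∈ (range m).filter (fun i => c < P.lam i) := by
    intro i hi j hj
    rw [mem_filter, mem_range] at hi ⊢
    exact ⟨by omega, hi.2.trans_le (P.anti hj)⟩
  have key : i < P.ln m c ↔ i ∈ (range m).filter (fun i => c < P.lam i) := by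
    constructor
    · intro h
      by_contra hi
      have h1 : (range m).filter (fun i => c < P.lam i) ⊆ range i := by
        intro j hj
        rw [mem_range]
        by_contra hji
        exact hi (hs j hj i (by omega))
      have h2 := card_le_card h1
      rw [card_range] at h2
      unfold ln at h
      omega
    · intro h
      have h1 : range (i + 1) ⊆ (range m).filter (fun i => c < P.lam i) := by
        intro j hj
        rw [mem_range] at hj
        exact hs i h j (by omega)
      have h2 := card_le_card h1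
      rw [card_range] at h2
      unfold ln
      omega
  rw [key, mem_filter, mem_range]

theorem ln_le (m c : ℕ) : P.ln m c ≤ m := by
  have := card_filter_le (range m) (fun i => c < P.lam i)
  rwa [card_range] at this

theorem ln_rsv {m : ℕ} (hm : P.S + 1 < m) {i : ℕ} (hi : i ≤ P.S) {c : ℕ} (hc : c ∈ P.rsv i) :
    P.ln m c = i + 1 := by
  rw [rsv, mem_Ico] at hc
  have h1 := P.rsv_le i hi
  have h2 : i < P.ln m c := P.lt_ln.2 ⟨by omega, by omega⟩
  have h3 : ¬ (i + 1 < P.ln m c) := by
    rw [P.lt_ln]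
    rintro ⟨-, h⟩
    omega
  omega

theorem ln_short {m : ℕ} (hm : P.S + 1 < m) {c : ℕ} :
    P.ln m c ≤ P.S + 1 ↔ P.lam (P.S + 1) ≤ c := by
  rw [← not_lt, P.lt_ln]
  constructor
  · intro h
    by_contra h'
    exact h ⟨hm, by omega⟩
  · rintro h ⟨-, h'⟩
    omega

theorem rsv_lt {i : ℕ} (hi : i ≤ P.S) {c : ℕ} (hc : c ∈ P.rsv i) : c < P.lam i := by
  rw [rsv, mem_Ico] at hc
  have h1 := P.rsv_le i hi
  omega

/-- the number of incidences. -/
theorem inc_eq {m : ℕ} (hm : P.S + 1 < m) (p : P.Tp ⊕ Fin P.N) :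
    cnt P.srv p (P.S + 1) (P.lam 0) (P.ln m) =
      ∑ i ∈ range (P.S + 1), rowc P.srv p (P.lam i) i :=
  dbl P.srv p (P.S + 1) (P.lam 0) (P.ln m) P.lam
    (fun c i hi => by rw [P.lt_ln]; constructor
                      · exact fun h => h.2
                      · exact fun h => ⟨by omega, h⟩)
    (fun i => P.anti (Nat.zero_le i))

theorem inc_pure {m : ℕ} (hm : P.S + 1 < m) (x : Σ i : Fin (P.S + 1), Fin (P.w i)) :
    cnt P.srv (Sum.inl (Sum.inl x)) (P.S + 1) (P.lam 0) (P.ln m) = P.a := by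
  rw [P.inc_eq hm]
  obtain ⟨i', p⟩ := x
  have h1 : ∀ i ∈ range (P.S + 1), i ≠ (i' : ℕ) →
      rowc P.srv (Sum.inl (Sum.inl ⟨i', p⟩)) (P.lam i) i = 0 := by
    intro i hi hne
    rw [mem_range] at hi
    refine rowc_eq_zero _ _ _ _ fun c hc h => ?_
    have h2 := (P.srv_eq_pure (i := ⟨i, hi⟩) hc).1 h
    exact hne (congrArg Fin.val h2.1)
  rw [sum_eq_single_of_mem (i' : ℕ) (mem_range.2 i'.2) h1]
  rw [← P.card_pi i' p]
  apply rowc_eq
  intro c
  rw [mem_filter]
  constructor
  · rintro ⟨h2, h3⟩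
    have hc : c < P.lam i' := by
      unfold pur at h2
      rw [mem_sdiff, mem_sdiff, mem_sdiff, mem_range] at h2
      exact h2.1.1.1
    exact ⟨hc, (P.srv_eq_pure (i := i') hc).2 ⟨rfl, h2, h3⟩⟩
  · rintro ⟨hc, h⟩
    have h2 := (P.srv_eq_pure (i := i') hc).1 h
    exact h2.2

theorem inc_mix {m : ℕ} (hm : P.S + 1 < m) (y : Fin P.S × Fin 2) :
    cnt P.srv (Sum.inl (Sum.inr y)) (P.S + 1) (P.lam 0) (P.ln m) = P.a := by
  rw [P.inc_eq hm]
  have hy : (y.1 : ℕ) < P.S := y.1.2
  have h1 : ∀ i ∈ range (P.S + 1),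
      rowc P.srv (Sum.inl (Sum.inr y)) (P.lam i) i =
      (if i = (y.1 : ℕ) then (P.own y.1 y.2).card else 0) +
      (if i = (y.1 : ℕ) + 1 then (P.up y.1 y.2).card else 0) := by
    intro i hi
    rw [mem_range] at hi
    by_cases h2 : i = (y.1 : ℕ)
    · rw [if_pos h2, if_neg (by omega), add_zero]
      apply rowc_eq
      intro c
      constructor
      · intro h
        have hc : c < P.lam i := by
          have := P.own_sub y.1 hy.le y.2 h
          rw [mem_range] at this
          rw [h2]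
          exact this
        exact ⟨hc, (P.srv_eq_mix (i := ⟨i, hi⟩) hc).2 (Or.inl ⟨h2.symm, h⟩)⟩
      · rintro ⟨hc, h⟩
        rcases (P.srv_eq_mix (i := ⟨i, hi⟩) hc).1 h with h3 | h3
        · exact h3.2
        · exfalso
          have h4 : (y.1 : ℕ) + 1 = i := h3.1
          omega
    · by_cases h3 : i = (y.1 : ℕ) + 1
      · rw [if_neg h2, if_pos h3, zero_add]
        apply rowc_eq
        intro c
        constructor
        · intro h
          have hc : c < P.lam i := by
            have := P.up_sub i (by omega) y.2 h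
            rw [mem_range] at this
            exact this
          exact ⟨hc, (P.srv_eq_mix (i := ⟨i, hi⟩) hc).2 (Or.inr ⟨h3.symm, h⟩)⟩
        · rintro ⟨hc, h⟩
          rcases (P.srv_eq_mix (i := ⟨i, hi⟩) hc).1 h with h4 | h4
          · exfalso
            have h5 : (y.1 : ℕ) = i := h4.1
            omega
          · exact h4.2
      · rw [if_neg h2, if_neg h3]
        refine rowc_eq_zero _ _ _ _ fun c hc h => ?_
        rcases (P.srv_eq_mix (i := ⟨i, hi⟩) hc).1 h with h4 | h4
        · exact h2 h4.1.symm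
        · exact h3 h4.1.symm
  rw [sum_congr rfl h1, sum_add_distrib, sum_ite_eq', sum_ite_eq', if_pos (mem_range.2 (by omega)),
    if_pos (mem_range.2 (by omega)), P.card_own _ hy.le, P.card_up]
  have := P.u_le y.1 y.2
  omega

/-- the number of blocks of the free point `q` in row `i`. -/
theorem card_blk (q : Fin P.N) (i : ℕ) :
    (univ.filter (fun x : P.B => (x.2.1 : ℕ) = i ∧ x.1 = q)).card =
      if h : i < P.R1 + 1 then P.M q ⟨i, h⟩ else 0 := by
  classical
  rw [card_filter, Fintype.sum_sigma]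
  rw [sum_eq_single_of_mem q (mem_univ _)]
  · rw [Fintype.sum_sigma]
    have h2 : ∀ j : Fin (P.R1 + 1), (∑ x : Fin (P.M q j),
        if ((((⟨q, ⟨j, x⟩⟩ : P.B).2.1 : Fin (P.R1 + 1)) : ℕ) = i ∧
          (⟨q, ⟨j, x⟩⟩ : P.B).1 = q) then 1 else 0) =
        if (j : ℕ) = i then P.M q j else 0 := by
      intro j
      by_cases hj : (j : ℕ) = i
      · simp [hj]
      · simp [hj]
    rw [sum_congr rfl fun j _ => h2 j]
    split_ifs with h
    · rw [sum_eq_single_of_mem (⟨i, h⟩ : Fin (P.R1 + 1)) (mem_univ _)]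
      · simp
      · intro j _ hj
        rw [if_neg]
        intro hj'
        exact hj (Fin.ext hj')
    · refine sum_eq_zero fun j _ => ?_
      rw [if_neg]
      intro hj
      exact h (hj ▸ j.2)
  · intro q' _ hq'
    refine sum_eq_zero fun x _ => ?_
    rw [if_neg]
    rintro ⟨-, h⟩
    exact hq' h

theorem inc_pt {m : ℕ} (hm : P.S + 1 < m) (q : Fin P.N) :
    cnt P.srv (Sum.inr q) (P.S + 1) (P.lam 0) (P.ln m) = ∑ i, P.M q i := by
  rw [P.inc_eq hm]
  have h1 : ∀ i ∈ range (P.S + 1),
      rowc P.srv (Sum.inr q) (P.lam i) i =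
      if h : i < P.R1 + 1 then P.M q ⟨i, h⟩ else 0 := by
    intro i hi
    rw [mem_range] at hi
    rw [← P.card_blk q i, ← card_image_of_injective _ P.kap_inj]
    apply rowc_eq
    intro c
    rw [mem_image]
    constructor
    · rintro ⟨x, hx, rfl⟩
      rw [mem_filter] at hx
      obtain ⟨-, h2, h4⟩ := hx
      have hc : P.kap x < P.lam i := by
        have h5 := P.kap_lt x
        have h6 : i ≤ P.R1 := by have := x.2.1.2; omega
        have h7 := P.anti h6
        omega
      exact ⟨hc, (P.srv_eq_inr (i := ⟨i, hi⟩) hc).2 ⟨x, h2, rfl, h4⟩⟩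
    · rintro ⟨hc, h⟩
      obtain ⟨x, h2, h3, h4⟩ := (P.srv_eq_inr (i := ⟨i, hi⟩) hc).1 h
      exact ⟨x, by rw [mem_filter]; exact ⟨mem_univ _, h2, h4⟩, h3⟩
  rw [sum_congr rfl h1]
  have h2 : ∑ i ∈ range (P.S + 1), (if h : i < P.R1 + 1 then P.M q ⟨i, h⟩ else 0) =
      ∑ i ∈ range (P.R1 + 1), (if h : i < P.R1 + 1 then P.M q ⟨i, h⟩ else 0) := by
    symm
    refine sum_subset (range_subset_range.2 (by have := P.hR1; omega)) fun i _ hi => ?_
    rw [mem_range] at hi
    rw [dif_neg hi]
  rw [h2, ← Fin.sum_univ_eq_sum_range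
    (fun i => if h : i < P.R1 + 1 then P.M q ⟨i, h⟩ else 0) (P.R1 + 1)]
  exact sum_congr rfl fun i _ => by simp [i.2]

end Par

end Vale.Agent.P181.H162
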