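import Vale.Agent.P181.H162.Frm

/-!
# P181 (T4): the frame, continued
-/

set_option autoImplicit false

namespace Vale.Agent.P181.H162

open Finset Vale.Agent.P181.T4

/-- short incidences are incidences. -/
theorem shc_le {T : Type} {N : ℕ} (R n : ℕ) (len : ℕ → ℕ) (srv : ℕ → ℕ → T ⊕ Fin N)
    (p : T ⊕ Fin N) :
    shc R (fun c : Fin n => len c) (fun c : Fin n => srv c) p ≤ cnt srv p R n len := by
  classical
  unfold shc cnt
  refine sum_le_sum fun c _ => ?_
  split_ifs with h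
  · refine card_le_card fun i hi => ?_
    simp only [mem_filter, mem_range] at hi h ⊢
    exact ⟨hi.1, by omega, hi.2⟩
  · exact Nat.zero_le _

/-- a set of short columns served by `p`. -/
theorem le_shc {T : Type} {N : ℕ} (R n : ℕ) (len : ℕ → ℕ) (srv : ℕ → ℕ → T ⊕ Fin N)
    (p : T ⊕ Fin N) (X : Finset ℕ) (hn : ∀ c ∈ X, c < n)
    (hX : ∀ c ∈ X, len c ≤ R ∧ ∃ i < len c, srv c i = p) :
    X.card ≤ shc R (fun c : Fin n => len c) (fun c : Fin n => srv c) p := by
  classical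
  unfold shc
  have h1 : X.card = (univ.filter (fun c : Fin n => (c : ℕ) ∈ X)).card := by
    have h2 : X = (univ.filter (fun c : Fin n => (c : ℕ) ∈ X)).image Fin.val := by
      ext c
      rw [mem_image]
      constructor
      · intro hc
        exact ⟨⟨c, hn c hc⟩, by simp [hc], rfl⟩
      · rintro ⟨x, hx, rfl⟩
        rw [mem_filter] at hx
        exact hx.2
    conv_lhs => rw [h2]
    rw [card_image_of_injective _ Fin.val_injective]
  rw [h1, card_filter]
  refine sum_le_sum fun c _ => ?_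
  by_cases hc : (c : ℕ) ∈ X
  · obtain ⟨h3, i, h4, h5⟩ := hX c hc
    rw [if_pos hc, if_pos h3]
    refine card_pos.2 ⟨i, ?_⟩
    rw [mem_filter, mem_range]
    exact ⟨h4, h5⟩
  · rw [if_neg hc]
    exact Nat.zero_le _

namespace Par

variable (P : Par)

/-- the block columns. -/
def isB (c : ℕ) : Prop := ∃ x : P.B, P.kap x = c

open Classical in
/-- the row of the block. -/
noncomputable def bi (c : ℕ) : ℕ := if h : P.isB c then (h.choose.2.1 : ℕ) else 0

open Classical in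
/-- the free point of the block. -/
noncomputable def bq (hN : 0 < P.N) (c : ℕ) : Fin P.N :=
  if h : P.isB c then h.choose.1 else ⟨0, hN⟩

theorem isB_kap (x : P.B) : P.isB (P.kap x) := ⟨x, rfl⟩

theorem bi_kap (x : P.B) : P.bi (P.kap x) = x.2.1 := by
  have h := P.isB_kap x
  unfold bi
  rw [dif_pos h, P.kap_inj h.choose_spec]

theorem bq_kap (hN : 0 < P.N) (x : P.B) : P.bq hN (P.kap x) = x.1 := by
  have h := P.isB_kap x
  unfold bq
  rw [dif_pos h, P.kap_inj h.choose_spec]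

theorem bi_lt_ln {m : ℕ} (hm : P.S + 1 < m) (x : P.B) : (x.2.1 : ℕ) < P.ln m (P.kap x) := by
  have h1 := P.kap_lt x
  have h2 : (x.2.1 : ℕ) ≤ P.R1 := by have := x.2.1.2; omega
  have h3 := P.anti h2
  have h4 := P.hR1
  exact P.lt_ln.2 ⟨by omega, by omega⟩

theorem exact_pure {m : ℕ} (hm : P.S + 1 < m) (x : Σ i : Fin (P.S + 1), Fin (P.w i)) :
    P.k < shc (P.S + 1) (fun c : Fin (P.lam 0) => P.ln m c)
      (fun c : Fin (P.lam 0) => P.srv c) (Sum.inl (Sum.inl x)) := by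
  obtain ⟨i, p⟩ := x
  have hi : (i : ℕ) ≤ P.S := by have := i.2; omega
  have h := le_shc (P.S + 1) (P.lam 0) (P.ln m) P.srv (Sum.inl (Sum.inl ⟨i, p⟩)) (P.mrk i p)
    (fun c hc => by
      have h1 := P.rsv_lt hi (P.mrk_sub i p p.2 hc)
      have h2 := P.anti (Nat.zero_le (i : ℕ))
      omega)
    (fun c hc => by
      have h1 := P.ln_rsv hm hi (P.mrk_sub i p p.2 hc)
      refine ⟨by omega, i, by omega, ?_⟩
      rw [P.srv_pur i (P.mrk_pur i p hi p.2 hc), P.pi_mrk i p hc])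
  rw [P.card_mrk] at h
  omega

theorem exact_mix {m : ℕ} (hm : P.S + 1 < m) (y : Fin P.S × Fin 2) :
    P.k < shc (P.S + 1) (fun c : Fin (P.lam 0) => P.ln m c)
      (fun c : Fin (P.lam 0) => P.srv c) (Sum.inl (Sum.inr y)) := by
  have hy : (y.1 : ℕ) ≤ P.S := y.1.2.le
  have hX : ∀ c ∈ Ico (P.ss y.1 y.2) (P.ss y.1 y.2 + (P.k + 1)), c ∈ P.own y.1 y.2 ∧
      c ∈ P.rsv y.1 := by
    intro c hc
    have h1 : c ∈ P.own y.1 y.2 := by
      rw [own, mem_union]
      exact Or.inr hc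
    refine ⟨h1, P.own_short y.1 hy h1 ?_⟩
    rw [mem_Ico] at hc
    have h2 := P.anti (show (y.1 : ℕ) + 1 ≤ P.S + 1 by omega)
    unfold ss at hc
    omega
  have h := le_shc (P.S + 1) (P.lam 0) (P.ln m) P.srv (Sum.inl (Sum.inr y))
    (Ico (P.ss y.1 y.2) (P.ss y.1 y.2 + (P.k + 1)))
    (fun c hc => by
      have h1 := P.rsv_lt hy (hX c hc).2
      have h2 := P.anti (Nat.zero_le (y.1 : ℕ))
      omega)
    (fun c hc => by
      have h1 := P.ln_rsv hm hy (hX c hc).2
      refine ⟨by omega, y.1, by omega, ?_⟩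
      exact P.srv_own y (hX c hc).1)
  rw [Nat.card_Ico, Nat.add_sub_cancel_left] at h
  omega

theorem ex_col {m : ℕ} (hm : P.S + 1 < m) (t : P.Tp) :
    ∃ c : Fin (P.lam 0), P.ln m c = P.cls t + 1 ∧ ∃ i < P.ln m c, P.srv c i = Sum.inl t := by
  rcases t with ⟨i, p⟩ | y
  · have hi : (i : ℕ) ≤ P.S := by have := i.2; omega
    have hc : P.lam ((i : ℕ) + 1) + 2 * (P.k + 1) + (p : ℕ) * (P.k + 1) ∈ P.mrk i p := by
      rw [mrk, mem_Ico]
      omega
    have h0 := P.mrk_sub i p p.2 hc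
    have h1 := P.ln_rsv hm hi h0
    have h2 := P.rsv_lt hi h0
    have h3 := P.anti (Nat.zero_le (i : ℕ))
    refine ⟨⟨_, h2.trans_le h3⟩, h1, i, ?_, ?_⟩
    · show (i : ℕ) < P.ln m _
      rw [h1]
      omega
    · show P.srv _ i = _
      rw [P.srv_pur i (P.mrk_pur i p hi p.2 hc), P.pi_mrk i p hc]
  · have hy : (y.1 : ℕ) ≤ P.S := y.1.2.le
    have hc : P.ss y.1 y.2 ∈ P.own y.1 y.2 := by
      rw [own, mem_union, mem_Ico, mem_Ico]
      right
      omega
    have h0 : P.ss y.1 y.2 ∈ P.rsv y.1 := by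
      refine P.own_short y.1 hy hc ?_
      have h2 := P.anti (show (y.1 : ℕ) + 1 ≤ P.S + 1 by omega)
      unfold ss
      omega
    have h1 := P.ln_rsv hm hy h0
    have h2 := P.rsv_lt hy h0
    have h3 := P.anti (Nat.zero_le (y.1 : ℕ))
    refine ⟨⟨_, h2.trans_le h3⟩, h1, y.1, ?_, P.srv_own y hc⟩
    show (y.1 : ℕ) < P.ln m _
    rw [h1]
    omega

open Classical in
theorem card_mix (i : ℕ) :
    (univ.filter (fun t : P.Tp => P.mix t ∧ P.cls t = i)).card ≤ 2 := by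
  by_cases hi : i < P.S
  · have h1 : (univ.filter (fun t : P.Tp => P.mix t ∧ P.cls t = i)) ⊆
        ({Sum.inr (⟨i, hi⟩, 0), Sum.inr (⟨i, hi⟩, 1)} : Finset P.Tp) := by
      intro t ht
      rw [mem_filter] at ht
      obtain ⟨-, h2, h3⟩ := ht
      rcases t with x | ⟨y, j⟩
      · exact absurd h2 (by simp [mix])
      · have h4 : y = ⟨i, hi⟩ := Fin.ext h3
        subst h4
        rw [mem_insert, mem_singleton]
        fin_cases j
        · exact Or.inl rfl
        · exact Or.inr rfl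
    exact (card_le_card h1).trans card_le_two
  · have h1 : (univ.filter (fun t : P.Tp => P.mix t ∧ P.cls t = i)) = ∅ := by
      rw [filter_eq_empty_iff]
      rintro (x | ⟨y, j⟩) - ⟨h2, h3⟩
      · exact absurd h2 (by simp [mix])
      · have h4 : (y : ℕ) = i := h3
        have := y.2
        omega
    rw [h1]
    simp

/-- the pure partners of a mixed position. -/
theorem partners {m : ℕ} (hm : P.S + 1 < m) (t : P.Tp) (ht : P.mix t) :
    ∃ F : Finset P.Tp, 2 < F.card ∧ ∀ f ∈ F, f ≠ t ∧ P.cls f = P.cls t ∧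
      ∃ (c : Fin (P.lam 0)) (i j : ℕ), i < P.ln m c ∧ i < P.S + 1 ∧ j < P.ln m c ∧ j < P.S + 1 ∧
        P.srv c i = Sum.inl t ∧ P.srv c j = Sum.inl f := by
  classical
  rcases t with x | y
  · exact absurd ht (by simp [mix])
  · have hy : (y.1 : ℕ) < P.S := y.1.2
    have hw := P.w_ge y.1 hy.le
    set i0 : Fin (P.S + 1) := ⟨y.1, by omega⟩ with hi0
    have hw' : ∀ p : Fin 3, (p : ℕ) < P.w i0 := fun p => by
      have h1 : P.w i0 = P.w y.1 := rfl
      have := p.2
      omega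
    set g : Fin 3 → P.Tp := fun p => Sum.inl ⟨i0, ⟨p, hw' p⟩⟩ with hg
    have hginj : Function.Injective g := by
      intro p p' h
      rw [hg] at h
      simp only [Sum.inl.injEq, Sigma.mk.injEq, heq_eq_eq, Fin.mk.injEq, true_and] at h
      exact Fin.ext h
    refine ⟨univ.image g, ?_, ?_⟩
    · rw [card_image_of_injective _ hginj]
      simp
    · intro f hf
      rw [mem_image] at hf
      obtain ⟨p, -, rfl⟩ := hf
      refine ⟨by simp [hg], rfl, ?_⟩
      have hc := P.pt_mem y.1 y.2 p p.2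
      have h1 := P.up_sub (y.1 + 1) (by omega) y.2 hc
      rw [mem_range] at h1
      have h2 := P.anti (Nat.zero_le ((y.1 : ℕ) + 1))
      have h3 := P.anti (Nat.le_succ (y.1 : ℕ))
      have h3' : P.lam ((y.1 : ℕ) + 1) ≤ P.lam (y.1 : ℕ) := h3
      refine ⟨⟨P.pt y.1 y.2 p, h1.trans_le h2⟩, y.1 + 1, y.1, ?_, by omega, ?_, by omega,
        P.srv_up y hc, ?_⟩
      · exact P.lt_ln.2 ⟨by omega, h1⟩
      · exact P.lt_ln.2 ⟨by omega, h1.trans_le h3'⟩
      · have h4 := P.srv_pur i0 (P.up_pur i0 hy.le y.2 hc)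
        have h5 := P.pi_pt i0 ⟨p, hw' p⟩ p.2 y.2
        show P.srv (P.pt y.1 y.2 p) y.1 = _
        have h6 : P.srv (P.pt y.1 y.2 p) y.1 = Sum.inl (Sum.inl ⟨i0, P.pi i0 (P.pt y.1 y.2 p)⟩) := h4
        have h7 : P.pi i0 (P.pt y.1 y.2 p) = ⟨p, hw' p⟩ := h5
        rw [h6, h7]

open Classical in
theorem card_bq (hN : 0 < P.N) (q : Fin P.N) (i : ℕ) :
    (univ.filter (fun c : Fin (P.lam 0) => P.isB c ∧ P.bi c = i ∧ P.bq hN c = q)).card =
      if h : i < P.R1 + 1 then P.M q ⟨i, h⟩ else 0 := by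
  rw [← P.card_blk q i]
  have hlt : ∀ x : P.B, P.kap x < P.lam 0 := fun x => by
    have h1 := P.kap_lt x
    have h2 := P.anti (Nat.zero_le P.R1)
    omega
  have hinj : Function.Injective (fun x : P.B => (⟨P.kap x, hlt x⟩ : Fin (P.lam 0))) := by
    intro x x' h
    exact P.kap_inj (Fin.mk.inj h)
  rw [← card_image_of_injective (univ.filter (fun x : P.B => (x.2.1 : ℕ) = i ∧ x.1 = q)) hinj]
  congr 1
  ext c
  rw [mem_filter, mem_image]
  constructor
  · rintro ⟨-, ⟨x, hx⟩, h2, h3⟩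
    rw [← hx] at h2 h3
    rw [P.bi_kap] at h2
    rw [P.bq_kap] at h3
    exact ⟨x, by rw [mem_filter]; exact ⟨mem_univ _, h2, h3⟩, Fin.ext hx⟩
  · rintro ⟨x, hx, rfl⟩
    rw [mem_filter] at hx
    refine ⟨mem_univ _, P.isB_kap x, ?_, ?_⟩
    · show P.bi (P.kap x) = i
      rw [P.bi_kap]
      exact hx.2.1
    · show P.bq hN (P.kap x) = q
      rw [P.bq_kap]
      exact hx.2.2

/-- **The frame.** -/
noncomputable def frame {m : ℕ} (hm : P.S + 1 < m) (hN : 0 < P.N) :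
    Frame m (P.S + 1) P.N P.Tp (Fin (P.lam 0)) where
  cls := P.cls
  mix := P.mix
  cls_lt := by
    rintro (x | y)
    · exact x.1.2
    · have := y.1.2
      show (y.1 : ℕ) < P.S + 1
      omega
  mix_lt := by
    rintro (x | y) h
    · exact absurd h (by simp [mix])
    · have := y.1.2
      show (y.1 : ℕ) + 1 < P.S + 1
      omega
  len := fun c => P.ln m c
  len_le := fun c => P.ln_le m c
  srv := fun c => P.srv c
  blk := fun c => P.isB c
  bi := fun c => P.bi c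
  bq := fun c => P.bq hN c
  blk_short := by
    rintro c ⟨x, hx⟩
    show P.ln m c ≤ P.S + 1
    rw [P.ln_short hm, ← hx]
    exact P.kap_ge x
  bi_lt := by
    rintro c ⟨x, hx⟩
    show P.bi c < P.ln m c
    rw [← hx, P.bi_kap]
    exact P.bi_lt_ln hm x
  blk_srv := by
    rintro c ⟨x, hx⟩
    show P.srv c (P.bi c) = Sum.inr (P.bq hN c)
    rw [← hx, P.bi_kap, P.bq_kap]
    exact P.srv_kap x
  blk_pure := by
    rintro c ⟨x, hx⟩ i hi hne
    have hi' : i < P.ln m c := hi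
    have hne' : i ≠ P.bi c := hne
    have hS : P.ln m c ≤ P.S + 1 := by
      rw [P.ln_short hm, ← hx]
      exact P.kap_ge x
    have hiS : i < P.S + 1 := by omega
    have hc := (P.lt_ln.1 hi').2
    show ∃ t, P.srv c i = Sum.inl t ∧ P.cls t = i ∧ ¬ P.mix t
    rcases P.kinds ⟨i, hiS⟩ hc with ⟨x', h1, h2⟩ | ⟨y, h1, h2⟩ | ⟨y, h1, h2⟩ | h1
    · exfalso
      apply hne'
      rw [← h2, P.bi_kap]
      exact h1.symm
    · exfalso
      rw [← hx] at h2
      exact P.kap_own x y.1 y.1.2.le y.2 h2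
    · exfalso
      rw [← hx] at h2
      exact P.kap_up x y.1 y.2 h2
    · exact ⟨_, P.srv_pur ⟨i, hiS⟩ h1, rfl, by simp [mix]⟩
  serve := by
    intro c hb i hi hiS
    have hi' : i < P.ln m c := hi
    have hc := (P.lt_ln.1 hi').2
    show ∃ t, P.srv c i = Sum.inl t ∧ (P.cls t = i ∨ (P.mix t ∧ P.cls t + 1 = i ∧
      ∃ t', P.srv c (i - 1) = Sum.inl t' ∧ P.cls t' = i - 1 ∧ ¬ P.mix t'))
    rcases P.kinds ⟨i, hiS⟩ hc with ⟨x', h1, h2⟩ | ⟨y, h1, h2⟩ | ⟨y, h1, h2⟩ | h1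
    · exact absurd ⟨x', h2⟩ hb
    · have h3 := P.srv_own y h2
      have h1' : (y.1 : ℕ) = i := h1
      rw [h1'] at h3
      exact ⟨_, h3, Or.inl h1⟩
    · have h3 := P.srv_up y h2
      have h1' : (y.1 : ℕ) + 1 = i := h1
      rw [h1'] at h3
      refine ⟨_, h3, Or.inr ⟨trivial, h1, ?_⟩⟩
      have h4 := P.srv_pur ⟨y.1, by have := y.1.2; omega⟩ (P.up_pur y.1 y.1.2.le y.2 h2)
      have h5 : i - 1 = (y.1 : ℕ) := by omega
      rw [h5]
      exact ⟨_, h4, rfl, by simp [mix]⟩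
    · exact ⟨_, P.srv_pur ⟨i, hiS⟩ h1, Or.inl rfl⟩
  exact := P.ex_col hm
  k := P.k
  sh_pt := by
    intro q
    refine (shc_le (P.S + 1) (P.lam 0) (P.ln m) P.srv (Sum.inr q)).trans ?_
    rw [P.inc_pt hm]
    exact P.deg q
  sh_top := by
    rintro (x | y)
    · exact P.exact_pure hm x
    · exact P.exact_mix hm y
  three := by
    intro t ht
    obtain ⟨F, hF, h⟩ := P.partners hm t ht
    exact ⟨F, (P.card_mix (P.cls t)).trans_lt hF, h⟩
  mono_inj := by
    intro q q' h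
    apply P.Minj
    funext i
    have h1 := congrFun h (i : ℕ)
    simp only at h1
    rw [P.card_bq hN q i, P.card_bq hN q' i, dif_pos i.2, dif_pos i.2] at h1
    exact h1

end Par

end Vale.Agent.P181.H162
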