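import Vale.Agent.P181.H162.Pick6
import Vale.Agent.P181.H328.Seq

/-!
# P181, S6: the certification columns (leaf [S6-HIT])
-/

set_option autoImplicit false

namespace Vale.Agent.P181.H162.Hit6

open Finset Vale.Agent.P181.S6 Vale.Agent.P181.H59

lemma card_filter_sub {β : Type} (s : Finset β) (p : β → Prop) [DecidablePred p] :
    ((univ : Finset {x // x ∈ s}).filter fun x => p x.1).card = (s.filter p).card := by
  rw [← card_map (Function.Embedding.subtype _)]
  congr 1
  ext x
  simp only [mem_map, mem_filter, mem_univ, true_and, Function.Embedding.subtype_apply]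
  constructor
  · rintro ⟨y, hy, rfl⟩
    exact ⟨y.2, hy⟩
  · rintro ⟨h1, h2⟩
    exact ⟨⟨x, h1⟩, h2, rfl⟩

variable {b h j R : ℕ}

/-- the systems of distinct representatives outside `T` -/
def Phi (S : Mid b h j R) (T : Finset (Fin b)) : Finset (Fin R → Fin b) :=
  univ.filter fun φ => Function.Injective φ ∧ ∀ i, φ i ∈ S.st i \ T

lemma mem_Phi (S : Mid b h j R) (T : Finset (Fin b)) (φ : Fin R → Fin b) :
    φ ∈ Phi S T ↔ Function.Injective φ ∧ ∀ i, φ i ∈ S.st i \ T := by
  simp [Phi]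

/-- the samples -/
def Om (S : Mid b h j R) (l : ℕ) : Finset (Σ _ : Fin R → Fin b, Finset (Fin b)) :=
  (Phi S ∅).sigma fun φ => powersetCard (l - R) (univ.image φ)ᶜ

lemma card_img (S : Mid b h j R) (T : Finset (Fin b)) (φ : Fin R → Fin b) (hφ : φ ∈ Phi S T) :
    (univ.image φ).card = R := by
  rw [card_image_of_injective _ ((mem_Phi S T φ).1 hφ).1]
  simp

lemma card_Om (S : Mid b h j R) (l : ℕ) :
    (Om S l).card = (Phi S ∅).card * (b - R).choose (l - R) := by
  unfold Om
  rw [card_sigma, sum_congr rfl (g := fun _ => (b - R).choose (l - R)), sum_const, smul_eq_mul]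
  intro φ hφ
  rw [card_powersetCard, card_compl, Fintype.card_fin, card_img S ∅ φ hφ]

/-- the column of a sample -/
def col (ω : Σ _ : Fin R → Fin b, Finset (Fin b)) : Finset (Fin b) := univ.image ω.1 ∪ ω.2

lemma card_col (S : Mid b h j R) (l : ℕ) (hl : R ≤ l) (ω : Σ _ : Fin R → Fin b, Finset (Fin b))
    (hω : ω ∈ Om S l) : (col ω).card = l := by
  unfold Om at hω
  rw [mem_sigma, mem_powersetCard] at hω
  obtain ⟨h1, h2, h3⟩ := hω
  unfold col
  rw [card_union_of_disjoint, card_img S ∅ _ h1, h3]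
  · omega
  · rw [disjoint_right]
    intro p hp hp2
    exact (mem_compl.1 (h2 hp)) hp2

lemma sdr_col (S : Mid b h j R) (l : ℕ) (ω : Σ _ : Fin R → Fin b, Finset (Fin b))
    (hω : ω ∈ Om S l) : HasSDR S.st (col ω) := by
  unfold Om at hω
  rw [mem_sigma] at hω
  have h1 := (mem_Phi S ∅ _).1 hω.1
  refine ⟨ω.1, h1.1, fun i => ⟨?_, ?_⟩⟩
  · exact mem_union_left _ (mem_image_of_mem _ (mem_univ _))
  · exact (mem_sdiff.1 (h1.2 i)).1

/-- samples missing `T` -/
lemma miss_card (S : Mid b h j R) (l : ℕ) (T : Finset (Fin b)) :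
    (Phi S T).card * (b - R - T.card).choose (l - R) ≤
      ((Om S l).filter fun ω => Disjoint (col ω) T).card := by
  have hsub : (Phi S T).sigma (fun φ => powersetCard (l - R) ((univ.image φ)ᶜ \ T)) ⊆
      (Om S l).filter fun ω => Disjoint (col ω) T := by
    rintro ⟨φ, F⟩ hω
    rw [mem_sigma, mem_powersetCard] at hω
    obtain ⟨h1, h2, h3⟩ := hω
    have h4 := (mem_Phi S T φ).1 h1
    rw [mem_filter]
    unfold Om
    rw [mem_sigma, mem_powersetCard, mem_Phi]
    refine ⟨⟨⟨h4.1, fun i => ?_⟩, ?_, h3⟩, ?_⟩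
    · rw [mem_sdiff]
      exact ⟨(mem_sdiff.1 (h4.2 i)).1, notMem_empty _⟩
    · exact fun p hp => (mem_sdiff.1 (h2 hp)).1
    · unfold col
      rw [disjoint_union_left]
      constructor
      · rw [disjoint_left]
        intro p hp
        obtain ⟨i, _, rfl⟩ := mem_image.1 hp
        exact (mem_sdiff.1 (h4.2 i)).2
      · rw [disjoint_left]
        intro p hp
        exact (mem_sdiff.1 (h2 hp)).2
  refine le_trans ?_ (card_le_card hsub)
  rw [card_sigma]
  calc (Phi S T).card * (b - R - T.card).choose (l - R)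
      = ∑ _φ ∈ Phi S T, (b - R - T.card).choose (l - R) := by rw [sum_const, smul_eq_mul]
    _ ≤ _ := by
        apply sum_le_sum
        intro φ hφ
        rw [card_powersetCard]
        apply Nat.choose_le_choose
        have h1 := le_card_sdiff T (univ.image φ)ᶜ
        rw [card_compl, Fintype.card_fin, card_img S T φ hφ] at h1
        exact h1

/-- systems of representatives through a letter -/
lemma thru_card (S : Mid b h j R) (hh : 0 < h) (p : Fin b) :
    (((Phi S ∅).filter fun φ => p ∈ univ.image φ).card : ℝ) ≤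
      (j : ℝ) / h * ∏ i, ((S.st i).card : ℝ) := by
  classical
  have hhR : (0 : ℝ) < h := by exact_mod_cast hh
  have hge : ∀ i, (h : ℝ) ≤ (S.st i).card := fun i => by exact_mod_cast S.size_ge i
  have hsub : (Phi S ∅).filter (fun φ => p ∈ univ.image φ) ⊆
      (univ.filter fun i => p ∈ S.st i).biUnion fun i =>
        Fintype.piFinset fun l => if l = i then {p} else S.st l := by
    intro φ hφ
    rw [mem_filter, mem_Phi, mem_image] at hφ
    obtain ⟨⟨h1, h2⟩, i, _, h3⟩ := hφ
    rw [mem_biUnion]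
    refine ⟨i, mem_filter.2 ⟨mem_univ _, ?_⟩, ?_⟩
    · rw [← h3]
      exact (mem_sdiff.1 (h2 i)).1
    · rw [Fintype.mem_piFinset]
      intro l
      split_ifs with hl
      · rw [hl, h3]
        exact mem_singleton_self _
      · exact (mem_sdiff.1 (h2 l)).1
  have hcard : ∀ i, ((Fintype.piFinset fun l => if l = i then ({p} : Finset (Fin b)) else
      S.st l).card : ℝ) ≤ (1 / h) * ∏ i, ((S.st i).card : ℝ) := by
    intro i
    rw [Fintype.card_piFinset, Nat.cast_prod,
      ← mul_prod_erase univ (fun l => (((if l = i then ({p} : Finset (Fin b)) else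
        S.st l).card : ℕ) : ℝ)) (mem_univ i),
      ← mul_prod_erase univ (fun l => ((S.st l).card : ℝ)) (mem_univ i)]
    have h1 : ∏ l ∈ univ.erase i, (((if l = i then ({p} : Finset (Fin b)) else
        S.st l).card : ℕ) : ℝ) = ∏ l ∈ univ.erase i, ((S.st l).card : ℝ) := by
      apply prod_congr rfl
      intro l hl
      rw [if_neg (mem_erase.1 hl).1]
    rw [h1, if_pos rfl, card_singleton, Nat.cast_one, one_mul]
    have h2 : 0 ≤ ∏ l ∈ univ.erase i, ((S.st l).card : ℝ) := prod_nonneg fun _ _ => by positivity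
    have h3 : 1 ≤ (1 / (h : ℝ)) * (S.st i).card := by
      rw [one_div, inv_mul_eq_div, one_le_div hhR]
      exact hge i
    calc ∏ l ∈ univ.erase i, ((S.st l).card : ℝ) = 1 * ∏ l ∈ univ.erase i, ((S.st l).card : ℝ) :=
          (one_mul _).symm
      _ ≤ ((1 / (h : ℝ)) * (S.st i).card) * ∏ l ∈ univ.erase i, ((S.st l).card : ℝ) :=
          mul_le_mul_of_nonneg_right h3 h2
      _ = _ := by ring
  have hP0 : 0 ≤ (1 / (h : ℝ)) * ∏ i, ((S.st i).card : ℝ) :=
    mul_nonneg (by positivity) (prod_nonneg fun _ _ => by positivity)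
  calc (((Phi S ∅).filter fun φ => p ∈ univ.image φ).card : ℝ)
      ≤ ((∑ i ∈ univ.filter (fun i => p ∈ S.st i), (Fintype.piFinset fun l =>
          if l = i then ({p} : Finset (Fin b)) else S.st l).card : ℕ) : ℝ) := by
        exact_mod_cast (card_le_card hsub).trans card_biUnion_le
    _ = ∑ i ∈ univ.filter (fun i => p ∈ S.st i), ((Fintype.piFinset fun l =>
          if l = i then ({p} : Finset (Fin b)) else S.st l).card : ℝ) := by push_cast; rfl
    _ ≤ ∑ _i ∈ univ.filter (fun i => p ∈ S.st i), (1 / (h : ℝ)) * ∏ i, ((S.st i).card : ℝ) :=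
        sum_le_sum fun i _ => hcard i
    _ = ((univ.filter (fun i => p ∈ S.st i)).card : ℝ) *
          ((1 / (h : ℝ)) * ∏ i, ((S.st i).card : ℝ)) := by rw [sum_const, nsmul_eq_mul]
    _ ≤ (j : ℝ) * ((1 / (h : ℝ)) * ∏ i, ((S.st i).card : ℝ)) := by
        apply mul_le_mul_of_nonneg_right _ hP0
        exact_mod_cast S.deg p
    _ = _ := by ring

/-- samples through a letter -/
lemma deg_card (S : Mid b h j R) (l : ℕ) (hl : R ≤ l) (hlb : l < b) (p : Fin b) :
    (((Om S l).filter fun ω => p ∈ col ω).card : ℝ) ≤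
      (((Phi S ∅).filter fun φ => p ∈ univ.image φ).card : ℝ) * ((b - R).choose (l - R) : ℝ) +
      ((l : ℝ) / (b - l)) * ((Phi S ∅).card * ((b - R).choose (l - R) : ℝ)) := by
  classical
  have hsub : (Om S l).filter (fun ω => p ∈ col ω) ⊆
      (((Phi S ∅).filter fun φ => p ∈ univ.image φ).sigma fun φ =>
        powersetCard (l - R) (univ.image φ)ᶜ) ∪
      ((Phi S ∅).sigma fun φ =>
        (powersetCard (l - R) (univ.image φ)ᶜ).filter fun F => p ∈ F) := by
    rintro ⟨φ, F⟩ hω
    rw [mem_filter] at hω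
    obtain ⟨h1, h2⟩ := hω
    unfold Om at h1
    rw [mem_sigma] at h1
    unfold col at h2
    rw [mem_union] at h2 ⊢
    rcases h2 with h2 | h2
    · left
      rw [mem_sigma, mem_filter]
      exact ⟨⟨h1.1, h2⟩, h1.2⟩
    · right
      rw [mem_sigma, mem_filter]
      exact ⟨h1.1, h1.2, h2⟩
  have hA : ((((Phi S ∅).filter fun φ => p ∈ univ.image φ).sigma fun φ =>
        powersetCard (l - R) (univ.image φ)ᶜ).card) =
      ((Phi S ∅).filter fun φ => p ∈ univ.image φ).card * (b - R).choose (l - R) := by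
    rw [card_sigma, sum_congr rfl (g := fun _ => (b - R).choose (l - R)), sum_const, smul_eq_mul]
    intro φ hφ
    rw [card_powersetCard, card_compl, Fintype.card_fin, card_img S ∅ φ (mem_filter.1 hφ).1]
  have hB1 : ∀ φ ∈ Phi S ∅, ((((powersetCard (l - R) (univ.image φ)ᶜ).filter
      fun F => p ∈ F).card : ℕ) : ℝ) ≤ ((l : ℝ) / (b - l)) * ((b - R).choose (l - R) : ℝ) := by
    intro φ hφ
    have hlR : (l : ℝ) < b := by exact_mod_cast hlb
    have hbl : (0 : ℝ) < b - l := by linarith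
    set V : Finset (Fin b) := (univ.image φ)ᶜ with hV
    have hVc : V.card = b - R := by
      rw [hV, card_compl, Fintype.card_fin, card_img S ∅ φ hφ]
    by_cases hp : p ∈ V
    · rcases Nat.eq_zero_or_pos (l - R) with h0 | h0
      · rw [h0]
        have : (powersetCard 0 V).filter (fun F => p ∈ F) = ∅ := by
          rw [filter_eq_empty_iff]
          intro F hF
          rw [powersetCard_zero, mem_singleton] at hF
          rw [hF]
          exact notMem_empty _
        rw [this, card_empty, Nat.cast_zero]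
        positivity
      · have h1 : ((powersetCard (l - R) V).filter fun F => p ∈ F).card ≤
            (b - R - 1).choose (l - R - 1) := by
          have h2 : ((powersetCard (l - R) V).filter fun F => p ∈ F).card ≤
              (powersetCard (l - R - 1) (V.erase p)).card := by
            apply card_le_card_of_injOn (fun F => F.erase p)
            · intro F hF
              rw [mem_coe, mem_filter, mem_powersetCard] at hF
              rw [mem_coe, mem_powersetCard, card_erase_of_mem hF.2, hF.1.2]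
              exact ⟨erase_subset_erase _ hF.1.1, rfl⟩
            · intro F hF F' hF' hh
              rw [mem_coe, mem_filter] at hF hF'
              have h3 : F.erase p = F'.erase p := hh
              rw [← insert_erase hF.2, h3, insert_erase hF'.2]
          rw [card_powersetCard, card_erase_of_mem hp, hVc] at h2
          exact h2
        have h2 : (b - R - 1 + 1) * (b - R - 1).choose (l - R - 1) =
            (b - R - 1 + 1).choose (l - R - 1 + 1) * (l - R - 1 + 1) :=
          Nat.add_one_mul_choose_eq _ _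
        have e1 : b - R - 1 + 1 = b - R := by omega
        have e2 : l - R - 1 + 1 = l - R := by omega
        rw [e1, e2] at h2
        have h3 : ((b - R : ℕ) : ℝ) * ((b - R - 1).choose (l - R - 1) : ℝ) =
            ((b - R).choose (l - R) : ℝ) * ((l - R : ℕ) : ℝ) := by exact_mod_cast h2
        have h4 : ((b : ℝ) - l) ≤ ((b - R : ℕ) : ℝ) := by
          rw [Nat.cast_sub (by omega)]
          have : (R : ℝ) ≤ l := by exact_mod_cast hl
          linarith
        have h5 : ((l - R : ℕ) : ℝ) ≤ l := by exact_mod_cast Nat.sub_le _ _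
        have h6 : (0 : ℝ) ≤ ((b - R - 1).choose (l - R - 1) : ℝ) := by positivity
        have h7 : (0 : ℝ) ≤ ((b - R).choose (l - R) : ℝ) := by positivity
        calc ((((powersetCard (l - R) V).filter fun F => p ∈ F).card : ℕ) : ℝ)
            ≤ ((b - R - 1).choose (l - R - 1) : ℝ) := by exact_mod_cast h1
          _ ≤ ((l : ℝ) / (b - l)) * ((b - R).choose (l - R) : ℝ) := by
              rw [div_mul_eq_mul_div, le_div_iff₀ hbl]
              calc ((b - R - 1).choose (l - R - 1) : ℝ) * ((b : ℝ) - l)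
                  ≤ ((b - R - 1).choose (l - R - 1) : ℝ) * ((b - R : ℕ) : ℝ) :=
                    mul_le_mul_of_nonneg_left h4 h6
                _ = ((b - R).choose (l - R) : ℝ) * ((l - R : ℕ) : ℝ) := by rw [← h3]; ring
                _ ≤ ((b - R).choose (l - R) : ℝ) * l := mul_le_mul_of_nonneg_left h5 h7
                _ = _ := by ring
    · have : (powersetCard (l - R) V).filter (fun F => p ∈ F) = ∅ := by
        rw [filter_eq_empty_iff]
        intro F hF hpF
        exact hp ((mem_powersetCard.1 hF).1 hpF)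
      rw [this, card_empty, Nat.cast_zero]
      positivity
  have hB : ((((Phi S ∅).sigma fun φ =>
        (powersetCard (l - R) (univ.image φ)ᶜ).filter fun F => p ∈ F).card : ℕ) : ℝ) ≤
      ((l : ℝ) / (b - l)) * ((Phi S ∅).card * ((b - R).choose (l - R) : ℝ)) := by
    rw [card_sigma, Nat.cast_sum]
    calc ∑ φ ∈ Phi S ∅, ((((powersetCard (l - R) (univ.image φ)ᶜ).filter
          fun F => p ∈ F).card : ℕ) : ℝ)
        ≤ ∑ _φ ∈ Phi S ∅, ((l : ℝ) / (b - l)) * ((b - R).choose (l - R) : ℝ) :=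
          sum_le_sum hB1
      _ = _ := by rw [sum_const, nsmul_eq_mul]; ring
  calc (((Om S l).filter fun ω => p ∈ col ω).card : ℝ)
      ≤ (((((Phi S ∅).filter fun φ => p ∈ univ.image φ).sigma fun φ =>
        powersetCard (l - R) (univ.image φ)ᶜ).card +
        ((Phi S ∅).sigma fun φ =>
        (powersetCard (l - R) (univ.image φ)ᶜ).filter fun F => p ∈ F).card : ℕ) : ℝ) := by
        exact_mod_cast (card_le_card hsub).trans (card_union_le _ _)
    _ ≤ _ := by
        rw [Nat.cast_add, hA, Nat.cast_mul]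
        linarith

/-- missing part of the star that is closest to being contained in `T`. -/
noncomputable def DD (S : Mid b h j R) (T : Finset (Fin b)) : ℕ :=
  sInf (Set.range fun i : Fin R => (S.st i \ T).card)

lemma DD_le (S : Mid b h j R) (T : Finset (Fin b)) (i : Fin R) :
    DD S T ≤ (S.st i \ T).card := Nat.sInf_le ⟨i, rfl⟩

lemma DD_eq (S : Mid b h j R) (T : Finset (Fin b)) (hR : 0 < R) :
    ∃ i, (S.st i \ T).card = DD S T := by
  have h := Nat.sInf_mem (s := Set.range fun i : Fin R => (S.st i \ T).card)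
    ⟨_, ⟨⟨0, hR⟩, rfl⟩⟩
  obtain ⟨i, hi⟩ := h
  exact ⟨i, hi⟩

/-- the union bound. -/
lemma union_bound (S : Mid b h j R) (F : Finset (Finset (Fin b)))
    (hR : 0 < R) (hRb : R ≤ b) (hb2 : 8 ≤ b)
    (hF : ∀ T ∈ F, 10 * T.card ≤ 11 * h ∧ 1 ≤ DD S T ∧
      ∀ i, (S.st i).card < T.card → 2 * (S.st i ∩ T).card ≤ h) (q : ℝ)
    (hq : q = 1 / ((b : ℝ) + 1)) :
    ∑ T ∈ F, q ^ (10 * DD S T) ≤ 1 / 4 := by
  classical
  have hb0 : (0 : ℝ) < (b : ℝ) + 1 := by positivity
  have hq0 : 0 < q := by rw [hq]; positivity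
  have hq1 : (b : ℝ) * q ≤ 1 := by
    rw [hq, mul_one_div, div_le_one hb0]; linarith
  have hq2 : q ≤ 1 := by
    rw [hq, div_le_one hb0]
    have : (0 : ℝ) ≤ b := by positivity
    linarith
  choose ι hι using fun T => DD_eq S T hR
  set f : Finset (Fin b) → Fin R × Finset (Fin b) × Finset (Fin b) :=
    fun T => (ι T, S.st (ι T) \ T, T \ S.st (ι T)) with hf
  have hinj : Function.Injective f := by
    intro T T' h
    rw [hf] at h
    simp only [Prod.mk.injEq] at h
    obtain ⟨h1, h2, h3⟩ := h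
    rw [h1] at h2 h3
    ext p
    have h2' := Finset.ext_iff.1 h2 p
    have h3' := Finset.ext_iff.1 h3 p
    simp only [mem_sdiff] at h2' h3'
    tauto
  have hterm : ∀ T ∈ F, q ^ (10 * DD S T) ≤
      q ^ 4 * (q ^ (1 * (f T).2.1.card) * q ^ (1 * (f T).2.2.card)) := by
    intro T hT
    obtain ⟨hT1, hT2, hT3⟩ := hF T hT
    have h1 : (f T).2.1.card = DD S T := hι T
    have h2 : (f T).2.2.card ≤ 3 * DD S T := by
      have e1 : (T \ S.st (ι T)).card + (T ∩ S.st (ι T)).card = T.card :=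
        card_sdiff_add_card_inter _ _
      have e2 : (S.st (ι T) \ T).card + (S.st (ι T) ∩ T).card = (S.st (ι T)).card :=
        card_sdiff_add_card_inter _ _
      have e3 := S.size_ge (ι T)
      have e4 := hι T
      have e5 := hT3 (ι T)
      rw [inter_comm] at e1
      show (T \ S.st (ι T)).card ≤ _
      by_cases h6 : (S.st (ι T)).card < T.card
      · have h7 := e5 h6
        omega
      · omega
    rw [h1, ← pow_add, ← pow_add]
    apply pow_le_pow_of_le_one hq0.le hq2
    omega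
  calc ∑ T ∈ F, q ^ (10 * DD S T)
      ≤ ∑ T ∈ F, q ^ 4 * (q ^ (1 * (f T).2.1.card) * q ^ (1 * (f T).2.2.card)) :=
        sum_le_sum hterm
    _ = ∑ x ∈ F.image f, q ^ 4 * (q ^ (1 * x.2.1.card) * q ^ (1 * x.2.2.card)) := by
        rw [sum_image (fun a _ b _ h => hinj h)]
    _ ≤ ∑ x : Fin R × Finset (Fin b) × Finset (Fin b),
          q ^ 4 * (q ^ (1 * x.2.1.card) * q ^ (1 * x.2.2.card)) :=
        sum_le_sum_of_subset_of_nonneg (subset_univ _) (fun _ _ _ => by positivity)
    _ = ∑ _i : Fin R, q ^ 4 * ((∑ X : Finset (Fin b), q ^ (1 * X.card)) *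
          ∑ Y : Finset (Fin b), q ^ (1 * Y.card)) := by
        rw [Fintype.sum_prod_type]
        apply sum_congr rfl
        intro i _
        rw [Fintype.sum_prod_type, sum_mul_sum, mul_sum]
        apply sum_congr rfl
        intro X _
        rw [mul_sum]
    _ ≤ ∑ _i : Fin R, q ^ 4 * (3 * 3) := by
        apply sum_le_sum
        intro i _
        apply mul_le_mul_of_nonneg_left _ (by positivity)
        have h := H328.Seq.geom b q hq0.le hq1 1 le_rfl hq2
        apply mul_le_mul h h (sum_nonneg fun _ _ => by positivity) (by norm_num)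
    _ = (R : ℝ) * q ^ 4 * 9 := by
        rw [sum_const, nsmul_eq_mul, card_univ, Fintype.card_fin]
        ring
    _ ≤ (b : ℝ) * q ^ 4 * 9 := by
        have : (R : ℝ) ≤ b := by exact_mod_cast hRb
        gcongr
    _ = ((b : ℝ) * q) * (9 * q * q ^ 2) := by ring
    _ ≤ 1 * (9 * q * q ^ 2) := by
        apply mul_le_mul_of_nonneg_right hq1 (by positivity)
    _ ≤ 1 / 4 := by
        have h9 : 9 * q ≤ 1 := by
          rw [hq, mul_one_div, div_le_one hb0]
          have : (8 : ℝ) ≤ b := by exact_mod_cast hb2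
          linarith
        have h10 : q ^ 2 ≤ 1 / 81 := by
          have : q ≤ 1 / 9 := by linarith
          nlinarith
        have h11 : 0 ≤ q ^ 2 := by positivity
        nlinarith

/-- the filler misses `T` with constant probability. -/
lemma fill_prob (K b h R l t : ℕ) (hh : 0 < h) (hRl : R ≤ l) (hlb : 4 * l ≤ b) (hhb : 64 * h ≤ b)
    (ht : 10 * t ≤ 11 * h) (hlK : l * h ≤ K * b) :
    Real.exp (-(7 * (K : ℝ))) * ((b - R).choose (l - R) : ℝ) ≤
      ((b - R - t).choose (l - R) : ℝ) := by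
  have hb : 0 < b := by omega
  have hbR : (0 : ℝ) < b := by exact_mod_cast hb
  set q : ℕ := b - R - t with hq
  have hq1 : 7 * b ≤ 10 * q := by omega
  have hq0 : 0 < q := by omega
  have hqR : (0 : ℝ) < q := by exact_mod_cast hq0
  have hq1R : 7 * (b : ℝ) ≤ 10 * q := by exact_mod_cast hq1
  have hqt : q + t = b - R := by omega
  have hk : l - R ≤ q := by omega
  have h1 := H328.Seq.choose_step (l - R) q hq0 t hk
  rw [hqt] at h1
  refine le_trans ?_ h1
  apply mul_le_mul_of_nonneg_right _ (by positivity)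
  set x : ℝ := ((l - R : ℕ) : ℝ) / q with hx
  have hx0 : 0 ≤ x := by positivity
  have hlR : (((l - R : ℕ) : ℝ)) ≤ l := by exact_mod_cast Nat.sub_le _ _
  have hx1 : x ≤ 3 / 4 := by
    rw [hx, div_le_div_iff₀ hqR (by norm_num)]
    have : 4 * (l : ℝ) ≤ b := by exact_mod_cast hlb
    linarith
  have h2 := Pick6.exp_le hx0 hx1
  calc Real.exp (-(7 * (K : ℝ))) ≤ Real.exp ((t : ℝ) * (-(4 * x))) := by
        apply Real.exp_le_exp.2
        have h3 : (t : ℝ) * x ≤ (11 / 7) * K := by
          rw [hx, ← mul_div_assoc, div_le_iff₀ hqR]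
          have e1 : 10 * (t : ℝ) ≤ 11 * h := by exact_mod_cast ht
          have e2 : (l : ℝ) * h ≤ K * b := by exact_mod_cast hlK
          have e3 : (t : ℝ) * ((l - R : ℕ) : ℝ) ≤ (11 / 10 * h) * l := by
            apply mul_le_mul _ hlR (by positivity) (by positivity)
            linarith
          have e4 : (K : ℝ) * (7 * b) ≤ K * (10 * q) := by
            apply mul_le_mul_of_nonneg_left hq1R (by positivity)
          nlinarith
        have hK : (0 : ℝ) ≤ K := by positivity
        nlinarith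
    _ = Real.exp (-(4 * x)) ^ t := by rw [← Real.exp_nat_mul]
    _ ≤ (1 - x) ^ t := pow_le_pow_left₀ (Real.exp_pos _).le h2 t

lemma Phi_le (S : Mid b h j R) : ((Phi S ∅).card : ℝ) ≤ ∏ i, ((S.st i).card : ℝ) := by
  have h1 : Phi S ∅ ⊆ Fintype.piFinset fun i => S.st i := by
    intro φ hφ
    rw [Fintype.mem_piFinset]
    intro i
    exact (mem_sdiff.1 (((mem_Phi S ∅ φ).1 hφ).2 i)).1
  have h2 := card_le_card h1
  rw [Fintype.card_piFinset] at h2
  rw [← Nat.cast_prod]
  exact_mod_cast h2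

lemma Phi_ge (hP : S6.PickStmt) (S : Mid b h j R) (hR : 0 < R) (hj : 1 ≤ j) (hjh : 100 * j ≤ h)
    (hbh : 100 * j ^ 2 * b ≤ h ^ 2) :
    Real.exp (-(20 * (j : ℝ))) * ∏ i, ((S.st i).card : ℝ) ≤ ((Phi S ∅).card : ℝ) := by
  have hh : 0 < h := by omega
  have hhR : (h : ℝ) ≠ 0 := by
    have : (0 : ℝ) < h := by exact_mod_cast hh
    exact this.ne'
  have h1 := hP b h j R h S ∅ hR hj (by omega) (by simp) hjh hbh
    (fun i => by rw [sdiff_empty]; exact S.size_ge i)
  rw [div_self hhR, mul_one] at h1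
  exact h1

lemma miss_ge (hP : S6.PickStmt) (K : ℕ) (S : Mid b h j R) (hR : 0 < R) (hj : 1 ≤ j)
    (hjh : 100 * j ≤ h) (hbh : 100 * j ^ 2 * b ≤ h ^ 2) (hhb : 64 * h ≤ b) (l : ℕ)
    (hRl : R ≤ l) (hlb : 4 * l ≤ b) (hlK : l * h ≤ K * b) (T : Finset (Fin b))
    (hT : 10 * T.card ≤ 11 * h) (hD : 1 ≤ DD S T) :
    (Real.exp (-(20 * (j : ℝ))) * ((DD S T : ℝ) / h) * Real.exp (-(7 * (K : ℝ)))) *
      ((Om S l).card : ℝ) ≤ (((Om S l).filter fun ω => Disjoint (col ω) T).card : ℝ) := by
  have hh : 0 < h := by omega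
  have hhR : (0 : ℝ) < h := by exact_mod_cast hh
  have h1 : Real.exp (-(20 * (j : ℝ))) * ((DD S T : ℝ) / h) * ∏ i, ((S.st i).card : ℝ) ≤
      ((Phi S T).card : ℝ) :=
    hP b h j R (DD S T) S T hR hj hD hT hjh hbh (fun i => DD_le S T i)
  have h2 := fill_prob K b h R l T.card hh hRl hlb hhb hT hlK
  have h3 := miss_card S l T
  have h4 := Phi_le S
  rw [card_Om, Nat.cast_mul]
  calc (Real.exp (-(20 * (j : ℝ))) * ((DD S T : ℝ) / h) * Real.exp (-(7 * (K : ℝ)))) *
        (((Phi S ∅).card : ℝ) * ((b - R).choose (l - R) : ℝ))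
      = (Real.exp (-(20 * (j : ℝ))) * ((DD S T : ℝ) / h) * ((Phi S ∅).card : ℝ)) *
        (Real.exp (-(7 * (K : ℝ))) * ((b - R).choose (l - R) : ℝ)) := by ring
    _ ≤ ((Phi S T).card : ℝ) * ((b - R - T.card).choose (l - R) : ℝ) := by
        apply mul_le_mul _ h2 (by positivity) (by positivity)
        refine le_trans ?_ h1
        exact mul_le_mul_of_nonneg_left h4 (by positivity)
    _ ≤ _ := by exact_mod_cast h3

lemma deg_le (hP : S6.PickStmt) (K : ℕ) (S : Mid b h j R) (hR : 0 < R) (hj : 1 ≤ j)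
    (hjh : 100 * j ≤ h) (hbh : 100 * j ^ 2 * b ≤ h ^ 2) (l : ℕ)
    (hRl : R ≤ l) (hlb : 4 * l ≤ b) (hb : 0 < b) (hlK : l * h ≤ K * b) (p : Fin b) :
    (((Om S l).filter fun ω => p ∈ col ω).card : ℝ) ≤
      ((j * Real.exp (20 * (j : ℝ)) + 2 * K) / h) * ((Om S l).card : ℝ) := by
  have hh : 0 < h := by omega
  have hhR : (0 : ℝ) < h := by exact_mod_cast hh
  have hbR : (0 : ℝ) < b := by exact_mod_cast hb
  have h1 := deg_card S l hRl (by omega) p
  have h2 := thru_card S hh p
  have h3 := Phi_ge hP S hR hj hjh hbh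
  have hC0 : (0 : ℝ) ≤ ((b - R).choose (l - R) : ℝ) := by positivity
  have hPr : ∏ i, ((S.st i).card : ℝ) ≤ Real.exp (20 * (j : ℝ)) * ((Phi S ∅).card : ℝ) := by
    have e1 : Real.exp (20 * (j : ℝ)) * Real.exp (-(20 * (j : ℝ))) = 1 := by
      rw [← Real.exp_add]; simp
    calc ∏ i, ((S.st i).card : ℝ)
        = Real.exp (20 * (j : ℝ)) * (Real.exp (-(20 * (j : ℝ))) * ∏ i, ((S.st i).card : ℝ)) := by
          rw [← mul_assoc, e1, one_mul]
      _ ≤ _ := mul_le_mul_of_nonneg_left h3 (Real.exp_pos _).le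
  have h4 : (l : ℝ) / (b - l) ≤ 2 * K / h := by
    have e1 : 4 * (l : ℝ) ≤ b := by exact_mod_cast hlb
    have e2 : (l : ℝ) * h ≤ K * b := by exact_mod_cast hlK
    have e3 : (0 : ℝ) ≤ l := by positivity
    have e4 : (0 : ℝ) ≤ K := by positivity
    rw [div_le_div_iff₀ (by linarith) hhR]
    nlinarith
  have h5 : 0 ≤ ((Phi S ∅).card : ℝ) * ((b - R).choose (l - R) : ℝ) := by positivity
  calc (((Om S l).filter fun ω => p ∈ col ω).card : ℝ)
      ≤ ((j : ℝ) / h * ∏ i, ((S.st i).card : ℝ)) * ((b - R).choose (l - R) : ℝ) +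
        ((l : ℝ) / (b - l)) * ((Phi S ∅).card * ((b - R).choose (l - R) : ℝ)) := by
        have := mul_le_mul_of_nonneg_right h2 hC0
        linarith
    _ ≤ ((j : ℝ) / h * (Real.exp (20 * (j : ℝ)) * ((Phi S ∅).card : ℝ))) *
          ((b - R).choose (l - R) : ℝ) +
        (2 * K / h) * ((Phi S ∅).card * ((b - R).choose (l - R) : ℝ)) := by
        apply add_le_add
        · apply mul_le_mul_of_nonneg_right _ hC0
          exact mul_le_mul_of_nonneg_left hPr (by positivity)
        · exact mul_le_mul_of_nonneg_right h4 h5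
    _ = ((j * Real.exp (20 * (j : ℝ)) + 2 * K) / h) * ((Om S l).card : ℝ) := by
        rw [card_Om, Nat.cast_mul]
        ring

/-- the second term of the union bound -/
lemma tail_le (b P : ℕ) (y : ℝ) (hy0 : 0 ≤ y) (hy : y ≤ 1 / 4)
    (hP : Real.log ((b : ℝ) + 1) ≤ P) : b * y ^ (P + 1) ≤ 1 / 4 := by
  have hb1 : (0 : ℝ) < (b : ℝ) + 1 := by positivity
  have h1 : y ^ (P + 1) ≤ (1 / 4 : ℝ) ^ (P + 1) := pow_le_pow_left₀ hy0 hy _
  have h2 : (b : ℝ) + 1 ≤ 4 ^ P := by
    calc (b : ℝ) + 1 = Real.exp (Real.log ((b : ℝ) + 1)) := (Real.exp_log hb1).symm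
      _ ≤ Real.exp P := Real.exp_le_exp.2 hP
      _ = Real.exp 1 ^ P := by rw [← Real.exp_nat_mul, mul_one]
      _ ≤ 4 ^ P := by
          apply pow_le_pow_left₀ (Real.exp_pos _).le
          have := Real.exp_one_lt_d9
          linarith
  have h4 : (0 : ℝ) < 4 ^ P := by positivity
  calc (b : ℝ) * y ^ (P + 1) ≤ b * (1 / 4 : ℝ) ^ (P + 1) :=
        mul_le_mul_of_nonneg_left h1 (by positivity)
    _ = (b / 4 ^ P) * (1 / 4) := by
        rw [pow_succ, one_div, inv_pow]; ring
    _ ≤ 1 * (1 / 4) := by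
        apply mul_le_mul_of_nonneg_right _ (by norm_num)
        rw [div_le_one h4]
        linarith
    _ = 1 / 4 := one_mul _

/-- **[S6-HIT]** -/
theorem hit_stmt (hP : S6.PickStmt) (hG : S6.GenStmt) : S6.HitStmt := by
  classical
  intro j K hj
  set C : ℕ := ⌈10 * Real.exp (20 * (j : ℝ) + 7 * K)⌉₊ +
    ⌈12 * (j * Real.exp (20 * (j : ℝ)) + 2 * K)⌉₊ + 100 * j + 8 with hC
  have hC1 : 10 * Real.exp (20 * (j : ℝ) + 7 * K) ≤ C := by
    refine (Nat.le_ceil _).trans ?_
    exact_mod_cast (by omega : ⌈10 * Real.exp (20 * (j : ℝ) + 7 * K)⌉₊ ≤ C)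
  have hC2 : 12 * (j * Real.exp (20 * (j : ℝ)) + 2 * K) ≤ C := by
    refine (Nat.le_ceil _).trans ?_
    exact_mod_cast (by omega : ⌈12 * (j * Real.exp (20 * (j : ℝ)) + 2 * K)⌉₊ ≤ C)
  refine ⟨C, by omega, ?_⟩
  intro b h R N P S hR hRh hCh hbh hhb hN hNP len hlen
  have hh : 0 < h := by omega
  have hhR : (0 : ℝ) < h := by exact_mod_cast hh
  have hjh : 100 * j ≤ h := by omega
  have hb8 : 8 ≤ b := by omega
  have hRb : R ≤ b := by
    have h1 : R * (100 * j) ≤ j * (b + 1) := (Nat.mul_le_mul_left _ hjh).trans hRh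
    have h2 : j * (100 * R) ≤ j * (b + 1) := by
      calc j * (100 * R) = R * (100 * j) := by ring
        _ ≤ _ := h1
    have h3 := Nat.le_of_mul_le_mul_left h2 (by omega)
    omega
  set L : ℝ := Real.log ((b : ℝ) + 1) with hL
  have hb1 : (0 : ℝ) < (b : ℝ) + 1 := by positivity
  have hL0 : 0 ≤ L := Real.log_nonneg (by
    have : (0 : ℝ) ≤ b := by positivity
    linarith)
  set 𝒯 : Finset (Finset (Fin b)) := univ.filter fun T =>
    10 * T.card ≤ 11 * h ∧ (∀ i, ¬ S.st i ⊆ T) ∧
      ∀ i, (S.st i).card < T.card → 2 * (S.st i ∩ T).card ≤ h with h𝒯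
  have hD1 : ∀ T ∈ 𝒯, 1 ≤ DD S T := by
    intro T hT
    obtain ⟨i, hi⟩ := DD_eq S T hR
    rw [← hi, Nat.succ_le_iff, card_pos, sdiff_nonempty]
    exact (mem_filter.1 hT).2.2.1 i
  set x : Finset (Fin b) → ℝ := fun T =>
    Real.exp (-(20 * (j : ℝ))) * ((DD S T : ℝ) / h) * Real.exp (-(7 * (K : ℝ))) with hx
  set q : ℝ := (j * Real.exp (20 * (j : ℝ)) + 2 * K) / h with hq
  have hq0 : 0 ≤ q := by rw [hq]; positivity
  have hne : ∀ c, Nonempty {ω // ω ∈ Om S (len c)} := by
    intro c
    have h1 := Phi_ge hP S hR hj hjh hbh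
    have h2 : (0 : ℝ) < ∏ i, ((S.st i).card : ℝ) := by
      apply prod_pos
      intro i _
      exact_mod_cast (lt_of_lt_of_le hh (S.size_ge i))
    have h3 : (0 : ℝ) < ((Phi S ∅).card : ℝ) :=
      lt_of_lt_of_le (mul_pos (Real.exp_pos _) h2) h1
    have h4 : 0 < (Phi S ∅).card := by exact_mod_cast h3
    have h5 : 0 < (Om S (len c)).card := by
      rw [card_Om]
      apply Nat.mul_pos h4
      apply Nat.choose_pos
      have := (hlen c).2.1
      omega
    obtain ⟨ω, hω⟩ := card_pos.1 h5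
    exact ⟨⟨ω, hω⟩⟩
  have hN0 : (0 : ℝ) ≤ N := by positivity
  have hsum1 : ∑ T ∈ 𝒯, Real.exp (-(N * x T)) ≤ 1 / 4 := by
    refine le_trans ?_ (union_bound S 𝒯 hR hRb hb8 (fun T hT =>
      ⟨(mem_filter.1 hT).2.1, hD1 T hT, (mem_filter.1 hT).2.2.2⟩) (1 / ((b : ℝ) + 1)) rfl)
    apply sum_le_sum
    intro T hT
    have e1 : (1 / ((b : ℝ) + 1)) ^ (10 * DD S T) =
        Real.exp (((10 * DD S T : ℕ) : ℝ) * (-L)) := by
      rw [Real.exp_nat_mul, Real.exp_neg, hL, Real.exp_log hb1, one_div]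
    rw [e1]
    apply Real.exp_le_exp.2
    have e2 : 10 * (DD S T : ℝ) * L ≤ N * x T := by
      have e3 : (C : ℝ) * h * L * x T ≤ N * x T := by
        apply mul_le_mul_of_nonneg_right hN
        rw [hx]
        positivity
      refine le_trans ?_ e3
      have e4 : (C : ℝ) * h * L * x T = C * (Real.exp (-(20 * (j : ℝ))) *
          Real.exp (-(7 * (K : ℝ)))) * ((DD S T : ℝ) * L) := by
        rw [hx]
        field_simp
      rw [e4, ← Real.exp_add]
      have e5 : 10 ≤ C * Real.exp (-(20 * (j : ℝ)) + -(7 * (K : ℝ))) := by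
        have e6 : Real.exp (20 * (j : ℝ) + 7 * K) * Real.exp (-(20 * (j : ℝ)) + -(7 * (K : ℝ))) = 1 := by
          rw [← Real.exp_add, ← Real.exp_zero]
          congr 1
          ring
        calc (10 : ℝ) = (10 * Real.exp (20 * (j : ℝ) + 7 * K)) *
              Real.exp (-(20 * (j : ℝ)) + -(7 * (K : ℝ))) := by rw [mul_assoc, e6, mul_one]
          _ ≤ _ := mul_le_mul_of_nonneg_right hC1 (Real.exp_pos _).le
      have e7 : 0 ≤ (DD S T : ℝ) * L := by positivity
      calc 10 * (DD S T : ℝ) * L = 10 * ((DD S T : ℝ) * L) := by ring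
        _ ≤ _ := mul_le_mul_of_nonneg_right e5 e7
    push_cast
    linarith
  have hPL : L ≤ P ∧ 3 * N * q / (P + 1) ≤ 1 / 4 := by
    have f1 : (C : ℝ) * N ≤ P * h := by exact_mod_cast hNP
    have hC8 : (8 : ℝ) ≤ C := by exact_mod_cast (by omega : 8 ≤ C)
    constructor
    · have f2 : (C : ℝ) * (C * h * L) ≤ P * h := by
        refine le_trans ?_ f1
        exact mul_le_mul_of_nonneg_left hN (by positivity)
      have f3 : (C : ℝ) * (C * L) * h ≤ P * h := by
        calc (C : ℝ) * (C * L) * h = (C : ℝ) * (C * h * L) := by ring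
          _ ≤ _ := f2
      have f4 := le_of_mul_le_mul_right f3 hhR
      have f5 : L ≤ (C : ℝ) * (C * L) := by
        have f6 : L ≤ C * L := by nlinarith
        have f7 : 0 ≤ (C : ℝ) * L := by positivity
        nlinarith
      linarith
    · rw [div_le_div_iff₀ (by positivity) (by norm_num)]
      have f2 : 12 * ((N : ℝ) * q) ≤ P := by
        have f3 : 12 * ((N : ℝ) * q) * h ≤ P * h := by
          calc 12 * ((N : ℝ) * q) * h = (12 * (j * Real.exp (20 * (j : ℝ)) + 2 * K)) * N := by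
                rw [hq]; field_simp
            _ ≤ C * N := mul_le_mul_of_nonneg_right hC2 hN0
            _ ≤ P * h := f1
        exact le_of_mul_le_mul_right f3 hhR
      linarith
  have hy0 : 0 ≤ 3 * N * q / ((P : ℝ) + 1) := by positivity
  have htail := tail_le b P (3 * N * q / (P + 1)) hy0 hPL.2 hPL.1
  obtain ⟨ω, hω1, hω2⟩ := hG N b P (fun c => {ω // ω ∈ Om S (len c)})
    (fun c ω => col ω.1) 𝒯 x q hq0
    (fun c T hT => by
      rw [Fintype.card_coe, card_filter_sub (Om S (len c)) (fun ω => Disjoint (col ω) T)]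
      exact miss_ge hP K S hR hj hjh hbh hhb (len c) (hlen c).1 (hlen c).2.1 (hlen c).2.2 T
        (mem_filter.1 hT).2.1 (hD1 T hT))
    (fun c p => by
      rw [Fintype.card_coe, card_filter_sub (Om S (len c)) (fun ω => p ∈ col ω)]
      exact deg_le hP K S hR hj hjh hbh (len c) (hlen c).1 (hlen c).2.1 (by omega)
        (hlen c).2.2 p)
    (by linarith)
  refine ⟨fun c => col (ω c).1, fun c => card_col S (len c) (hlen c).1 _ (ω c).2,
    fun c => sdr_col S (len c) _ (ω c).2, fun p => hω2 p, fun T h1 h2 h3 => ?_⟩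
  exact hω1 T (mem_filter.2 ⟨mem_univ _, h1, h2, h3⟩)

end Vale.Agent.P181.H162.Hit6
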