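import Vale.Agent.P181.H162.FF
import Vale.Agent.P181.H914.Par

/-!
# P181 (T4), (C2): existence of the frame for typical partitions
-/

set_option autoImplicit false

namespace Vale.Agent.P181.H162

open Finset Vale.Agent.P181.T4

/-- **(C2)** A typical partition has a frame. -/
theorem frameFor_of_typ {a b R R1 k K L : ℕ} {lam : Fin a → ℕ} (hanti : Antitone lam)
    (hsum : ∑ i, lam i = a * b) (hT : Typ a b R R1 K L lam) (hk : 2 * k + 10 ≤ a)
    (hK : 2 * k + 11 ≤ K) (hb : a + R * (L / a + 3) ≤ b) (hmon : b ≤ (R1 + k - 1).choose k) :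
    FrameFor a b R L lam := by
  obtain ⟨P, ha, hS, hlam, hTN, hN, hbN, hbal⟩ :=
    H914.exists_par hanti hsum hT hk hK hb hmon
  exact frameFor_of_par P ha hS hlam hTN hN hbN hbal

end Vale.Agent.P181.H162
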