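import Vale.Agent.P181.S6.Spec

/-!
# P181, S6: many systems of distinct representatives avoid `T` (leaf [S6-PICK])
-/

set_option autoImplicit false

namespace Vale.Agent.P181.H162.Pick6

open Finset Vale.Agent.P181.S6

section Collide

variable {α ι : Type} [Fintype ι] [DecidableEq ι] [DecidableEq α]

/-- choices with two equal entries -/
lemma card_eq_le (W : ι → Finset α) (i k : ι) (hik : i ≠ k) :
    ((Fintype.piFinset W).filter fun φ => φ i = φ k).card * ((W i).card * (W k).card) ≤
      (W i ∩ W k).card * ∏ l, (W l).card := by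
  classical
  set E : ℕ := ∏ l ∈ (univ.erase i).erase k, (W l).card with hE
  have hprod : ∀ g : ι → ℕ, ∏ l, g l = g i * (g k * ∏ l ∈ (univ.erase i).erase k, g l) := by
    intro g
    rw [← mul_prod_erase univ g (mem_univ i),
      ← mul_prod_erase (univ.erase i) g (mem_erase.2 ⟨hik.symm, mem_univ k⟩)]
  have hsub : (Fintype.piFinset W).filter (fun φ => φ i = φ k) ⊆
      (W i ∩ W k).biUnion fun v =>
        Fintype.piFinset fun l => if l = i ∨ l = k then {v} else W l := by
    intro φ hφ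
    rw [mem_filter, Fintype.mem_piFinset] at hφ
    obtain ⟨h1, h2⟩ := hφ
    rw [mem_biUnion]
    refine ⟨φ i, mem_inter.2 ⟨h1 i, h2 ▸ h1 k⟩, ?_⟩
    rw [Fintype.mem_piFinset]
    intro l
    split_ifs with h
    · rcases h with rfl | rfl
      · exact mem_singleton_self _
      · rw [h2]; exact mem_singleton_self _
    · exact h1 l
  have hcard : ∀ v ∈ W i ∩ W k,
      (Fintype.piFinset fun l => if l = i ∨ l = k then ({v} : Finset α) else W l).card = E := by
    intro v _
    rw [Fintype.card_piFinset, hprod]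
    rw [if_pos (Or.inl rfl), if_pos (Or.inr rfl), card_singleton, one_mul, one_mul]
    apply prod_congr rfl
    intro l hl
    rw [mem_erase, mem_erase] at hl
    rw [if_neg]
    rintro (h | h)
    · exact hl.2.1 h
    · exact hl.1 h
  have h1 : ((Fintype.piFinset W).filter fun φ => φ i = φ k).card ≤ (W i ∩ W k).card * E := by
    refine (card_le_card hsub).trans (card_biUnion_le.trans ?_)
    rw [sum_congr rfl hcard, sum_const, smul_eq_mul]
  calc ((Fintype.piFinset W).filter fun φ => φ i = φ k).card * ((W i).card * (W k).card)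
      ≤ ((W i ∩ W k).card * E) * ((W i).card * (W k).card) := Nat.mul_le_mul_right _ h1
    _ = (W i ∩ W k).card * ∏ l, (W l).card := by
        rw [hprod (fun l => (W l).card)]; ring

/-- at least half of the choices are injective when few collisions are expected -/
lemma half_inj (W : ι → Finset α) (hne : ∀ i, (W i).Nonempty)
    (hc : ∑ i, ∑ k ∈ univ.erase i,
      ((W i ∩ W k).card : ℝ) / ((W i).card * (W k).card) ≤ 1 / 2) :
    (1 / 2 : ℝ) * ∏ l, ((W l).card : ℝ) ≤
      (((Fintype.piFinset W).filter fun φ => Function.Injective φ).card : ℝ) := by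
  classical
  set P : ℝ := ∏ l, ((W l).card : ℝ) with hP
  have hP0 : 0 ≤ P := prod_nonneg fun _ _ => by positivity
  have hpos : ∀ i, (0 : ℝ) < (W i).card := fun i => by exact_mod_cast card_pos.2 (hne i)
  have htot : ((Fintype.piFinset W).card : ℝ) = P := by
    rw [Fintype.card_piFinset]; push_cast; rfl
  have hsub : (Fintype.piFinset W).filter (fun φ => ¬ Function.Injective φ) ⊆
      univ.biUnion fun i : ι => (univ.erase i).biUnion fun k =>
        (Fintype.piFinset W).filter fun φ => φ i = φ k := by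
    intro φ hφ
    rw [mem_filter] at hφ
    obtain ⟨h1, h2⟩ := hφ
    rw [Function.Injective] at h2
    push Not at h2
    obtain ⟨i, k, h3, h4⟩ := h2
    rw [mem_biUnion]
    refine ⟨i, mem_univ _, ?_⟩
    rw [mem_biUnion]
    exact ⟨k, mem_erase.2 ⟨fun h => h4 h.symm, mem_univ _⟩, mem_filter.2 ⟨h1, h3⟩⟩
  have hbad : (((Fintype.piFinset W).filter fun φ => ¬ Function.Injective φ).card : ℝ) ≤
      (1 / 2) * P := by
    have h1 : ((Fintype.piFinset W).filter fun φ => ¬ Function.Injective φ).card ≤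
        ∑ i : ι, ∑ k ∈ univ.erase i, ((Fintype.piFinset W).filter fun φ => φ i = φ k).card := by
      refine (card_le_card hsub).trans (card_biUnion_le.trans ?_)
      exact sum_le_sum fun i _ => card_biUnion_le
    have h2 : ∀ i, ∀ k ∈ univ.erase i,
        (((Fintype.piFinset W).filter fun φ => φ i = φ k).card : ℝ) ≤
        ((W i ∩ W k).card : ℝ) / ((W i).card * (W k).card) * P := by
      intro i k hk
      have h3 := card_eq_le W i k (fun h => (mem_erase.1 hk).1 h.symm)
      have h4 : (((Fintype.piFinset W).filter fun φ => φ i = φ k).card : ℝ) *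
          ((W i).card * (W k).card) ≤ (W i ∩ W k).card * P := by
        rw [hP, ← Nat.cast_prod]
        exact_mod_cast h3
      have h5 : (0 : ℝ) < (W i).card * (W k).card := mul_pos (hpos i) (hpos k)
      rw [div_mul_eq_mul_div, le_div_iff₀ h5]
      exact h4
    calc (((Fintype.piFinset W).filter fun φ => ¬ Function.Injective φ).card : ℝ)
        ≤ ((∑ i : ι, ∑ k ∈ univ.erase i,
            ((Fintype.piFinset W).filter fun φ => φ i = φ k).card : ℕ) : ℝ) := by
          exact_mod_cast h1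
      _ = ∑ i : ι, ∑ k ∈ univ.erase i,
            (((Fintype.piFinset W).filter fun φ => φ i = φ k).card : ℝ) := by push_cast; rfl
      _ ≤ ∑ i : ι, ∑ k ∈ univ.erase i,
            ((W i ∩ W k).card : ℝ) / ((W i).card * (W k).card) * P :=
          sum_le_sum fun i _ => sum_le_sum fun k hk => h2 i k hk
      _ = (∑ i : ι, ∑ k ∈ univ.erase i,
            ((W i ∩ W k).card : ℝ) / ((W i).card * (W k).card)) * P := by
          rw [sum_mul]
          exact sum_congr rfl fun i _ => by rw [sum_mul]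
      _ ≤ (1 / 2) * P := mul_le_mul_of_nonneg_right hc hP0
  have hsplit := card_filter_add_card_filter_not (s := Fintype.piFinset W)
    (fun φ : ι → α => Function.Injective φ)
  have hsplit' : (((Fintype.piFinset W).filter fun φ => Function.Injective φ).card : ℝ) +
      (((Fintype.piFinset W).filter fun φ => ¬ Function.Injective φ).card : ℝ) = P := by
    rw [← htot]
    exact_mod_cast hsplit
  linarith

end Collide

lemma exp_le {x : ℝ} (h0 : 0 ≤ x) (h1 : x ≤ 3 / 4) : Real.exp (-(4 * x)) ≤ 1 - x := by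
  have h2 : 1 + 4 * x + (4 * x) ^ 2 / 2 ≤ Real.exp (4 * x) :=
    Real.quadratic_le_exp_of_nonneg (by linarith)
  rw [Real.exp_neg]
  have h3 : 0 < Real.exp (4 * x) := Real.exp_pos _
  rw [inv_le_iff_one_le_mul₀ h3]
  have h4 : 0 ≤ 1 - x := by linarith
  calc (1 : ℝ) ≤ (1 - x) * (1 + 4 * x + (4 * x) ^ 2 / 2) := by
        have h5 : 0 ≤ x * (3 + 4 * x - 8 * x ^ 2) := by
          apply mul_nonneg h0
          nlinarith
        nlinarith
    _ ≤ (1 - x) * Real.exp (4 * x) := mul_le_mul_of_nonneg_left h2 h4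

section Star

variable {b h j R : ℕ}

/-- at most one star is nearly contained in `T` -/
lemma exists_heavy (S : Mid b h j R) (T : Finset (Fin b)) (hR : 0 < R)
    (_hh : 0 < h) (hT : 10 * T.card ≤ 11 * h) :
    ∃ i0 : Fin R, ∀ i, i ≠ i0 → 4 * (S.st i ∩ T).card ≤ 3 * (S.st i).card := by
  by_cases hex : ∃ i, 3 * (S.st i).card < 4 * (S.st i ∩ T).card
  · obtain ⟨i0, h0⟩ := hex
    refine ⟨i0, fun i hi => ?_⟩
    by_contra hcon
    push Not at hcon
    have h1 := S.size_ge i
    have h2 := S.size_ge i0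
    have h3 := S.inter i i0 hi
    have h4 : (S.st i ∩ T).card + (S.st i0 ∩ T).card ≤ T.card + (S.st i ∩ S.st i0).card := by
      have e1 := card_union_add_card_inter (S.st i ∩ T) (S.st i0 ∩ T)
      have e2 : ((S.st i ∩ T) ∪ (S.st i0 ∩ T)).card ≤ T.card :=
        card_le_card (union_subset inter_subset_right inter_subset_right)
      have e3 : ((S.st i ∩ T) ∩ (S.st i0 ∩ T)).card ≤ (S.st i ∩ S.st i0).card := by
        apply card_le_card
        intro p hp
        simp only [mem_inter] at hp ⊢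
        exact ⟨hp.1.1, hp.2.1⟩
      omega
    omega
  · push Not at hex
    exact ⟨⟨0, hR⟩, fun i _ => hex i⟩

/-- double counting -/
lemma sum_inter (S : Mid b h j R) (T : Finset (Fin b)) :
    ∑ i, (S.st i ∩ T).card ≤ j * T.card := by
  classical
  have h1 : ∀ i, (S.st i ∩ T).card = ∑ p ∈ T, if p ∈ S.st i then 1 else 0 := by
    intro i
    rw [← card_filter, inter_comm]
    congr 1
  calc ∑ i, (S.st i ∩ T).card = ∑ p ∈ T, ∑ i, (if p ∈ S.st i then 1 else 0) := by
        rw [sum_congr rfl fun i _ => h1 i, sum_comm]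
    _ = ∑ p ∈ T, (univ.filter fun i => p ∈ S.st i).card := by
        apply sum_congr rfl
        intro p _
        rw [card_filter]
    _ ≤ ∑ _p ∈ T, j := sum_le_sum fun p _ => S.deg p
    _ = j * T.card := by rw [sum_const, smul_eq_mul, mul_comm]

lemma sum_card (S : Mid b h j R) : ∑ i, (S.st i).card ≤ j * b := by
  have h1 := sum_inter S univ
  simp only [inter_univ, card_univ, Fintype.card_fin] at h1
  exact h1

/-- the data of the proof -/
structure Dt (S : Mid b h j R) (T : Finset (Fin b)) (i0 : Fin R) (W : Fin R → Finset (Fin b)) :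
    Prop where
  hh : (0 : ℝ) < h
  hW : ∀ i, W i = S.st i \ T
  one : ∀ i, (1 : ℝ) ≤ (W i).card
  light : ∀ i, i ≠ i0 → (h : ℝ) / 4 ≤ (W i).card

lemma term_bound (S : Mid b h j R) (T : Finset (Fin b)) (i0 : Fin R)
    (W : Fin R → Finset (Fin b)) (H : Dt S T i0 W) (i k : Fin R) (hik : k ≠ i) :
    ((W i ∩ W k).card : ℝ) / ((W i).card * (W k).card) ≤
      16 / (h : ℝ) ^ 2 * ((S.st i ∩ S.st k).card : ℝ) +
      ((if i = i0 then 4 / (h : ℝ) * (((W i0 ∩ S.st k).card : ℝ) / (W i0).card) else 0) +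
      (if k = i0 then 4 / (h : ℝ) * (((W i0 ∩ S.st i).card : ℝ) / (W i0).card) else 0)) := by
  have hhR := H.hh
  have hW1 := H.one
  have hWl := H.light
  have hsub : ∀ i, W i ⊆ S.st i := fun i => by rw [H.hW]; exact sdiff_subset
  have hp1 : (0 : ℝ) < (W i).card := by linarith [hW1 i]
  have hp2 : (0 : ℝ) < (W k).card := by linarith [hW1 k]
  have hp0 : (0 : ℝ) < (W i0).card := by linarith [hW1 i0]
  have n1 : 0 ≤ 16 / (h : ℝ) ^ 2 * ((S.st i ∩ S.st k).card : ℝ) := by positivity
  have n2 : 0 ≤ 4 / (h : ℝ) * (((W i0 ∩ S.st k).card : ℝ) / (W i0).card) := by positivity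
  have n3 : 0 ≤ 4 / (h : ℝ) * (((W i0 ∩ S.st i).card : ℝ) / (W i0).card) := by positivity
  by_cases h1 : i = i0
  · subst h1
    rw [if_pos rfl, if_neg hik]
    have h2 : ((W i ∩ W k).card : ℝ) ≤ ((W i ∩ S.st k).card : ℝ) := by
      exact_mod_cast card_le_card (inter_subset_inter_left (hsub k))
    have h3 : ((W i ∩ W k).card : ℝ) / ((W i).card * (W k).card) ≤
        4 / (h : ℝ) * (((W i ∩ S.st k).card : ℝ) / (W i).card) := by
      have h4 := hWl k hik
      calc ((W i ∩ W k).card : ℝ) / ((W i).card * (W k).card)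
          ≤ ((W i ∩ S.st k).card : ℝ) / ((W i).card * ((h : ℝ) / 4)) := by
            apply div_le_div₀ (by positivity) h2 (by positivity)
            exact mul_le_mul_of_nonneg_left h4 (by positivity)
        _ = 4 / (h : ℝ) * (((W i ∩ S.st k).card : ℝ) / (W i).card) := by
            field_simp
    linarith
  · by_cases h2 : k = i0
    · subst h2
      rw [if_neg h1, if_pos rfl]
      have h3 : ((W i ∩ W k).card : ℝ) ≤ ((W k ∩ S.st i).card : ℝ) := by
        rw [inter_comm]
        exact_mod_cast card_le_card (inter_subset_inter_left (hsub i))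
      have h4 : ((W i ∩ W k).card : ℝ) / ((W i).card * (W k).card) ≤
          4 / (h : ℝ) * (((W k ∩ S.st i).card : ℝ) / (W k).card) := by
        have h5 := hWl i h1
        calc ((W i ∩ W k).card : ℝ) / ((W i).card * (W k).card)
            ≤ ((W k ∩ S.st i).card : ℝ) / (((h : ℝ) / 4) * (W k).card) := by
              apply div_le_div₀ (by positivity) h3 (by positivity)
              exact mul_le_mul_of_nonneg_right h5 (by positivity)
          _ = 4 / (h : ℝ) * (((W k ∩ S.st i).card : ℝ) / (W k).card) := by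
              field_simp
      linarith
    · rw [if_neg h1, if_neg h2]
      have h3 : ((W i ∩ W k).card : ℝ) ≤ ((S.st i ∩ S.st k).card : ℝ) := by
        exact_mod_cast card_le_card (inter_subset_inter (hsub i) (hsub k))
      have h4 : ((W i ∩ W k).card : ℝ) / ((W i).card * (W k).card) ≤
          16 / (h : ℝ) ^ 2 * ((S.st i ∩ S.st k).card : ℝ) := by
        have h5 := hWl i h1
        have h6 := hWl k h2
        have h7 : (h : ℝ) ^ 2 / 16 ≤ (W i).card * (W k).card := by
          have : (h : ℝ) / 4 * (h / 4) ≤ (W i).card * (W k).card := by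
            apply mul_le_mul h5 h6 (by positivity) (by positivity)
          calc (h : ℝ) ^ 2 / 16 = (h : ℝ) / 4 * (h / 4) := by ring
            _ ≤ _ := this
        calc ((W i ∩ W k).card : ℝ) / ((W i).card * (W k).card)
            ≤ ((S.st i ∩ S.st k).card : ℝ) / ((h : ℝ) ^ 2 / 16) := by
              apply div_le_div₀ (by positivity) h3 (by positivity) h7
          _ = 16 / (h : ℝ) ^ 2 * ((S.st i ∩ S.st k).card : ℝ) := by
              field_simp
      linarith

lemma sum_split (A : Fin R → Fin R → ℝ) (f : Fin R → ℝ) (i0 : Fin R) (c : ℝ) :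
    ∑ i : Fin R, ∑ k : Fin R, (c * A i k + ((if i = i0 then f k else 0) +
      (if k = i0 then f i else 0))) =
    c * (∑ i : Fin R, ∑ k : Fin R, A i k) + ((∑ i : Fin R, f i) + (∑ i : Fin R, f i)) := by
  have h1 : ∑ i : Fin R, ∑ k : Fin R, (if i = i0 then f k else 0) = ∑ i : Fin R, f i := by
    rw [sum_comm]
    apply sum_congr rfl
    intro k _
    simp
  have h2 : ∑ i : Fin R, ∑ k : Fin R, (if k = i0 then f i else 0) = ∑ i : Fin R, f i := by
    apply sum_congr rfl
    intro k _
    simp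
  simp only [sum_add_distrib, h1, h2, mul_sum]

lemma sum_pairs (S : Mid b h j R) :
    ∑ i : Fin R, ∑ k : Fin R, ((S.st i ∩ S.st k).card : ℝ) ≤ j * (j * b) := by
  have h1 : ∑ i : Fin R, ∑ k : Fin R, (S.st i ∩ S.st k).card ≤ j * (j * b) := by
    calc ∑ i : Fin R, ∑ k : Fin R, (S.st i ∩ S.st k).card
        ≤ ∑ i : Fin R, j * (S.st i).card := by
          apply sum_le_sum
          intro i _
          rw [sum_congr rfl fun k _ => by rw [inter_comm]]
          exact sum_inter S (S.st i)
      _ = j * ∑ i : Fin R, (S.st i).card := by rw [mul_sum]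
      _ ≤ j * (j * b) := Nat.mul_le_mul_left _ (sum_card S)
  exact_mod_cast h1

lemma sum_heavy (S : Mid b h j R) (hh : (0 : ℝ) < h) (V : Finset (Fin b))
    (hV : (1 : ℝ) ≤ V.card) :
    ∑ i : Fin R, 4 / (h : ℝ) * (((V ∩ S.st i).card : ℝ) / V.card) ≤ 4 * j / h := by
  have s2 : ∑ i : Fin R, ((V ∩ S.st i).card : ℝ) ≤ j * V.card := by
    have h1 := sum_inter S V
    have h2 : ∑ i : Fin R, (V ∩ S.st i).card ≤ j * V.card := by
      rw [sum_congr rfl fun i _ => by rw [inter_comm]]
      exact h1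
    exact_mod_cast h2
  have hp0 : (0 : ℝ) < V.card := by linarith
  rw [← mul_sum, ← sum_div]
  calc 4 / (h : ℝ) * ((∑ i : Fin R, ((V ∩ S.st i).card : ℝ)) / V.card)
      ≤ 4 / (h : ℝ) * j := by
        apply mul_le_mul_of_nonneg_left _ (by positivity)
        rw [div_le_iff₀ hp0]
        exact s2
    _ = 4 * j / h := by ring

lemma col_bound (S : Mid b h j R) (T : Finset (Fin b)) (i0 : Fin R)
    (W : Fin R → Finset (Fin b)) (H : Dt S T i0 W) (hjh : 100 * j ≤ h)
    (hbh : 100 * j ^ 2 * b ≤ h ^ 2) :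
    ∑ i, ∑ k ∈ univ.erase i,
      ((W i ∩ W k).card : ℝ) / ((W i).card * (W k).card) ≤ 1 / 2 := by
  have hhR := H.hh
  have hW1 := H.one
  have s1 : ∑ i, ∑ k ∈ univ.erase i,
      ((W i ∩ W k).card : ℝ) / ((W i).card * (W k).card) ≤
      ∑ i : Fin R, ∑ k : Fin R, (16 / (h : ℝ) ^ 2 * ((S.st i ∩ S.st k).card : ℝ) +
        ((if i = i0 then 4 / (h : ℝ) * (((W i0 ∩ S.st k).card : ℝ) / (W i0).card) else 0) +
        (if k = i0 then 4 / (h : ℝ) * (((W i0 ∩ S.st i).card : ℝ) / (W i0).card) else 0))) := by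
    apply sum_le_sum
    intro i _
    refine (sum_le_sum fun k hk => term_bound S T i0 W H i k (mem_erase.1 hk).1).trans ?_
    apply sum_le_sum_of_subset_of_nonneg (erase_subset _ _)
    intro k _ _
    have n1 : 0 ≤ 16 / (h : ℝ) ^ 2 * ((S.st i ∩ S.st k).card : ℝ) := by positivity
    have n2 : 0 ≤ (if i = i0 then 4 / (h : ℝ) * (((W i0 ∩ S.st k).card : ℝ) / (W i0).card)
        else 0) := by
      split_ifs
      · positivity
      · exact le_rfl
    have n3 : 0 ≤ (if k = i0 then 4 / (h : ℝ) * (((W i0 ∩ S.st i).card : ℝ) / (W i0).card)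
        else 0) := by
      split_ifs
      · positivity
      · exact le_rfl
    linarith
  rw [sum_split (fun i k => ((S.st i ∩ S.st k).card : ℝ))
    (fun i => 4 / (h : ℝ) * (((W i0 ∩ S.st i).card : ℝ) / (W i0).card)) i0] at s1
  have s3 := sum_heavy S hhR (W i0) (hW1 i0)
  have s4 := sum_pairs S
  have hbh' : 100 * (j : ℝ) ^ 2 * b ≤ (h : ℝ) ^ 2 := by exact_mod_cast hbh
  have hjh' : 100 * (j : ℝ) ≤ h := by exact_mod_cast hjh
  have t1 : 16 / (h : ℝ) ^ 2 * (∑ i : Fin R, ∑ k : Fin R, ((S.st i ∩ S.st k).card : ℝ)) ≤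
      16 / 100 := by
    calc 16 / (h : ℝ) ^ 2 * (∑ i : Fin R, ∑ k : Fin R, ((S.st i ∩ S.st k).card : ℝ))
        ≤ 16 / (h : ℝ) ^ 2 * (j * (j * b)) := mul_le_mul_of_nonneg_left s4 (by positivity)
      _ = 16 * (100 * (j : ℝ) ^ 2 * b) / (100 * (h : ℝ) ^ 2) := by
          field_simp
      _ ≤ 16 * (h : ℝ) ^ 2 / (100 * (h : ℝ) ^ 2) := by gcongr
      _ = 16 / 100 := by field_simp
  have t2 : 4 * (j : ℝ) / h ≤ 4 / 100 := by
    rw [div_le_div_iff₀ hhR (by norm_num)]
    linarith
  linarith

lemma prod_bound (S : Mid b h j R) (T : Finset (Fin b)) (i0 : Fin R) (D : ℕ)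
    (W : Fin R → Finset (Fin b)) (H : Dt S T i0 W) (hD : 1 ≤ D)
    (hDi : D ≤ (W i0).card) (hT : 10 * T.card ≤ 11 * h)
    (hi0 : ∀ i, i ≠ i0 → 4 * (S.st i ∩ T).card ≤ 3 * (S.st i).card) :
    Real.exp (-(4 * ((11 / 10) * j))) * (10 / 11 * ((D : ℝ) / h)) *
      ∏ i, ((S.st i).card : ℝ) ≤ ∏ i, ((W i).card : ℝ) := by
  have hhR := H.hh
  have hge : ∀ i, (h : ℝ) ≤ (S.st i).card := fun i => by exact_mod_cast S.size_ge i
  have hle : ∀ i, 10 * ((S.st i).card : ℝ) ≤ 11 * h := fun i => by exact_mod_cast S.size_le i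
  have hWcard : ∀ i, ((W i).card : ℝ) = ((S.st i).card : ℝ) - ((S.st i ∩ T).card : ℝ) := by
    intro i
    have h1 := card_sdiff_add_card_inter (S.st i) T
    have h2 : ((W i).card : ℝ) + ((S.st i ∩ T).card : ℝ) = ((S.st i).card : ℝ) := by
      rw [H.hW]; exact_mod_cast h1
    linarith
  have hlight : ∀ i, i ≠ i0 → 4 * ((S.st i ∩ T).card : ℝ) ≤ 3 * (S.st i).card := fun i hi => by
    exact_mod_cast hi0 i hi
  have hstpos : ∀ i, (0 : ℝ) < (S.st i).card := fun i => lt_of_lt_of_le hhR (hge i)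
  have hfac : ∀ i, i ≠ i0 → Real.exp (-(4 * (((S.st i ∩ T).card : ℝ) / h))) * (S.st i).card ≤
      (W i).card := by
    intro i hi
    have h1 := hlight i hi
    set x : ℝ := ((S.st i ∩ T).card : ℝ) / (S.st i).card with hx
    have hx0 : 0 ≤ x := by positivity
    have hx1 : x ≤ 3 / 4 := by
      rw [hx, div_le_div_iff₀ (hstpos i) (by norm_num)]
      linarith
    have hx2 : x ≤ ((S.st i ∩ T).card : ℝ) / h :=
      div_le_div_of_nonneg_left (by positivity) hhR (hge i)
    calc Real.exp (-(4 * (((S.st i ∩ T).card : ℝ) / h))) * (S.st i).card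
        ≤ Real.exp (-(4 * x)) * (S.st i).card := by
          apply mul_le_mul_of_nonneg_right _ (hstpos i).le
          apply Real.exp_le_exp.2
          linarith
      _ ≤ (1 - x) * (S.st i).card := mul_le_mul_of_nonneg_right (exp_le hx0 hx1) (hstpos i).le
      _ = (W i).card := by
          rw [hWcard, hx]
          have := (hstpos i).ne'
          field_simp
  have hfac0 : (10 / 11 * ((D : ℝ) / h)) * (S.st i0).card ≤ (W i0).card := by
    have h1 : (D : ℝ) ≤ (W i0).card := by exact_mod_cast hDi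
    calc (10 / 11 * ((D : ℝ) / h)) * (S.st i0).card = D * (10 * (S.st i0).card) / (11 * h) := by
          field_simp
      _ ≤ D * (11 * h) / (11 * h) := by
          have := hle i0
          gcongr
      _ = D := by field_simp
      _ ≤ _ := h1
  rw [← mul_prod_erase univ (fun i => ((S.st i).card : ℝ)) (mem_univ i0),
    ← mul_prod_erase univ (fun i => ((W i).card : ℝ)) (mem_univ i0)]
  have h1 : ∏ i ∈ univ.erase i0, (Real.exp (-(4 * (((S.st i ∩ T).card : ℝ) / h))) *
      ((S.st i).card : ℝ)) ≤ ∏ i ∈ univ.erase i0, ((W i).card : ℝ) := by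
    apply prod_le_prod
    · intro i _
      positivity
    · intro i hi
      exact hfac i (mem_erase.1 hi).1
  rw [prod_mul_distrib, ← Real.exp_sum] at h1
  have h2 : Real.exp (-(4 * ((11 / 10) * j))) ≤
      Real.exp (∑ i ∈ univ.erase i0, -(4 * (((S.st i ∩ T).card : ℝ) / h))) := by
    apply Real.exp_le_exp.2
    rw [sum_neg_distrib, ← mul_sum, ← sum_div]
    apply neg_le_neg
    apply mul_le_mul_of_nonneg_left _ (by norm_num)
    rw [div_le_iff₀ hhR]
    have h3 : ∑ i ∈ univ.erase i0, ((S.st i ∩ T).card : ℝ) ≤ ∑ i, ((S.st i ∩ T).card : ℝ) :=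
      sum_le_sum_of_subset_of_nonneg (erase_subset _ _) (fun _ _ _ => by positivity)
    have h4 : ∑ i, ((S.st i ∩ T).card : ℝ) ≤ j * T.card := by
      exact_mod_cast sum_inter S T
    have h5 : 10 * (T.card : ℝ) ≤ 11 * h := by exact_mod_cast hT
    have h6 : (j : ℝ) * T.card ≤ j * (11 / 10 * h) := by
      apply mul_le_mul_of_nonneg_left _ (by positivity)
      linarith
    linarith
  have h7 : 0 ≤ ∏ i ∈ univ.erase i0, ((S.st i).card : ℝ) := prod_nonneg fun _ _ => by positivity
  have h8 : 0 ≤ (10 / 11 * ((D : ℝ) / h)) * (S.st i0).card := by positivity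
  have h9 : Real.exp (-(4 * ((11 / 10) * j))) * ∏ i ∈ univ.erase i0, ((S.st i).card : ℝ) ≤
      ∏ i ∈ univ.erase i0, ((W i).card : ℝ) := (mul_le_mul_of_nonneg_right h2 h7).trans h1
  calc Real.exp (-(4 * ((11 / 10) * j))) * (10 / 11 * ((D : ℝ) / h)) *
        (((S.st i0).card : ℝ) * ∏ i ∈ univ.erase i0, ((S.st i).card : ℝ))
      = ((10 / 11 * ((D : ℝ) / h)) * (S.st i0).card) *
        (Real.exp (-(4 * ((11 / 10) * j))) * ∏ i ∈ univ.erase i0, ((S.st i).card : ℝ)) := by
        ring
    _ ≤ (W i0).card * ∏ i ∈ univ.erase i0, ((W i).card : ℝ) := by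
        apply mul_le_mul hfac0 h9 _ (by positivity)
        exact mul_nonneg (Real.exp_pos _).le h7

lemma const_le (j : ℕ) (hj : 1 ≤ j) : Real.exp (-(20 * (j : ℝ))) ≤
    (1 / 2) * (Real.exp (-(4 * ((11 / 10) * j))) * (10 / 11)) := by
  have hj' : (1 : ℝ) ≤ j := by exact_mod_cast hj
  have h2 : Real.exp (-(20 * (j : ℝ))) =
      Real.exp (-(4 * ((11 / 10) * j))) * Real.exp (-((156 / 10) * j)) := by
    rw [← Real.exp_add]; congr 1; ring
  rw [h2]
  have h3 : Real.exp (-((156 / 10) * (j : ℝ))) ≤ 10 / 22 := by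
    rw [Real.exp_neg, inv_le_comm₀ (Real.exp_pos _) (by norm_num)]
    have h4 := Real.add_one_le_exp ((156 / 10) * (j : ℝ))
    norm_num
    linarith
  have h5 := Real.exp_pos (-(4 * ((11 / 10) * (j : ℝ))))
  calc Real.exp (-(4 * ((11 / 10) * (j : ℝ)))) * Real.exp (-((156 / 10) * j))
      ≤ Real.exp (-(4 * ((11 / 10) * (j : ℝ)))) * (10 / 22) :=
        mul_le_mul_of_nonneg_left h3 h5.le
    _ = _ := by ring

/-- **[S6-PICK]** -/
theorem pick_stmt : PickStmt := by
  classical
  intro b h j R D S T hR hj hD hT hjh hbh hDi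
  have hh : 0 < h := by omega
  have hhR : (0 : ℝ) < h := by exact_mod_cast hh
  obtain ⟨i0, hi0⟩ := exists_heavy S T hR hh hT
  set W : Fin R → Finset (Fin b) := fun i => S.st i \ T with hW
  have hne : ∀ i, (W i).Nonempty := fun i => card_pos.1 (lt_of_lt_of_le hD (hDi i))
  have H : Dt S T i0 W := by
    refine ⟨hhR, fun i => rfl, fun i => ?_, fun i hi => ?_⟩
    · exact_mod_cast (card_pos.2 (hne i))
    · have h1 := card_sdiff_add_card_inter (S.st i) T
      have h2 := hi0 i hi
      have h3 := S.size_ge i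
      have h4 : h ≤ 4 * (W i).card := by
        show h ≤ 4 * (S.st i \ T).card
        omega
      have h5 : (h : ℝ) ≤ 4 * (W i).card := by exact_mod_cast h4
      linarith
  have hinj := half_inj W hne (col_bound S T i0 W H hjh hbh)
  have hprod := prod_bound S T i0 D W H hD (hDi i0) hT hi0
  have hset : ((Fintype.piFinset W).filter fun φ => Function.Injective φ) =
      (univ.filter fun φ : Fin R → Fin b =>
        Function.Injective φ ∧ ∀ i, φ i ∈ S.st i \ T) := by
    ext φ
    simp only [mem_filter, Fintype.mem_piFinset, mem_univ, true_and, hW]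
    tauto
  have hP0 : 0 ≤ ∏ i, ((S.st i).card : ℝ) := prod_nonneg fun _ _ => by positivity
  have hfin : Real.exp (-(20 * (j : ℝ))) * ((D : ℝ) / h) * ∏ i, ((S.st i).card : ℝ) ≤
      (1 / 2) * ∏ i, ((W i).card : ℝ) := by
    have h6 : 0 ≤ ((D : ℝ) / h) * ∏ i, ((S.st i).card : ℝ) := mul_nonneg (by positivity) hP0
    calc Real.exp (-(20 * (j : ℝ))) * ((D : ℝ) / h) * ∏ i, ((S.st i).card : ℝ)
        = Real.exp (-(20 * (j : ℝ))) * (((D : ℝ) / h) * ∏ i, ((S.st i).card : ℝ)) := by ring
      _ ≤ ((1 / 2) * (Real.exp (-(4 * ((11 / 10) * j))) * (10 / 11))) *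
          (((D : ℝ) / h) * ∏ i, ((S.st i).card : ℝ)) :=
          mul_le_mul_of_nonneg_right (const_le j hj) h6
      _ = (1 / 2) * (Real.exp (-(4 * ((11 / 10) * j))) * (10 / 11 * ((D : ℝ) / h)) *
          ∏ i, ((S.st i).card : ℝ)) := by ring
      _ ≤ _ := mul_le_mul_of_nonneg_left hprod (by norm_num)
  rw [← hset]
  exact hfin.trans hinj

end Star

end Vale.Agent.P181.H162.Pick6
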