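import Mathlib

/-!
# P181 (T4): assignment lemmas for the rows of the frame
-/

set_option autoImplicit false

namespace Vale.Agent.P181.H162

open Finset

/-- Assignment with prescribed fibre sizes, extending a prescribed partial assignment. -/
theorem exists_assign {α β : Type*} [DecidableEq α] [Fintype β] [DecidableEq β] [Nonempty β]
    (C : Finset α) (cap : β → ℕ) (hC : ∑ p, cap p = C.card) (S : β → Finset α)
    (hS : ∀ p, S p ⊆ C) (hd : ∀ p q, p ≠ q → Disjoint (S p) (S q))
    (hc : ∀ p, (S p).card ≤ cap p) :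
    ∃ π : α → β, (∀ p, (C.filter (fun c => π c = p)).card = cap p) ∧
      ∀ p, ∀ c ∈ S p, π c = p := by
  classical
  set U : Finset α := Finset.univ.biUnion S with hU
  have hUC : U ⊆ C := by
    intro c hc'
    rw [hU, mem_biUnion] at hc'
    obtain ⟨p, -, hp⟩ := hc'
    exact hS p hp
  have hUcard : U.card = ∑ p, (S p).card := by
    rw [hU, card_biUnion]
    intro p _ q _ hpq
    exact hd p q hpq
  set D : Finset α := C \ U with hD
  have hDcard : D.card = ∑ p, (cap p - (S p).card) := by
    have h1 : D.card + U.card = C.card := by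
      rw [hD, card_sdiff_of_subset hUC]
      have := card_le_card hUC
      omega
    have h2 : ∑ p, (cap p - (S p).card) + ∑ p, (S p).card = ∑ p, cap p := by
      rw [← sum_add_distrib]
      exact sum_congr rfl fun p _ => Nat.sub_add_cancel (hc p)
    omega
  have hcard : Fintype.card {c // c ∈ D} = Fintype.card (Σ p : β, Fin (cap p - (S p).card)) := by
    rw [Fintype.card_coe, hDcard, Fintype.card_sigma]
    simp
  let e : {c // c ∈ D} ≃ (Σ p : β, Fin (cap p - (S p).card)) := Fintype.equivOfCardEq hcard
  let π : α → β := fun c =>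
    if h : c ∈ D then (e ⟨c, h⟩).1
    else if h' : ∃ p, c ∈ S p then h'.choose else Classical.arbitrary β
  have hπD : ∀ c (h : c ∈ D), π c = (e ⟨c, h⟩).1 := fun c h => dif_pos h
  have hπS : ∀ p, ∀ c ∈ S p, π c = p := by
    intro p c hcp
    have hnD : c ∉ D := by
      rw [hD, mem_sdiff, not_and, not_not]
      intro _
      rw [hU, mem_biUnion]
      exact ⟨p, mem_univ p, hcp⟩
    have hex : ∃ p, c ∈ S p := ⟨p, hcp⟩
    have h1 : π c = hex.choose := by
      simp only [π]
      rw [dif_neg hnD, dif_pos hex]
    rw [h1]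
    by_contra hne
    exact (Finset.disjoint_left.1 (hd _ _ hne)) hex.choose_spec hcp
  refine ⟨π, fun p => ?_, hπS⟩
  have hsplit : C.filter (fun c => π c = p) = D.filter (fun c => π c = p) ∪ S p := by
    ext c
    simp only [mem_filter, mem_union]
    constructor
    · rintro ⟨h1, h2⟩
      by_cases hcU : c ∈ U
      · right
        rw [hU, mem_biUnion] at hcU
        obtain ⟨q, -, hq⟩ := hcU
        rw [hπS q c hq] at h2
        exact h2 ▸ hq
      · left
        exact ⟨by rw [hD, mem_sdiff]; exact ⟨h1, hcU⟩, h2⟩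
    · rintro (⟨h1, h2⟩ | h)
      · exact ⟨(mem_sdiff.1 (hD ▸ h1)).1, h2⟩
      · exact ⟨hS p h, hπS p c h⟩
  have hdisj : Disjoint (D.filter (fun c => π c = p)) (S p) := by
    rw [Finset.disjoint_left]
    intro c h1 h2
    have h3 := (mem_filter.1 h1).1
    rw [hD, mem_sdiff] at h3
    exact h3.2 (by rw [hU, mem_biUnion]; exact ⟨p, mem_univ p, h2⟩)
  rw [hsplit, card_union_of_disjoint hdisj]
  have hDp : (D.filter (fun c => π c = p)).card = cap p - (S p).card := by
    have : (D.filter (fun c => π c = p)).card =
        ((Finset.univ : Finset (Fin (cap p - (S p).card)))).card := by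
      symm
      refine Finset.card_bij (fun i _ => ((e.symm ⟨p, i⟩ : {c // c ∈ D}) : α)) ?_ ?_ ?_
      · intro i _
        rw [mem_filter]
        refine ⟨(e.symm ⟨p, i⟩).2, ?_⟩
        rw [hπD _ (e.symm ⟨p, i⟩).2]
        simp
      · intro i _ j _ hij
        have := e.symm.injective (Subtype.ext hij)
        simpa using this
      · intro c hc'
        rw [mem_filter] at hc'
        obtain ⟨hcD, hcp⟩ := hc'
        rw [hπD c hcD] at hcp
        refine ⟨hcp ▸ (e ⟨c, hcD⟩).2, mem_univ _, ?_⟩
        subst hcp
        simp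
    rw [this]
    simp
  rw [hDp]
  have := hc p
  omega

end Vale.Agent.P181.H162
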