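import Vale.Agent.P181.T6.Spec
import Vale.Agent.P181.H162.Round
import Vale.Agent.P181.H162.Frm

/-!
# P181 (T6), (C2'): designs from patterns
-/

set_option autoImplicit false

namespace Vale.Agent.P181.H162

open Finset Vale.Agent.P181.T6

/-- the length of the column `c`. -/
def len6 (a : ℕ) (lam : ℕ → ℕ) (c : ℕ) : ℕ := ((range a).filter (fun i => c < lam i)).card

theorem lt_len6 {a : ℕ} {lam : ℕ → ℕ} (h : Antitone lam) {c i : ℕ} :
    i < len6 a lam c ↔ i < a ∧ c < lam i := by
  have hs : ∀ i ∈ (range a).filter (fun i => c < lam i), ∀ j ≤ i,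
      j ∈ (range a).filter (fun i => c < lam i) := by
    intro i hi j hj
    rw [mem_filter, mem_range] at hi ⊢
    exact ⟨by omega, hi.2.trans_le (h hj)⟩
  have key : i < len6 a lam c ↔ i ∈ (range a).filter (fun i => c < lam i) := by
    constructor
    · intro h
      by_contra hi
      have h1 : (range a).filter (fun i => c < lam i) ⊆ range i := by
        intro j hj
        rw [mem_range]
        by_contra hji
        exact hi (hs j hj i (by omega))
      have h2 := card_le_card h1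
      rw [card_range] at h2
      unfold len6 at h
      omega
    · intro h
      have h1 : range (i + 1) ⊆ (range a).filter (fun i => c < lam i) := by
        intro j hj
        rw [mem_range] at hj
        exact hs i h j (by omega)
      have h2 := card_le_card h1
      rw [card_range] at h2
      unfold len6
      omega
  rw [key, mem_filter, mem_range]

theorem len6_le (a : ℕ) (lam : ℕ → ℕ) (c : ℕ) : len6 a lam c ≤ a := by
  have := card_filter_le (range a) (fun i => c < lam i)
  rwa [card_range] at this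

/-- Special and normal points. -/
abbrev Pnt (R N : ℕ) : Type := (Fin R × Fin 2) ⊕ Fin N

/-- Patterns: the combinatorial data of a design. -/
structure Pt (e n R N : ℕ) (lam w : ℕ → ℕ) (K : Type) [Fintype K] where
  anti : Antitone lam
  R_le : R ≤ n
  R_pos : 0 < R
  w_pos : ∀ i < R, 0 < w i
  /-- the columns of the patterns -/
  col : K → ℕ
  col_inj : Function.Injective col
  /-- marks -/
  mrk : K → ℕ → Option (Pnt R N)
  /-- prescribed pure letters -/
  pr : K → ℕ → Option ℕ
  fx : K → Prop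
  bt : K → Finset (Pnt R N)
  fx_col : ∀ k, fx k → ∀ i < R, col k < lam i
  pr_col : ∀ k i g, i < R → pr k i = some g → col k < lam i
  mrk_fx : ∀ k i q, i < R → mrk k i = some q → fx k
  mrk_inj : ∀ k i i' q, i < R → i' < R → mrk k i = some q → mrk k i' = some q → i = i'
  mrk_bt : ∀ k i q, i < R → mrk k i = some q → q ∉ bt k
  pr_mk : ∀ k i g, i < R → pr k i = some g → mrk k i = none
  pr_lt : ∀ k i g, i < R → pr k i = some g → g < w i
  pr_card : ∀ i < R, ∀ g, (univ.filter fun k => pr k i = some g).card ≤ e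
  row : ∀ i < R, lam i = e * w i + (univ.filter fun k => mrk k i ≠ none).card
  bt_card : ∀ k, fx k → (bt k).card = len6 n lam (col k) - R

namespace Pt

variable {e n R N : ℕ} {lam w : ℕ → ℕ} {K : Type} [Fintype K] (P : Pt e n R N lam w K)

theorem len_col {k : K} (hk : P.fx k) : R ≤ len6 n lam (P.col k) := by
  have h := P.R_pos
  have h1 : R - 1 < len6 n lam (P.col k) := by
    rw [lt_len6 P.anti]
    exact ⟨by have := P.R_le; omega, P.fx_col k hk _ (by omega)⟩
  omega

theorem mrk_col {k : K} {i : ℕ} (hi : i < R) {q : Pnt R N} (h : P.mrk k i = some q) :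
    P.col k < lam i := P.fx_col k (P.mrk_fx k i q hi h) i hi

open Classical in
/-- the missing columns of row `i`. -/
noncomputable def ms (i : ℕ) : Finset ℕ := (univ.filter fun k => P.mrk k i ≠ none).image P.col

open Classical in
/-- the prescribed columns of a pure letter. -/
noncomputable def ps (i g : ℕ) : Finset ℕ := (univ.filter fun k => P.pr k i = some g).image P.col

/-- the columns of the pure letters of row `i`. -/
noncomputable def pur (i : ℕ) : Finset ℕ := range (lam i) \ P.ms i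

theorem ms_sub {i : ℕ} (hi : i < R) : P.ms i ⊆ range (lam i) := by
  intro c hc
  rw [ms, mem_image] at hc
  obtain ⟨k, hk, rfl⟩ := hc
  rw [mem_filter] at hk
  obtain ⟨q, hq⟩ := Option.ne_none_iff_exists'.1 hk.2
  rw [mem_range]
  exact P.mrk_col hi hq

theorem card_pur {i : ℕ} (hi : i < R) : (P.pur i).card = e * w i := by
  have h1 : (P.ms i).card = (univ.filter fun k => P.mrk k i ≠ none).card :=
    card_image_of_injective _ P.col_inj
  rw [pur, card_sdiff_of_subset (P.ms_sub hi), card_range, h1]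
  have := P.row i hi
  omega

theorem exists_pi (i : Fin R) : ∃ π : ℕ → Fin (w i),
    (∀ p, ((P.pur i).filter (fun c => π c = p)).card = e) ∧
      ∀ p : Fin (w i), ∀ c ∈ P.ps i p, π c = p := by
  classical
  have hw := P.w_pos i i.2
  have : Nonempty (Fin (w i)) := ⟨⟨0, hw⟩⟩
  have hS : ∀ p : Fin (w i), P.ps i p ⊆ P.pur i := by
    intro p c hc
    rw [ps, mem_image] at hc
    obtain ⟨k, hk, rfl⟩ := hc
    rw [mem_filter] at hk
    rw [pur, mem_sdiff, mem_range]
    refine ⟨P.pr_col k i p i.2 hk.2, ?_⟩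
    rw [ms, mem_image]
    rintro ⟨k', hk', h⟩
    rw [P.col_inj h, mem_filter] at hk'
    exact hk'.2 (P.pr_mk k i p i.2 hk.2)
  have hD : ∀ p q : Fin (w i), p ≠ q → Disjoint (P.ps i p) (P.ps i q) := by
    intro p q hpq
    rw [Finset.disjoint_left]
    intro c hc hc'
    rw [ps, mem_image] at hc hc'
    obtain ⟨k, hk, rfl⟩ := hc
    obtain ⟨k', hk', h⟩ := hc'
    rw [P.col_inj h, mem_filter] at hk'
    rw [mem_filter] at hk
    have h3 := hk.2.symm.trans hk'.2
    exact hpq (Fin.ext (Option.some.inj h3))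
  have hcd : ∀ p : Fin (w i), (P.ps i p).card ≤ e := by
    intro p
    refine le_trans card_image_le ?_
    exact P.pr_card i i.2 p
  obtain ⟨π, h1, h2⟩ := exists_assign (β := Fin (w i)) (P.pur i) (fun _ => e)
    (by rw [P.card_pur i.2]; simp [mul_comm]) (fun p => P.ps i p) hS hD hcd
  refine ⟨π, ?_, h2⟩
  intro p
  convert h1 p

/-- the assignment of the pure columns. -/
noncomputable def pi (i : Fin R) : ℕ → Fin (w i) := (P.exists_pi i).choose

theorem card_pi (i : Fin R) (p : Fin (w i)) :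
    ((P.pur i).filter (fun c => P.pi i c = p)).card = e := (P.exists_pi i).choose_spec.1 p

theorem pi_ps (i : Fin R) (p : Fin (w i)) {c : ℕ} (hc : c ∈ P.ps i p) : P.pi i c = p :=
  (P.exists_pi i).choose_spec.2 p c hc

/-- pure letters. -/
abbrev Tp (_ : Pt e n R N lam w K) : Type := Σ i : Fin R, Fin (w i)

open Classical in
/-- the letter serving row `i` of column `c`. -/
noncomputable def srv (c i : ℕ) : P.Tp ⊕ Pnt R N :=
  if h : i < R then
    if hk : ∃ k q, P.col k = c ∧ P.mrk k i = some q then Sum.inr hk.choose_spec.choose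
    else Sum.inl ⟨⟨i, h⟩, P.pi ⟨i, h⟩ c⟩
  else Sum.inl ⟨⟨0, P.R_pos⟩, P.pi ⟨0, P.R_pos⟩ c⟩

theorem srv_mk {k : K} {i : ℕ} (hi : i < R) {q : Pnt R N} (h : P.mrk k i = some q) :
    P.srv (P.col k) i = Sum.inr q := by
  have hk : ∃ k' q', P.col k' = P.col k ∧ P.mrk k' i = some q' := ⟨k, q, rfl, h⟩
  unfold srv
  rw [dif_pos hi, dif_pos hk]
  have key : ∀ k' q', P.col k' = P.col k → P.mrk k' i = some q' → q' = q := by
    intro k' q' h1 h2
    rw [P.col_inj h1, h] at h2
    exact (Option.some.inj h2).symm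
  exact congrArg Sum.inr (key _ _ hk.choose_spec.choose_spec.1 hk.choose_spec.choose_spec.2)

theorem srv_pur {i : ℕ} (hi : i < R) {c : ℕ} (hc : ∀ k q, P.col k = c → P.mrk k i ≠ some q) :
    P.srv c i = Sum.inl ⟨⟨i, hi⟩, P.pi ⟨i, hi⟩ c⟩ := by
  unfold srv
  rw [dif_pos hi, dif_neg]
  rintro ⟨k, q, h1, h2⟩
  exact hc k q h1 h2

theorem srv_eq_inr {i : ℕ} (hi : i < R) {c : ℕ} {q : Pnt R N} :
    P.srv c i = Sum.inr q ↔ ∃ k, P.col k = c ∧ P.mrk k i = some q := by
  constructor
  · intro h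
    by_cases hc : ∃ k q, P.col k = c ∧ P.mrk k i = some q
    · obtain ⟨k, q', rfl, h2⟩ := hc
      rw [P.srv_mk hi h2] at h
      exact ⟨k, rfl, by rw [h2, Sum.inr.inj h]⟩
    · push Not at hc
      rw [P.srv_pur hi hc] at h
      exact absurd h (by simp)
  · rintro ⟨k, rfl, h⟩
    exact P.srv_mk hi h

theorem srv_pr {k : K} {i : ℕ} (hi : i < R) {g : ℕ} (h : P.pr k i = some g) :
    P.srv (P.col k) i = Sum.inl ⟨⟨i, hi⟩, ⟨g, P.pr_lt k i g hi h⟩⟩ := by
  have hn := P.pr_mk k i g hi h
  rw [P.srv_pur hi]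
  · congr 2
    apply P.pi_ps
    unfold ps
    rw [mem_image]
    exact ⟨k, by rw [mem_filter]; exact ⟨mem_univ _, h⟩, rfl⟩
  · intro k' q' hk'
    rw [P.col_inj hk', hn]
    simp

theorem mem_pur {i c : ℕ} : c ∈ P.pur i ↔ c < lam i ∧ ∀ k q, P.col k = c → P.mrk k i ≠ some q := by
  rw [pur, mem_sdiff, mem_range, ms, mem_image]
  constructor
  · rintro ⟨h1, h2⟩
    refine ⟨h1, fun k q hk hq => h2 ⟨k, ?_, hk⟩⟩
    rw [mem_filter]
    exact ⟨mem_univ _, by rw [hq]; simp⟩
  · rintro ⟨h1, h2⟩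
    refine ⟨h1, ?_⟩
    rintro ⟨k, hk, h3⟩
    rw [mem_filter] at hk
    obtain ⟨q, hq⟩ := Option.ne_none_iff_exists'.1 hk.2
    exact h2 k q h3 hq

theorem srv_eq_inl {i : ℕ} (hi : i < R) {c : ℕ} (hc : c < lam i) {r : Fin R} {p : Fin (w r)} :
    P.srv c i = Sum.inl ⟨r, p⟩ ↔ (r : ℕ) = i ∧ c ∈ P.pur r ∧ P.pi r c = p := by
  constructor
  · intro h
    by_cases hk : ∃ k q, P.col k = c ∧ P.mrk k i = some q
    · obtain ⟨k, q', rfl, h2⟩ := hk
      rw [P.srv_mk hi h2] at h
      exact absurd h (by simp)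
    · push Not at hk
      rw [P.srv_pur hi hk] at h
      have h4 := Sum.inl.inj h
      rw [Sigma.mk.injEq] at h4
      obtain ⟨h5, h6⟩ := h4
      subst h5
      refine ⟨rfl, ?_, eq_of_heq h6⟩
      rw [P.mem_pur]
      exact ⟨hc, hk⟩
  · rintro ⟨rfl, h1, h2⟩
    rw [P.mem_pur] at h1
    rw [P.srv_pur hi h1.2, ← h2]

theorem srv_cases {i : ℕ} (hi : i < R) (c : ℕ) :
    (∃ t : P.Tp, P.srv c i = Sum.inl t ∧ (t.1 : ℕ) = i) ∨
      ∃ k q, P.col k = c ∧ P.mrk k i = some q := by
  by_cases hk : ∃ k q, P.col k = c ∧ P.mrk k i = some q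
  · exact Or.inr hk
  · left
    push Not at hk
    exact ⟨_, P.srv_pur hi hk, rfl⟩

open Classical in
/-- the lower part of a fixed column. -/
noncomputable def bot (c : ℕ) : Fin (len6 n lam c - R) → Pnt R N :=
  if h : ∃ k, P.col k = c ∧ P.fx k then fun j =>
    ((P.bt h.choose).equivFin.symm (Fin.cast (by
      rw [P.bt_card _ h.choose_spec.2, h.choose_spec.1]) j) : Pnt R N)
  else fun _ => Sum.inl (⟨0, P.R_pos⟩, 0)

theorem bot_inj {k : K} (hk : P.fx k) : Function.Injective (P.bot (P.col k)) := by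
  have h : ∃ k', P.col k' = P.col k ∧ P.fx k' := ⟨k, rfl, hk⟩
  unfold bot
  rw [dif_pos h]
  intro i j hij
  have h1 := (P.bt h.choose).equivFin.symm.injective (Subtype.ext hij)
  exact Fin.cast_injective _ h1

theorem mem_bot {k : K} (hk : P.fx k) (q : Pnt R N) :
    (∃ j, P.bot (P.col k) j = q) ↔ q ∈ P.bt k := by
  have h : ∃ k', P.col k' = P.col k ∧ P.fx k' := ⟨k, rfl, hk⟩
  have hck : h.choose = k := P.col_inj h.choose_spec.1
  unfold bot
  rw [dif_pos h]
  constructor
  · rintro ⟨j, rfl⟩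
    have key : ∀ k', k' = k → ∀ x : Pnt R N, x ∈ P.bt k' → x ∈ P.bt k := by
      rintro k' rfl x hx
      exact hx
    exact key _ hck _ ((P.bt h.choose).equivFin.symm (Fin.cast (by
      rw [P.bt_card _ h.choose_spec.2, h.choose_spec.1]) j)).2
  · intro hq
    rw [← hck] at hq
    refine ⟨Fin.cast (by rw [P.bt_card _ h.choose_spec.2, h.choose_spec.1])
      ((P.bt h.choose).equivFin ⟨q, hq⟩), ?_⟩
    simp

end Pt

end Vale.Agent.P181.H162
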