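import Vale.Agent.P181.H162.Pt

/-!
# P181 (T6), (C2'): the design of a pattern
-/

set_option autoImplicit false

namespace Vale.Agent.P181.H162

open Finset Vale.Agent.P181.T6

namespace Pt

variable {e n R N : ℕ} {lam w : ℕ → ℕ} {K : Type} [Fintype K] (P : Pt e n R N lam w K)

/-- the design -/
noncomputable def dsg : Design n R N P.Tp (Fin R × Fin 2) (Fin (lam 0)) where
  cls := fun t => t.1
  cls_lt := fun t => t.1.2
  len := fun c => len6 n lam c
  len_le := fun c => len6_le n lam c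
  srv := fun c i => P.srv c i
  fx := fun c => ∃ k, P.col k = c ∧ P.fx k
  fx_len := by
    rintro c ⟨k, hk, hf⟩
    rw [← hk]
    exact P.len_col hf
  bot := fun c => P.bot c
  bot_inj := by
    rintro ⟨c, hc⟩ ⟨k, hk, hf⟩
    simp only at hk
    subst hk
    exact P.bot_inj hf
  serve := by
    intro c i _ hi
    rcases P.srv_cases hi c with ⟨t, h1, h2⟩ | ⟨k, q, h1, h2⟩
    · exact Or.inl ⟨t, h1, h2⟩
    · right
      have hf := P.mrk_fx k i q hi h2
      refine ⟨⟨k, h1, hf⟩, q, ?_, ?_, ?_⟩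
      · rw [← h1]
        exact P.srv_mk hi h2
      · intro j hj
        obtain ⟨c, hc⟩ := c
        simp only at h1
        subst h1
        exact P.mrk_bt k i q hi h2 ((P.mem_bot hf q).1 ⟨j, hj⟩)
      · intro i' hi' h3
        rw [← h1, P.srv_eq_inr hi'] at h3
        obtain ⟨k', h4, h5⟩ := h3
        rw [P.col_inj h4] at h5
        exact P.mrk_inj k i' i q hi' hi h5 h2

theorem lt_len {c : Fin (lam 0)} {i : ℕ} (hi : i < R) : i < P.dsg.len c ↔ (c : ℕ) < lam i := by
  show i < len6 n lam c ↔ _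
  rw [lt_len6 P.anti]
  exact ⟨fun h => h.2, fun h => ⟨by have := P.R_le; omega, h⟩⟩

theorem fx_lt {k : K} (hk : P.fx k) : P.col k < lam 0 := P.fx_col k hk 0 P.R_pos

theorem miss_iff (c : Fin (lam 0)) (i : ℕ) :
    P.dsg.miss c i ↔ i < R ∧ ∃ k q, P.col k = c ∧ P.mrk k i = some q := by
  unfold Design.miss
  constructor
  · rintro ⟨h1, h2, q, h3⟩
    have h4 : P.srv c i = Sum.inr q := h3
    rw [P.srv_eq_inr h1] at h4
    obtain ⟨k, h5, h6⟩ := h4
    exact ⟨h1, k, q, h5, h6⟩
  · rintro ⟨h1, k, q, h2, h3⟩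
    refine ⟨h1, ?_, q, ?_⟩
    · rw [P.lt_len h1, ← h2]
      exact P.mrk_col h1 h3
    · show P.srv c i = _
      rw [← h2]
      exact P.srv_mk h1 h3

theorem known_inr (c : Fin (lam 0)) (q : Pnt R N) : P.dsg.known c (Sum.inr q) ↔
    ∃ k, P.col k = c ∧ ((∃ i < R, P.mrk k i = some q) ∨ (P.fx k ∧ q ∈ P.bt k)) := by
  unfold Design.known
  constructor
  · rintro (⟨i, -, h1, h2⟩ | ⟨⟨k, hk, hf⟩, j, hj⟩)
    · have h4 : P.srv c i = Sum.inr q := h2
      rw [P.srv_eq_inr h1] at h4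
      obtain ⟨k, h5, h6⟩ := h4
      exact ⟨k, h5, Or.inl ⟨i, h1, h6⟩⟩
    · refine ⟨k, hk, Or.inr ⟨hf, ?_⟩⟩
      obtain ⟨c, hc⟩ := c
      simp only at hk
      subst hk
      rw [← P.mem_bot hf q]
      exact ⟨j, Sum.inr.inj hj⟩
  · rintro ⟨k, hk, ⟨i, h1, h2⟩ | ⟨hf, hq⟩⟩
    · left
      refine ⟨i, ?_, h1, ?_⟩
      · rw [P.lt_len h1, ← hk]
        exact P.mrk_col h1 h2
      · show P.srv c i = _
        rw [← hk]
        exact P.srv_mk h1 h2
    · right
      refine ⟨⟨k, hk, hf⟩, ?_⟩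
      obtain ⟨c, hc⟩ := c
      simp only at hk
      subst hk
      obtain ⟨j, hj⟩ := (P.mem_bot hf q).2 hq
      exact ⟨j, congrArg Sum.inr hj⟩

theorem known_pr {k : K} {i g : ℕ} (hi : i < R) (h : P.pr k i = some g) (hc : P.col k < lam 0) :
    P.dsg.known ⟨P.col k, hc⟩ (Sum.inl ⟨⟨i, hi⟩, ⟨g, P.pr_lt k i g hi h⟩⟩) := by
  left
  refine ⟨i, ?_, hi, ?_⟩
  · rw [P.lt_len hi]
    exact P.pr_col k i g hi h
  · exact P.srv_pr hi h

/-- counting columns through the index. -/
theorem card_cols (p : Fin (lam 0) → Prop) (q : K → Prop) [DecidablePred p] [DecidablePred q]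
    (h : ∀ c, p c ↔ ∃ k, P.col k = c ∧ q k) (hq : ∀ k, q k → P.col k < lam 0) :
    (univ.filter p).card = (univ.filter q).card := by
  symm
  refine card_bij (fun k hk => ⟨P.col k, hq k (mem_filter.1 hk).2⟩) ?_ ?_ ?_
  · intro k hk
    rw [mem_filter]
    exact ⟨mem_univ _, (h _).2 ⟨k, rfl, (mem_filter.1 hk).2⟩⟩
  · intro k _ k' _ hkk
    exact P.col_inj (Fin.mk.inj hkk)
  · intro c hc
    obtain ⟨k, h1, h2⟩ := (h c).1 (mem_filter.1 hc).2
    exact ⟨k, mem_filter.2 ⟨mem_univ _, h2⟩, Fin.ext h1⟩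

open Classical in
theorem mark_eq (q : Pnt R N) {i : ℕ} (hi : i < R) :
    P.dsg.mark q i = (univ.filter fun k => P.mrk k i = some q).card := by
  unfold Design.mark
  refine Eq.trans ?_ (P.card_cols (fun c => i < R ∧ i < P.dsg.len c ∧ P.dsg.srv c i = Sum.inr q)
    (fun k => P.mrk k i = some q) ?_ ?_)
  · congr!
  · intro c
    constructor
    · rintro ⟨-, -, h⟩
      have h4 : P.srv c i = Sum.inr q := h
      rwa [P.srv_eq_inr hi] at h4
    · rintro ⟨k, h1, h2⟩
      refine ⟨hi, ?_, ?_⟩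
      · rw [P.lt_len hi, ← h1]
        exact P.mrk_col hi h2
      · show P.srv c i = _
        rw [← h1]
        exact P.srv_mk hi h2
  · intro k hk
    exact P.fx_lt (P.mrk_fx k i q hi hk)

open Classical in
theorem cap_eq (p : Pnt R N) {i : ℕ} (hi : i < R) :
    P.dsg.cap p i = (univ.filter fun k => (∃ q, P.mrk k i = some q) ∧
      ((∃ i' < R, P.mrk k i' = some p) ∨ (P.fx k ∧ p ∈ P.bt k))).card := by
  unfold Design.cap
  refine Eq.trans ?_ (P.card_cols (fun c => P.dsg.miss c i ∧ P.dsg.known c (Sum.inr p))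
    (fun k => (∃ q, P.mrk k i = some q) ∧
      ((∃ i' < R, P.mrk k i' = some p) ∨ (P.fx k ∧ p ∈ P.bt k))) ?_ ?_)
  · congr!
  · intro c
    rw [P.miss_iff, P.known_inr]
    constructor
    · rintro ⟨⟨-, k, q, h1, h2⟩, k', h3, h4⟩
      have h5 : k' = k := P.col_inj (h3.trans h1.symm)
      subst h5
      exact ⟨k', h1, ⟨q, h2⟩, h4⟩
    · rintro ⟨k, h1, ⟨q, h2⟩, h3⟩
      exact ⟨⟨hi, k, q, h1, h2⟩, k, h1, h3⟩
  · rintro k ⟨⟨q, h2⟩, -⟩
    exact P.fx_lt (P.mrk_fx k i q hi h2)

/-- Types of the positions -/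
theorem card_Tp : Fintype.card P.Tp = ∑ i ∈ range R, w i := by
  simp only [Tp, Fintype.card_sigma, Fintype.card_fin]
  exact Fin.sum_univ_eq_sum_range (fun i => w i) R

open Classical in
/-- the first part of `inc`. -/
theorem inc_top (p : P.Tp ⊕ Pnt R N) :
    ∑ c : Fin (lam 0), ((range (P.dsg.len c)).filter
      (fun i => i < R ∧ P.dsg.srv c i = p)).card =
      ∑ i ∈ range R, rowc P.srv p (lam i) i := by
  have h1 := dbl P.srv p R (lam 0) (fun c => len6 n lam c) lam ?_ ?_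
  · rw [← h1]
    unfold cnt
    refine sum_congr rfl fun c _ => ?_
    refine congrArg Finset.card ?_
    ext i
    simp only [Finset.mem_filter]
    exact Iff.rfl
  · intro c i hi
    rw [lt_len6 P.anti]
    exact ⟨fun h => h.2, fun h => ⟨by have := P.R_le; omega, h⟩⟩
  · intro i
    exact P.anti (Nat.zero_le i)

open Classical in
theorem inc_inl (t : P.Tp) : P.dsg.inc (Sum.inl t) = e := by
  obtain ⟨r, p⟩ := t
  unfold Design.inc
  rw [sum_add_distrib]
  have h1 := P.inc_top (Sum.inl ⟨r, p⟩)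
  have h2 : ∑ c : Fin (lam 0), (if P.dsg.fx c then (univ.filter fun j =>
      (Sum.inr (P.dsg.bot c j) : P.Tp ⊕ Pnt R N) = Sum.inl ⟨r, p⟩).card else 0) = 0 := by
    refine sum_eq_zero fun c _ => ?_
    split_ifs
    · rw [card_eq_zero, filter_eq_empty_iff]
      intro j _ h
      exact absurd h (by simp)
    · rfl
  have h3 : ∑ i ∈ range R, rowc P.srv (Sum.inl ⟨r, p⟩) (lam i) i = e := by
    rw [sum_eq_single (r : ℕ)]
    · rw [rowc_eq P.srv _ _ _ ((P.pur r).filter (fun c => P.pi r c = p)), P.card_pi]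
      intro c
      rw [mem_filter]
      constructor
      · rintro ⟨h1, h2⟩
        have h3 := (P.mem_pur.1 h1).1
        exact ⟨h3, (P.srv_eq_inl r.2 h3).2 ⟨rfl, h1, h2⟩⟩
      · rintro ⟨h1, h2⟩
        exact ((P.srv_eq_inl r.2 h1).1 h2).2
    · intro i hi hir
      rw [mem_range] at hi
      apply rowc_eq_zero
      intro c hc h
      exact hir ((P.srv_eq_inl hi hc).1 h).1.symm
    · intro h
      exact absurd (mem_range.2 r.2) h
  have h4 := congrArg₂ (· + ·) (h1.trans h3) h2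
  simp only [add_zero] at h4
  convert h4

open Classical in
theorem inc_inr (q : Pnt R N) : P.dsg.inc (Sum.inr q) =
    ∑ i ∈ range R, (univ.filter fun k => P.mrk k i = some q).card +
      (univ.filter fun k => P.fx k ∧ q ∈ P.bt k).card := by
  unfold Design.inc
  rw [sum_add_distrib]
  have h1 := P.inc_top (Sum.inr q)
  have h2 : ∑ c : Fin (lam 0), (if P.dsg.fx c then (univ.filter fun j =>
      (Sum.inr (P.dsg.bot c j) : P.Tp ⊕ Pnt R N) = Sum.inr q).card else 0) =
      (univ.filter fun k => P.fx k ∧ q ∈ P.bt k).card := by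
    refine Eq.trans ?_ (P.card_cols (fun c => ∃ k, P.col k = c ∧ (P.fx k ∧ q ∈ P.bt k)) _
      (fun c => Iff.rfl) (fun k hk => P.fx_lt hk.1))
    rw [card_filter]
    refine sum_congr rfl fun c _ => ?_
    by_cases hc : P.dsg.fx c
    · rw [if_pos hc]
      obtain ⟨k, hk, hf⟩ := hc
      by_cases hq : q ∈ P.bt k
      · rw [if_pos ⟨k, hk, hf, hq⟩]
        obtain ⟨c, hc⟩ := c
        simp only at hk
        subst hk
        obtain ⟨j, hj⟩ := (P.mem_bot hf q).2 hq
        have h6 : (univ.filter fun j' => (Sum.inr (P.dsg.bot ⟨P.col k, hc⟩ j') :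
            P.Tp ⊕ Pnt R N) = Sum.inr q) = {(j : Fin (P.dsg.len ⟨P.col k, hc⟩ - R))} := by
          apply Finset.eq_singleton_iff_unique_mem.2
          constructor
          · exact mem_filter.2 ⟨mem_univ _, congrArg Sum.inr hj⟩
          · intro j' hj'
            have h5 : P.bot (P.col k) j' = q := Sum.inr.inj (mem_filter.1 hj').2
            exact P.bot_inj hf (h5.trans hj.symm)
        have h7 := (congrArg card h6).trans (card_singleton _)
        convert h7
      · rw [if_neg, card_eq_zero, filter_eq_empty_iff]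
        · intro j _ h
          apply hq
          obtain ⟨c, hc⟩ := c
          simp only at hk
          subst hk
          exact (P.mem_bot hf q).1 ⟨j, Sum.inr.inj h⟩
        · rintro ⟨k', h1, h2, h3⟩
          rw [P.col_inj (h1.trans hk.symm)] at h3
          exact hq h3
    · rw [if_neg hc, if_neg]
      rintro ⟨k, h1, h2, -⟩
      exact hc ⟨k, h1, h2⟩
  have h3 : ∑ i ∈ range R, rowc P.srv (Sum.inr q) (lam i) i =
      ∑ i ∈ range R, (univ.filter fun k => P.mrk k i = some q).card := by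
    refine sum_congr rfl fun i hi => ?_
    rw [mem_range] at hi
    rw [rowc_eq P.srv _ _ _ ((univ.filter fun k => P.mrk k i = some q).image P.col),
      card_image_of_injective _ P.col_inj]
    intro c
    rw [mem_image]
    constructor
    · rintro ⟨k, hk, rfl⟩
      rw [mem_filter] at hk
      exact ⟨P.mrk_col hi hk.2, P.srv_mk hi hk.2⟩
    · rintro ⟨h1, h2⟩
      rw [P.srv_eq_inr hi] at h2
      obtain ⟨k, h3, h4⟩ := h2
      exact ⟨k, mem_filter.2 ⟨mem_univ _, h4⟩, h3⟩
  have h4 := congrArg₂ (· + ·) (h1.trans h3) h2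
  convert h4

end Pt

end Vale.Agent.P181.H162
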