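import Vale.Agent.P181.H162.PtD
import Vale.Agent.P181.H411.TypesOf
import Vale.Agent.P181.H463.RigidB

/-!
# P181 (T6), (C2'): from patterns to `DesignFor`
-/

set_option autoImplicit false

namespace Vale.Agent.P181.H162

open Finset Vale.Agent.P181.T6 Vale.Agent.P181.T4

namespace Pt

variable {e n R N : ℕ} {lam w : ℕ → ℕ} {K : Type} [Fintype K] (P : Pt e n R N lam w K)

/-- the point `q` lies in the pattern column `k`. -/
def occ (k : K) (q : Pnt R N) : Prop := (∃ i' < R, P.mrk k i' = some q) ∨ (P.fx k ∧ q ∈ P.bt k)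

theorem known_occ {k : K} {q : Pnt R N} (h : P.occ k q) (hc : P.col k < lam 0) :
    P.dsg.known ⟨P.col k, hc⟩ (Sum.inr q) := (P.known_inr _ _).2 ⟨k, rfl, h⟩

theorem occ_fx {k : K} {q : Pnt R N} (h : P.occ k q) : P.fx k := by
  rcases h with ⟨i, h1, h2⟩ | ⟨h, -⟩
  · exact P.mrk_fx k i q h1 h2
  · exact h

/-- the letter `(r, g)`. -/
noncomputable def pl (r : Fin R) (g : ℕ) : P.Tp :=
  if h : g < w r then ⟨r, ⟨g, h⟩⟩ else ⟨r, ⟨0, P.w_pos r r.2⟩⟩

theorem pl_eq {r : Fin R} {g : ℕ} (h : g < w r) : P.pl r g = ⟨r, ⟨g, h⟩⟩ := dif_pos h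

theorem known_pl {k : K} {r : Fin R} {g : ℕ} (h : P.pr k r = some g) (hc : P.col k < lam 0) :
    P.dsg.known ⟨P.col k, hc⟩ (Sum.inl (P.pl r g)) := by
  have h1 := P.known_pr r.2 h hc
  rw [P.pl_eq (P.pr_lt k r g r.2 h)]
  exact h1

theorem pr_col0 {k : K} {r : Fin R} {g : ℕ} (h : P.pr k r = some g) : P.col k < lam 0 :=
  (P.pr_col k r g r.2 h).trans_le (P.anti (Nat.zero_le _))

/-- types -/
theorem types (M : ℕ) (hM : 0 < M) (hMw : ∀ r : Fin R, M ≤ w r)
    (hframe : ∀ r r' : Fin R, r ≠ r' → ∀ g, g < w r → g < w r' →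
      ∃ k, P.pr k r = some g ∧ P.pr k r' = some g)
    (hchain : ∀ r r' : Fin R, r ≠ r' → ∀ g, g < w r → g + 1 < w r' →
      ∃ k, P.pr k r = some g ∧ P.pr k r' = some (g + 1))
    (sb : Pnt R N → ℕ) (hsb : ∀ q, sb q + 1 < M)
    (hguard : ∀ q, ∀ (r : Fin R) (g : ℕ), (g = sb q ∨ g = sb q + 1) →
      ∃ k, P.occ k q ∧ P.pr k r = some g)
    (hblock : ∀ q q', q ≠ q' → sb q = sb q' → ∃ k, P.occ k q ∧ P.occ k q') :
    P.dsg.Types := by
  refine types_of P.dsg (fun r => w r) P.pl ?_ ?_ ?_ M hM hMw ?_ ?_ sb hsb ?_ ?_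
  · intro r g hg
    rw [P.pl_eq hg]
    rfl
  · rintro ⟨r', p⟩ r h
    have h1 : r' = r := Fin.ext h
    subst h1
    exact ⟨p, p.2, P.pl_eq p.2⟩
  · intro r g g' hg hg' h
    rw [P.pl_eq hg, P.pl_eq hg'] at h
    have h1 := (Sigma.mk.injEq _ _ _ _).mp h
    exact Fin.mk.inj (eq_of_heq h1.2)
  · intro r r' hr g hg hg'
    obtain ⟨k, h1, h2⟩ := hframe r r' hr g hg hg'
    exact ⟨⟨P.col k, P.pr_col0 h1⟩, P.known_pl h1 _, P.known_pl h2 _⟩
  · intro r r' hr g hg hg'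
    obtain ⟨k, h1, h2⟩ := hchain r r' hr g hg hg'
    exact ⟨⟨P.col k, P.pr_col0 h1⟩, P.known_pl h1 _, P.known_pl h2 _⟩
  · intro q r g hg
    obtain ⟨k, h1, h2⟩ := hguard q r g hg
    exact ⟨⟨P.col k, P.pr_col0 h2⟩, P.known_occ h1 _, P.known_pl h2 _⟩
  · intro q q' hq hs
    obtain ⟨k, h1, h2⟩ := hblock q q' hq hs
    exact ⟨⟨P.col k, P.fx_lt (P.occ_fx h1)⟩, P.known_occ h1 _, P.known_occ h2 _⟩

open Classical in
theorem cap_le {p : Pnt R N} {i : Fin R} {s : Finset K}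
    (h : ∀ k q, P.mrk k i = some q → P.occ k p → k ∈ s) : P.dsg.cap p i ≤ s.card := by
  rw [P.cap_eq p i.2]
  refine card_le_card fun k hk => ?_
  rw [mem_filter] at hk
  obtain ⟨-, ⟨q, hq⟩, h1⟩ := hk
  exact h k q hq h1

open Classical in
/-- rigidity -/
theorem rigid (Kc : ℕ) (rho : Fin R → Fin 2 → ℕ)
    (hcapN : ∀ (q : Fin N) (i : Fin R), ∃ s : Finset K, s.card ≤ Kc ∧
      ∀ k q', P.mrk k i = some q' → P.occ k (Sum.inr q) → k ∈ s)
    (hmarkS : ∀ r j, ∃ s : Finset K, rho r j ≤ s.card ∧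
      ∀ k ∈ s, P.mrk k (r : Fin R) = some (Sum.inl (r, j)))
    (hcapS : ∀ (r : Fin R) (j : Fin 2) (i : Fin R), ∃ s : Finset K,
      s.card ≤ min (rho r j) (rho i j) ∧
      ∀ k q', P.mrk k i = some q' → P.occ k (Sum.inl (r, j)) → k ∈ s)
    (hK : ∀ r j, Kc < rho r j)
    (hinj : ∀ r j r' j', rho r j = rho r' j' → r = r' ∧ j = j')
    (hsep : ∀ p q : Fin N, p ≠ q → ∃ r : Fin R, (∃ k, P.mrk k r = some (Sum.inr q)) ∧
      ∀ k q', P.mrk k r = some q' → ¬ P.occ k (Sum.inr p)) :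
    P.dsg.Rigid := by
  refine Vale.Agent.P181.H463.rigid_bundled P.dsg 0 rho Kc ?_ ?_ ?_ hK hinj ?_
  · intro q r
    obtain ⟨s, h1, h2⟩ := hcapN q r
    exact (P.cap_le h2).trans h1
  · intro r j
    obtain ⟨s, h1, h2⟩ := hmarkS r j
    rw [P.mark_eq _ r.2]
    refine h1.trans (card_le_card fun k hk => ?_)
    rw [mem_filter]
    exact ⟨mem_univ _, h2 k hk⟩
  · intro r j i
    obtain ⟨s, h1, h2⟩ := hcapS r j i
    exact (P.cap_le h2).trans h1
  · intro p q hpq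
    obtain ⟨r, ⟨k, hk⟩, h⟩ := hsep p q hpq
    refine ⟨r, ?_, ?_⟩
    · rw [P.mark_eq _ r.2]
      exact card_pos.2 ⟨k, mem_filter.2 ⟨mem_univ _, hk⟩⟩
    · have h1 := P.cap_le (p := Sum.inr p) (i := r) (s := ∅)
        (fun k q' h2 h3 => absurd h3 (h k q' h2))
      rw [card_empty] at h1
      omega

/-- uniqueness of the marks -/
theorem uniq (h : ∀ k, ∀ i < R, ∀ q0 q, P.mrk k i = some q0 → P.occ k q →
    (∃ k', P.mrk k' i = some q) → q = q0) : P.dsg.Uniq := by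
  intro c i hc q hq hm
  rw [P.miss_iff] at hc
  obtain ⟨hi, k, q0, h1, h2⟩ := hc
  rw [P.known_inr] at hq
  obtain ⟨k', h3, h4⟩ := hq
  have h5 : k' = k := P.col_inj (h3.trans h1.symm)
  subst h5
  rw [P.mark_eq _ hi] at hm
  obtain ⟨k', hk'⟩ := card_pos.1 hm
  have h6 := h _ i hi q0 q h2 h4 ⟨k', (mem_filter.1 hk').2⟩
  subst h6
  show P.srv c i = _
  rw [← h1]
  exact P.srv_mk hi h2

open Classical in
/-- the number of incidences of a point. -/
noncomputable def ic (q : Pnt R N) : ℕ :=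
  ∑ i ∈ range R, (univ.filter fun k => P.mrk k i = some q).card +
    (univ.filter fun k => P.fx k ∧ q ∈ P.bt k).card

end Pt

open Classical in
/-- **From patterns to designs.** -/
theorem designFor_of_pt {e b n R N cells : ℕ} {lam : Fin n → ℕ} {w : ℕ → ℕ} {K : Type}
    [Fintype K] (P : Pt e n R N (ex lam) w K)
    (hcard : ∑ i ∈ range R, w i + (2 * R + N) = b)
    (hT : P.dsg.Types) (hR : P.dsg.Rigid) (hU : P.dsg.Uniq)
    (hS : ∀ s, P.ic (Sum.inl s) = e) (d : Fin N → ℕ) (hN : ∀ q, P.ic (Sum.inr q) + d q = e)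
    (hd : ∀ i j, d i ≤ d j + 1)
    (hcells : ∑ k ∈ univ.filter (fun k => P.fx k), (len6 n (ex lam) (P.col k) - R) ≤ cells) :
    ∃ eta, DesignFor e b n R N cells lam eta := by
  refine ⟨fun i => (univ.filter fun c => ¬ P.dsg.fx c ∧ R + (i : ℕ) < P.dsg.len c).card,
    P.Tp, Fin R × Fin 2, Fin (ex lam 0), inferInstance, inferInstance, inferInstance, P.dsg, d,
    hT, hR, hU, ?_, ?_, ?_, ?_, ?_, ?_, ?_, hd⟩
  · rw [P.card_Tp, Fintype.card_prod, Fintype.card_fin, Fintype.card_fin, mul_comm R 2]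
    exact hcard
  · intro i
    have h3 : ex lam i = lam i := by
      unfold ex
      rw [dif_pos i.2]
    have h4 : lam i ≤ ex lam 0 := by
      rw [← h3]
      exact P.anti (Nat.zero_le (i : ℕ))
    have h1 : (univ.filter fun c : Fin (ex lam 0) => (i : ℕ) < P.dsg.len c) =
        univ.filter fun c : Fin (ex lam 0) => (c : ℕ) < lam i := by
      ext c
      rw [mem_filter, mem_filter]
      have h2 : (i : ℕ) < P.dsg.len c ↔ (c : ℕ) < lam i := by
        show (i : ℕ) < len6 n (ex lam) c ↔ _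
        rw [lt_len6 P.anti, h3]
        exact ⟨fun h => h.2, fun h => ⟨i.2, h⟩⟩
      rw [h2]
    have h6 : (univ.filter fun c : Fin (ex lam 0) => (c : ℕ) < lam i).card = lam i := by
      have h7 : (univ.filter fun c : Fin (ex lam 0) => (c : ℕ) < lam i).image Fin.val =
          range (lam i) := by
        ext c
        rw [mem_image, mem_range]
        constructor
        · rintro ⟨x, hx, rfl⟩
          exact (mem_filter.1 hx).2
        · intro hc
          exact ⟨⟨c, hc.trans_le h4⟩, by rw [mem_filter]; exact ⟨mem_univ _, hc⟩, rfl⟩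
      rw [← card_image_of_injective _ Fin.val_injective, h7, card_range]
    refine Eq.trans ?_ h6
    convert congrArg card h1 using 2
  · intro i
    rfl
  · refine le_trans (le_of_eq ?_) hcells
    symm
    refine sum_bij (fun k hk => ⟨P.col k, P.fx_lt (mem_filter.1 hk).2⟩) ?_ ?_ ?_ ?_
    · intro k hk
      rw [mem_filter]
      exact ⟨mem_univ _, k, rfl, (mem_filter.1 hk).2⟩
    · intro k _ k' _ hkk
      exact P.col_inj (Fin.mk.inj hkk)
    · intro c hc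
      obtain ⟨k, h1, h2⟩ := (mem_filter.1 hc).2
      exact ⟨k, mem_filter.2 ⟨mem_univ _, h2⟩, Fin.ext h1⟩
    · intro k _
      rfl
  · exact P.inc_inl
  · intro s
    rw [P.inc_inr]
    exact hS s
  · intro q
    rw [P.inc_inr]
    exact hN q

end Vale.Agent.P181.H162
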