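import Mathlib

/-!
# P181 (T4): the residues of the rows and the numbers of pure positions
-/

set_option autoImplicit false

namespace Vale.Agent.P181.H162

open Finset

/-- the number of upper services `U i` of the mixed positions of class `i`. -/
def Ures (a : ℕ) (τ : ℕ → ℕ) : ℕ → ℕ
  | 0 => 6 + ((a - 1) * τ 0 + (a - 1) * 6) % a
  | (i + 1) => 6 + (Ures a τ i + (a - 1) * τ (i + 1) + (a - 1) * 6) % a

/-- `U (i - 1)`, with `0` for `i = 0`. -/
def Uprev (a : ℕ) (τ : ℕ → ℕ) : ℕ → ℕ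
  | 0 => 0
  | (i + 1) => Ures a τ i

theorem Ures_eq (a : ℕ) (τ : ℕ → ℕ) (i : ℕ) :
    Ures a τ i = 6 + (Uprev a τ i + (a - 1) * τ i + (a - 1) * 6) % a := by
  cases i with
  | zero => simp [Ures, Uprev]
  | succ i => simp [Ures, Uprev]

theorem Ures_ge (a : ℕ) (τ : ℕ → ℕ) (i : ℕ) : 6 ≤ Ures a τ i := by
  rw [Ures_eq]; omega

theorem Ures_le (a : ℕ) (ha : 0 < a) (τ : ℕ → ℕ) (i : ℕ) : Ures a τ i ≤ a + 5 := by
  rw [Ures_eq]
  have := Nat.mod_lt (Uprev a τ i + (a - 1) * τ i + (a - 1) * 6) ha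
  omega

theorem Uprev_le (a : ℕ) (ha : 0 < a) (τ : ℕ → ℕ) (i : ℕ) : Uprev a τ i ≤ a + 5 := by
  cases i with
  | zero => simp [Uprev]
  | succ i => exact Ures_le a ha τ i

theorem Ures_dvd (a : ℕ) (ha : 0 < a) (τ : ℕ → ℕ) (i : ℕ) (h : Uprev a τ i ≤ τ i + Ures a τ i) :
    a ∣ τ i + Ures a τ i - Uprev a τ i := by
  have key : τ i + Ures a τ i ≡ Uprev a τ i [MOD a] := by
    have h1 : Ures a τ i ≡ 6 + (Uprev a τ i + (a - 1) * τ i + (a - 1) * 6) [MOD a] := by
      rw [Ures_eq]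
      exact Nat.ModEq.add_left 6 (Nat.mod_modEq _ _)
    have h2 : τ i + Ures a τ i ≡ τ i + (6 + (Uprev a τ i + (a - 1) * τ i + (a - 1) * 6)) [MOD a] :=
      Nat.ModEq.add_left _ h1
    have h3 : τ i + (6 + (Uprev a τ i + (a - 1) * τ i + (a - 1) * 6)) =
        Uprev a τ i + a * (τ i + 6) := by
      obtain ⟨m, rfl⟩ : ∃ m, a = m + 1 := ⟨a - 1, by omega⟩
      simp only [Nat.add_sub_cancel]
      ring
    rw [h3] at h2
    have h4 : Uprev a τ i + a * (τ i + 6) ≡ Uprev a τ i + 0 [MOD a] :=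
      Nat.ModEq.add_left _ ((Nat.modEq_zero_iff_dvd).2 (Dvd.intro _ rfl))
    exact h2.trans h4
  exact (Nat.modEq_iff_dvd' h).1 key.symm

/-- The numbers of pure positions of the classes `i < R - 1`. -/
theorem exists_w (a : ℕ) (ha : 0 < a) (τ : ℕ → ℕ) (i : ℕ) (h : 6 * a + 5 ≤ τ i) :
    ∃ w, 3 ≤ w ∧ τ i + Ures a τ i = a * w + 2 * a + Uprev a τ i := by
  have h1 := Ures_ge a τ i
  have h2 := Uprev_le a ha τ i
  obtain ⟨v, hv⟩ := Ures_dvd a ha τ i (by omega)
  have h3 : τ i + Ures a τ i = a * v + Uprev a τ i := by omega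
  have h4 : 5 ≤ v := by
    by_contra hcon
    have : v ≤ 4 := by omega
    have : a * v ≤ a * 4 := Nat.mul_le_mul_left a this
    omega
  refine ⟨v - 2, by omega, ?_⟩
  have h5 : a * (v - 2) + 2 * a = a * v := by
    obtain ⟨t, rfl⟩ : ∃ t, v = t + 2 := ⟨v - 2, by omega⟩
    simp only [Nat.add_sub_cancel]
    ring
  omega

/-- Telescoping. -/
theorem sum_tau (a : ℕ) (τ w : ℕ → ℕ) (n : ℕ)
    (hw : ∀ i, i < n → τ i + Ures a τ i = a * w i + 2 * a + Uprev a τ i) :
    ∑ i ∈ range n, τ i + Uprev a τ n = a * ∑ i ∈ range n, (w i + 2) := by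
  induction n with
  | zero => simp [Uprev]
  | succ n ih =>
    have h1 := ih fun i hi => hw i (by omega)
    have h2 := hw n (by omega)
    rw [sum_range_succ, sum_range_succ, mul_add]
    have h3 : Uprev a τ (n + 1) = Ures a τ n := rfl
    rw [h3]
    have h4 : a * (w n + 2) = a * w n + 2 * a := by ring
    omega

/-- All the numbers of pure positions (classes `0, …, R`, the last class `R` has no mixed
positions). -/
theorem exists_ws (a R : ℕ) (ha : 0 < a) (τ : ℕ → ℕ) (h : ∀ i, i ≤ R → 6 * a + 5 ≤ τ i)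
    (hdvd : a ∣ ∑ i ∈ range (R + 1), τ i) :
    ∃ w : ℕ → ℕ, (∀ i, i ≤ R → 3 ≤ w i) ∧
      (∀ i, i < R → τ i + Ures a τ i = a * w i + 2 * a + Uprev a τ i) ∧
      τ R = a * w R + Uprev a τ R ∧
      ∑ i ∈ range (R + 1), τ i = a * (∑ i ∈ range (R + 1), w i + 2 * R) := by
  choose v hv3 hv using fun i (hi : i < R) => exists_w a ha τ i (h i hi.le)
  set w0 : ℕ → ℕ := fun i => if hi : i < R then v i hi else 0 with hw0
  have hw0' : ∀ i, i < R → τ i + Ures a τ i = a * w0 i + 2 * a + Uprev a τ i := by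
    intro i hi
    simp only [hw0, dif_pos hi]
    exact hv i hi
  have hsum := sum_tau a τ w0 R hw0'
  obtain ⟨s, hs⟩ := hdvd
  rw [sum_range_succ] at hs
  have hU := Uprev_le a ha τ R
  have hR := h R le_rfl
  have hds : a ∣ τ R - Uprev a τ R := by
    have h1 : τ R - Uprev a τ R = a * s - a * ∑ i ∈ range R, (w0 i + 2) := by omega
    rw [h1]
    exact Nat.dvd_sub (Dvd.intro _ rfl) (Dvd.intro _ rfl)
  obtain ⟨x, hx⟩ := hds
  have hx3 : 3 ≤ x := by
    by_contra hcon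
    have : x ≤ 2 := by omega
    have : a * x ≤ a * 2 := Nat.mul_le_mul_left a this
    omega
  refine ⟨fun i => if i < R then w0 i else x, ?_, ?_, ?_, ?_⟩
  · intro i hi
    by_cases hiR : i < R
    · simp only [if_pos hiR, hw0, dif_pos hiR]
      exact hv3 i hiR
    · simp only [if_neg hiR]
      exact hx3
  · intro i hi
    simp only [if_pos hi]
    exact hw0' i hi
  · simp only [lt_irrefl, if_false]
    omega
  · rw [sum_range_succ, sum_range_succ]
    have h1 : ∑ i ∈ range R, (if i < R then w0 i else x) = ∑ i ∈ range R, w0 i :=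
      sum_congr rfl fun i hi => by rw [if_pos (mem_range.1 hi)]
    rw [h1]
    simp only [lt_irrefl, if_false]
    have h2 : ∑ i ∈ range R, (w0 i + 2) = ∑ i ∈ range R, w0 i + 2 * R := by
      rw [sum_add_distrib]
      simp [mul_comm]
    rw [h2] at hsum
    have h3 : a * (∑ i ∈ range R, w0 i + x + 2 * R) =
        a * (∑ i ∈ range R, w0 i + 2 * R) + a * x := by ring
    omega

end Vale.Agent.P181.H162
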