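import Vale.Agent.P181.H162.Block

/-!
# P181 (T4): the servers
-/

set_option autoImplicit false

namespace Vale.Agent.P181.H162

open Finset

namespace Par

variable (P : Par)

/-- the top positions: pure positions `(i, p)`, mixed positions `(i, j)`. -/
abbrev Tp : Type := (Σ i : Fin (P.S + 1), Fin (P.w i)) ⊕ (Fin P.S × Fin 2)

theorem card_Tp : Fintype.card P.Tp = P.T := by
  have h := P.sum_w
  rw [← Fin.sum_univ_eq_sum_range (fun i => P.w i) (P.S + 1)] at h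
  simp only [Fintype.card_sum, Fintype.card_sigma, Fintype.card_prod, Fintype.card_fin]
  omega

/-- the class of a position. -/
def cls : P.Tp → ℕ
  | Sum.inl x => x.1
  | Sum.inr y => y.1

/-- the mixed positions. -/
def mix : P.Tp → Prop
  | Sum.inl _ => False
  | Sum.inr _ => True

/-- the assignment of the pure columns of row `i`. -/
noncomputable def pi (i : Fin (P.S + 1)) : ℕ → Fin (P.w i) :=
  (P.exists_pi i (by have := i.2; omega)).choose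

theorem card_pi (i : Fin (P.S + 1)) (p : Fin (P.w i)) :
    ((P.pur i).filter (fun c => P.pi i c = p)).card = P.a :=
  (P.exists_pi i (by have := i.2; omega)).choose_spec.1 p

theorem pi_mrk (i : Fin (P.S + 1)) (p : Fin (P.w i)) {c : ℕ} (hc : c ∈ P.mrk i p) :
    P.pi i c = p :=
  (P.exists_pi i (by have := i.2; omega)).choose_spec.2.1 p c hc

theorem pi_pt (i : Fin (P.S + 1)) (p : Fin (P.w i)) (hp : (p : ℕ) < 3) (j : Fin 2) :
    P.pi i (P.pt i j p) = p :=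
  (P.exists_pi i (by have := i.2; omega)).choose_spec.2.2 p hp j

open Classical in
/-- the position serving row `i` of column `c`. -/
noncomputable def srv (c i : ℕ) : P.Tp ⊕ Fin P.N :=
  if h : i < P.S + 1 then
    if hb : ∃ x : P.B, (x.2.1 : ℕ) = i ∧ P.kap x = c then Sum.inr hb.choose.1
    else if ho : ∃ y : Fin P.S × Fin 2, (y.1 : ℕ) = i ∧ c ∈ P.own y.1 y.2 then
      Sum.inl (Sum.inr ho.choose)
    else if hu : ∃ y : Fin P.S × Fin 2, (y.1 : ℕ) + 1 = i ∧ c ∈ P.up y.1 y.2 then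
      Sum.inl (Sum.inr hu.choose)
    else Sum.inl (Sum.inl ⟨⟨i, h⟩, P.pi ⟨i, h⟩ c⟩)
  else Sum.inl (Sum.inl ⟨⟨0, Nat.succ_pos _⟩, P.pi ⟨0, Nat.succ_pos _⟩ c⟩)

theorem srv_kap (x : P.B) : P.srv (P.kap x) x.2.1 = Sum.inr x.1 := by
  have h : (x.2.1 : ℕ) < P.S + 1 := by have := x.2.1.2; have := P.hR1; omega
  have hb : ∃ x' : P.B, (x'.2.1 : ℕ) = x.2.1 ∧ P.kap x' = P.kap x := ⟨x, rfl, rfl⟩
  unfold srv
  rw [dif_pos h, dif_pos hb]
  congr 1
  exact congrArg Sigma.fst (P.kap_inj hb.choose_spec.2)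

theorem srv_own (y : Fin P.S × Fin 2) {c : ℕ} (hc : c ∈ P.own y.1 y.2) :
    P.srv c y.1 = Sum.inl (Sum.inr y) := by
  have hy : (y.1 : ℕ) ≤ P.S := y.1.2.le
  have h : (y.1 : ℕ) < P.S + 1 := by omega
  have hb : ¬ ∃ x : P.B, (x.2.1 : ℕ) = y.1 ∧ P.kap x = c := by
    rintro ⟨x, hx, rfl⟩
    exact P.kap_own x y.1 hy y.2 hc
  have ho : ∃ y' : Fin P.S × Fin 2, (y'.1 : ℕ) = y.1 ∧ c ∈ P.own y'.1 y'.2 := ⟨y, rfl, hc⟩
  unfold srv
  rw [dif_pos h, dif_neg hb, dif_pos ho]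
  congr 2
  obtain ⟨h1, h2⟩ := ho.choose_spec
  have h3 : ho.choose.1 = y.1 := Fin.ext h1
  rw [h3] at h2
  refine Prod.ext h3 ?_
  by_contra hne
  have hd := P.disj_own y.1 hy
  rw [Finset.disjoint_left] at hd
  generalize ho.choose.2 = j' at h2 hne
  obtain ⟨i, j⟩ := y
  simp only at h2 hne hc hd
  fin_cases j <;> fin_cases j'
  · exact hne rfl
  · exact hd hc h2
  · exact hd h2 hc
  · exact hne rfl

theorem srv_up (y : Fin P.S × Fin 2) {c : ℕ} (hc : c ∈ P.up y.1 y.2) :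
    P.srv c (y.1 + 1) = Sum.inl (Sum.inr y) := by
  have hy : (y.1 : ℕ) + 1 ≤ P.S := y.1.2
  have h : (y.1 : ℕ) + 1 < P.S + 1 := by omega
  have hb : ¬ ∃ x : P.B, (x.2.1 : ℕ) = y.1 + 1 ∧ P.kap x = c := by
    rintro ⟨x, hx, rfl⟩
    exact P.kap_up x y.1 y.2 hc
  have ho : ¬ ∃ y' : Fin P.S × Fin 2, (y'.1 : ℕ) = y.1 + 1 ∧ c ∈ P.own y'.1 y'.2 := by
    rintro ⟨y', -, h'⟩
    exact (Finset.disjoint_left.1 (P.disj_own_up (i' := y.1) y'.1.2.le y'.2 y.2)) h' hc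
  have hu : ∃ y' : Fin P.S × Fin 2, (y'.1 : ℕ) + 1 = y.1 + 1 ∧ c ∈ P.up y'.1 y'.2 :=
    ⟨y, rfl, hc⟩
  unfold srv
  rw [dif_pos h, dif_neg hb, dif_neg ho, dif_pos hu]
  congr 2
  obtain ⟨h1, h2⟩ := hu.choose_spec
  have h3 : hu.choose.1 = y.1 := Fin.ext (by omega)
  rw [h3] at h2
  refine Prod.ext h3 ?_
  by_contra hne
  have hd := P.disj_up y.1
  rw [Finset.disjoint_left] at hd
  generalize hu.choose.2 = j' at h2 hne
  obtain ⟨i, j⟩ := y
  simp only at h2 hne hc hd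
  fin_cases j <;> fin_cases j'
  · exact hne rfl
  · exact hd hc h2
  · exact hd h2 hc
  · exact hne rfl

theorem srv_pur (i : Fin (P.S + 1)) {c : ℕ} (hc : c ∈ P.pur i) :
    P.srv c i = Sum.inl (Sum.inl ⟨i, P.pi i c⟩) := by
  unfold pur at hc
  rw [mem_sdiff, mem_sdiff, mem_sdiff] at hc
  obtain ⟨⟨⟨h1, h2⟩, h3⟩, h4⟩ := hc
  have hb : ¬ ∃ x : P.B, (x.2.1 : ℕ) = i ∧ P.kap x = c := fun h => h2 (P.mem_bl.2 h)
  have ho : ¬ ∃ y' : Fin P.S × Fin 2, (y'.1 : ℕ) = i ∧ c ∈ P.own y'.1 y'.2 := by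
    rintro ⟨y', h, h'⟩
    exact h3 (P.mem_owns.2 ⟨h ▸ y'.1.2, y'.2, h ▸ h'⟩)
  have hu : ¬ ∃ y' : Fin P.S × Fin 2, (y'.1 : ℕ) + 1 = i ∧ c ∈ P.up y'.1 y'.2 := by
    rintro ⟨y', h, h'⟩
    exact h4 (P.mem_ups.2 ⟨y'.1, y'.2, h.symm, h'⟩)
  unfold srv
  rw [dif_pos i.2, dif_neg hb, dif_neg ho, dif_neg hu]

/-- the four kinds of service of row `i`. -/
theorem kinds (i : Fin (P.S + 1)) {c : ℕ} (hc : c < P.lam i) :
    (∃ x : P.B, (x.2.1 : ℕ) = i ∧ P.kap x = c) ∨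
    (∃ y : Fin P.S × Fin 2, (y.1 : ℕ) = i ∧ c ∈ P.own y.1 y.2) ∨
    (∃ y : Fin P.S × Fin 2, (y.1 : ℕ) + 1 = i ∧ c ∈ P.up y.1 y.2) ∨ c ∈ P.pur i := by
  by_cases h1 : c ∈ P.bl i
  · exact Or.inl (P.mem_bl.1 h1)
  by_cases h2 : c ∈ P.owns i
  · right; left
    obtain ⟨h3, j, h4⟩ := P.mem_owns.1 h2
    exact ⟨(⟨i, h3⟩, j), rfl, h4⟩
  by_cases h3 : c ∈ P.ups i
  · right; right; left
    obtain ⟨i', j, h4, h5⟩ := P.mem_ups.1 h3
    have h6 : i' < P.S := by have := i.2; omega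
    exact ⟨(⟨i', h6⟩, j), h4.symm, h5⟩
  · right; right; right
    unfold pur
    rw [mem_sdiff, mem_sdiff, mem_sdiff, mem_range]
    exact ⟨⟨⟨hc, h1⟩, h2⟩, h3⟩

theorem srv_eq_inr {i : Fin (P.S + 1)} {c : ℕ} (hc : c < P.lam i) {q : Fin P.N} :
    P.srv c i = Sum.inr q ↔ ∃ x : P.B, (x.2.1 : ℕ) = i ∧ P.kap x = c ∧ x.1 = q := by
  constructor
  · intro h
    rcases P.kinds i hc with ⟨x, h1, h2⟩ | ⟨y, h1, h2⟩ | ⟨y, h1, h2⟩ | h1
    · have h3 := P.srv_kap x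
      rw [h1, h2, h] at h3
      exact ⟨x, h1, h2, (Sum.inr.inj h3).symm⟩
    · have h3 := P.srv_own y h2
      rw [h1, h] at h3
      exact absurd h3 (by simp)
    · have h3 := P.srv_up y h2
      rw [h1, h] at h3
      exact absurd h3 (by simp)
    · have h3 := P.srv_pur i h1
      rw [h] at h3
      exact absurd h3 (by simp)
  · rintro ⟨x, h1, rfl, rfl⟩
    rw [← h1]
    exact P.srv_kap x

theorem srv_eq_pure {i : Fin (P.S + 1)} {c : ℕ} (hc : c < P.lam i)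
    {i' : Fin (P.S + 1)} {p : Fin (P.w i')} :
    P.srv c i = Sum.inl (Sum.inl ⟨i', p⟩) ↔ i = i' ∧ c ∈ P.pur i' ∧ P.pi i' c = p := by
  constructor
  · intro h
    rcases P.kinds i hc with ⟨x, h1, h2⟩ | ⟨y, h1, h2⟩ | ⟨y, h1, h2⟩ | h1
    · have h3 := P.srv_kap x
      rw [h1, h2, h] at h3
      exact absurd h3 (by simp)
    · have h3 := P.srv_own y h2
      rw [h1, h] at h3
      exact absurd h3 (by simp)
    · have h3 := P.srv_up y h2
      rw [h1, h] at h3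
      exact absurd h3 (by simp)
    · have h3 := P.srv_pur i h1
      rw [h] at h3
      have h4 := Sum.inl.inj (Sum.inl.inj h3)
      rw [Sigma.mk.injEq] at h4
      obtain ⟨h5, h6⟩ := h4
      subst h5
      exact ⟨rfl, h1, (eq_of_heq h6).symm⟩
  · rintro ⟨rfl, h1, h2⟩
    rw [P.srv_pur i h1, h2]

theorem srv_eq_mix {i : Fin (P.S + 1)} {c : ℕ} (hc : c < P.lam i) {y : Fin P.S × Fin 2} :
    P.srv c i = Sum.inl (Sum.inr y) ↔ ((y.1 : ℕ) = i ∧ c ∈ P.own y.1 y.2) ∨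
      ((y.1 : ℕ) + 1 = i ∧ c ∈ P.up y.1 y.2) := by
  constructor
  · intro h
    rcases P.kinds i hc with ⟨x, h1, h2⟩ | ⟨y', h1, h2⟩ | ⟨y', h1, h2⟩ | h1
    · have h3 := P.srv_kap x
      rw [h1, h2, h] at h3
      exact absurd h3 (by simp)
    · have h3 := P.srv_own y' h2
      rw [h1, h] at h3
      have h4 : y = y' := Sum.inr.inj (Sum.inl.inj h3)
      subst h4
      exact Or.inl ⟨h1, h2⟩
    · have h3 := P.srv_up y' h2
      rw [h1, h] at h3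
      have h4 : y = y' := Sum.inr.inj (Sum.inl.inj h3)
      subst h4
      exact Or.inr ⟨h1, h2⟩
    · have h3 := P.srv_pur i h1
      rw [h] at h3
      exact absurd h3 (by simp)
  · rintro (⟨h1, h2⟩ | ⟨h1, h2⟩)
    · rw [← h1]
      exact P.srv_own y h2
    · rw [← h1]
      exact P.srv_up y h2

end Par

end Vale.Agent.P181.H162
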