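import Vale.Agent.P181.H162.Round
import Vale.Agent.P181.H162.Resid

/-!
# P181 (T4): the sets of columns of the frame

`S + 1 = R` is the number of top rows.
-/

set_option autoImplicit false

namespace Vale.Agent.P181.H162

open Finset

/-- The numerical data of a frame: `S + 1` top rows, `K = k + 1` reserved columns per position. -/
structure Par where
  (a S R1 k N T : ℕ)
  lam : ℕ → ℕ
  M : Fin N → Fin (R1 + 1) → ℕ
  hR1 : R1 ≤ S
  anti : Antitone lam
  ha : 2 * (k + 1) + 6 ≤ a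
  hL : 6 * a + 5 ≤ lam (S + 1)
  gap : ∀ i, i ≤ S → lam (i + 1) + (k + 1) * (lam i / a + 2) ≤ lam i
  room : lam (S + 1) + ∑ q, ∑ i, M q i + ∑ i ∈ Ico R1 (S + 1), (k + 1) * (lam i / a + 2) ≤ lam R1
  tot : ∑ i ∈ range (S + 1), lam i = a * T + ∑ q, ∑ i, M q i
  deg : ∀ q, ∑ i, M q i ≤ k
  Minj : Function.Injective M

namespace Par

variable (P : Par)

/-- the number of `A`-blocks of row `i`. -/
def A (i : ℕ) : ℕ := ∑ q, if h : i < P.R1 + 1 then P.M q ⟨i, h⟩ else 0

/-- the services of row `i` by top positions. -/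
def tau (i : ℕ) : ℕ := P.lam i - P.A i

theorem a_pos : 0 < P.a := by have := P.ha; omega

theorem sum_A_le (n : ℕ) : ∑ i ∈ range n, P.A i ≤ ∑ q, ∑ i, P.M q i := by
  unfold A
  rw [sum_comm]
  refine sum_le_sum fun q _ => ?_
  calc ∑ i ∈ range n, (if h : i < P.R1 + 1 then P.M q ⟨i, h⟩ else 0)
      ≤ ∑ i ∈ range (max n (P.R1 + 1)), (if h : i < P.R1 + 1 then P.M q ⟨i, h⟩ else 0) :=
        sum_le_sum_of_subset (range_subset_range.2 (le_max_left _ _))
    _ = ∑ i ∈ range (P.R1 + 1), (if h : i < P.R1 + 1 then P.M q ⟨i, h⟩ else 0) := by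
        symm
        refine sum_subset (range_subset_range.2 (le_max_right _ _)) fun i _ hi => ?_
        rw [mem_range] at hi
        rw [dif_neg hi]
    _ = ∑ i, P.M q i := by
        rw [← Fin.sum_univ_eq_sum_range
          (fun i => if h : i < P.R1 + 1 then P.M q ⟨i, h⟩ else 0) (P.R1 + 1)]
        exact sum_congr rfl fun i _ => by simp [i.2]

theorem sum_A : ∑ i ∈ range (P.S + 1), P.A i = ∑ q, ∑ i, P.M q i := by
  unfold A
  rw [sum_comm]
  refine sum_congr rfl fun q _ => ?_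
  have h1 : ∑ i ∈ range (P.S + 1), (if h : i < P.R1 + 1 then P.M q ⟨i, h⟩ else 0) =
      ∑ i ∈ range (P.R1 + 1), (if h : i < P.R1 + 1 then P.M q ⟨i, h⟩ else 0) := by
    symm
    refine sum_subset (range_subset_range.2 (by have := P.hR1; omega)) fun i _ hi => ?_
    rw [mem_range] at hi
    rw [dif_neg hi]
  rw [h1, ← Fin.sum_univ_eq_sum_range
    (fun i => if h : i < P.R1 + 1 then P.M q ⟨i, h⟩ else 0) (P.R1 + 1)]
  exact sum_congr rfl fun i _ => by simp [i.2]

theorem A_le (i : ℕ) : P.A i ≤ ∑ q, ∑ i, P.M q i := by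
  have h := P.sum_A_le (i + 1)
  rw [sum_range_succ] at h
  omega

theorem A_eq_zero (i : ℕ) (hi : P.R1 < i) : P.A i = 0 := by
  unfold A
  exact sum_eq_zero fun q _ => dif_neg (by omega)

/-- `A`-block columns are short. -/
theorem A_add_le (i : ℕ) (hi : i ≤ P.S) : P.A i + P.lam (P.S + 1) ≤ P.lam i := by
  rcases Nat.lt_or_ge P.R1 i with h | h
  · rw [P.A_eq_zero i h]
    have := P.anti (show i ≤ P.S + 1 by omega)
    omega
  · have h1 := P.anti h
    have h2 := P.room
    have h3 := P.A_le i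
    omega

theorem tau_ge (i : ℕ) (hi : i ≤ P.S) : 6 * P.a + 5 ≤ P.tau i := by
  have h1 := P.A_add_le i hi
  have h2 := P.hL
  unfold tau
  omega

theorem sum_tau_eq : ∑ i ∈ range (P.S + 1), P.tau i = P.a * P.T := by
  have h1 : ∑ i ∈ range (P.S + 1), P.tau i + ∑ i ∈ range (P.S + 1), P.A i =
      ∑ i ∈ range (P.S + 1), P.lam i := by
    rw [← sum_add_distrib]
    refine sum_congr rfl fun i hi => ?_
    have := P.A_add_le i (by have := mem_range.1 hi; omega)
    unfold tau
    omega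
  rw [P.sum_A] at h1
  have := P.tot
  omega

theorem exists_w : ∃ w : ℕ → ℕ, (∀ i, i ≤ P.S → 3 ≤ w i) ∧
    (∀ i, i < P.S → P.tau i + Ures P.a P.tau i = P.a * w i + 2 * P.a + Uprev P.a P.tau i) ∧
    P.tau P.S = P.a * w P.S + Uprev P.a P.tau P.S ∧
    ∑ i ∈ range (P.S + 1), P.tau i = P.a * (∑ i ∈ range (P.S + 1), w i + 2 * P.S) :=
  exists_ws P.a P.S P.a_pos P.tau (fun i hi => P.tau_ge i hi)
    (by rw [P.sum_tau_eq]; exact Dvd.intro _ rfl)

/-- the numbers of pure positions. -/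
noncomputable def w : ℕ → ℕ := P.exists_w.choose

theorem w_ge (i : ℕ) (hi : i ≤ P.S) : 3 ≤ P.w i := P.exists_w.choose_spec.1 i hi

/-- the total number of upper services of class `i`. -/
def U (i : ℕ) : ℕ := Ures P.a P.tau i

/-- the same for class `i - 1`. -/
def V (i : ℕ) : ℕ := Uprev P.a P.tau i

theorem V_zero : P.V 0 = 0 := rfl

theorem V_succ (i : ℕ) : P.V (i + 1) = P.U i := rfl

theorem U_ge (i : ℕ) : 6 ≤ P.U i := Ures_ge _ _ _

theorem U_le (i : ℕ) : P.U i ≤ P.a + 5 := Ures_le _ P.a_pos _ _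

theorem V_le (i : ℕ) : P.V i ≤ P.a + 5 := Uprev_le _ P.a_pos _ _

theorem w_eq (i : ℕ) (hi : i < P.S) : P.tau i + P.U i = P.a * P.w i + 2 * P.a + P.V i :=
  P.exists_w.choose_spec.2.1 i hi

theorem w_last : P.tau P.S = P.a * P.w P.S + P.V P.S := P.exists_w.choose_spec.2.2.1

theorem sum_w : ∑ i ∈ range (P.S + 1), P.w i + 2 * P.S = P.T := by
  have h := P.exists_w.choose_spec.2.2.2
  have h' : P.a * P.T = P.a * (∑ i ∈ range (P.S + 1), P.w i + 2 * P.S) := by
    rw [← P.sum_tau_eq]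
    exact h
  exact (Nat.eq_of_mul_eq_mul_left P.a_pos h').symm

theorem w_le (i : ℕ) (hi : i ≤ P.S) : P.w i ≤ P.lam i / P.a := by
  rw [Nat.le_div_iff_mul_le P.a_pos, mul_comm]
  have h1 : P.tau i ≤ P.lam i := Nat.sub_le _ _
  rcases Nat.lt_or_ge i P.S with h | h
  · have h2 := P.w_eq i h
    have h3 := P.U_le i
    have h4 := P.ha
    omega
  · have : i = P.S := by omega
    subst this
    have h2 := P.w_last
    omega

/-- the number of upper services of the mixed position `(i, j)`. -/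
def u (i : ℕ) (j : Fin 2) : ℕ := if j = 0 then P.U i / 2 else P.U i - P.U i / 2

theorem u_add (i : ℕ) : P.u i 0 + P.u i 1 = P.U i := by
  unfold u
  simp only [if_true, Fin.isValue, one_ne_zero, if_false]
  omega

theorem u_ge (i : ℕ) (j : Fin 2) : 3 ≤ P.u i j := by
  have := P.U_ge i
  unfold u
  split_ifs <;> omega

theorem u_le (i : ℕ) (j : Fin 2) : P.u i j + (P.k + 1) ≤ P.a := by
  have h1 := P.U_le i
  have h2 := P.ha
  unfold u
  split_ifs <;> omega

/-- the start of the block of upper columns of the mixed position `(i, j)`. -/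
def us (i : ℕ) (j : Fin 2) : ℕ := (i % 2) * (P.a + 5) + (if j = 0 then 0 else P.U i / 2)

/-- the columns where the mixed position `(i, j)` serves row `i + 1`. -/
def up (i : ℕ) (j : Fin 2) : Finset ℕ := Ico (P.us i j) (P.us i j + P.u i j)

/-- the start of the block of long own columns of the mixed position `(i, j)`. -/
def os (j : Fin 2) : ℕ := 2 * (P.a + 5) + (if j = 0 then 0 else P.a)

/-- the start of the short own columns of the mixed position `(i, j)`. -/
def ss (i : ℕ) (j : Fin 2) : ℕ := P.lam (i + 1) + (if j = 0 then 0 else P.k + 1)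

/-- the columns where the mixed position `(i, j)` serves row `i`. -/
def own (i : ℕ) (j : Fin 2) : Finset ℕ :=
  Ico (P.os j) (P.os j + (P.a - P.u i j - (P.k + 1))) ∪ Ico (P.ss i j) (P.ss i j + (P.k + 1))

/-- the marker columns of the pure position `(i, p)`. -/
def mrk (i p : ℕ) : Finset ℕ :=
  Ico (P.lam (i + 1) + 2 * (P.k + 1) + p * (P.k + 1))
    (P.lam (i + 1) + 2 * (P.k + 1) + p * (P.k + 1) + (P.k + 1))

/-- the reserved columns of length exactly `i + 1`. -/
noncomputable def rsv (i : ℕ) : Finset ℕ :=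
  Ico (P.lam (i + 1)) (P.lam (i + 1) + (P.k + 1) * (P.w i + 2))

theorem rsv_le (i : ℕ) (hi : i ≤ P.S) :
    P.lam (i + 1) + (P.k + 1) * (P.w i + 2) ≤ P.lam i := by
  have h1 := P.gap i hi
  have h2 := P.w_le i hi
  have h3 : (P.k + 1) * (P.w i + 2) ≤ (P.k + 1) * (P.lam i / P.a + 2) :=
    Nat.mul_le_mul_left _ (by omega)
  omega

theorem card_up (i : ℕ) (j : Fin 2) : (P.up i j).card = P.u i j := by
  simp [up]

theorem up_lt {i : ℕ} {j : Fin 2} {c : ℕ} (h : c ∈ P.up i j) : c < 2 * (P.a + 5) := by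
  rw [up, mem_Ico] at h
  have h1 := P.U_le i
  have h2 : i % 2 < 2 := Nat.mod_lt _ (by norm_num)
  have h3 : (i % 2) * (P.a + 5) ≤ 1 * (P.a + 5) := Nat.mul_le_mul_right _ (by omega)
  unfold us u at h
  split_ifs at h <;> omega

theorem lam_long (i : ℕ) (hi : i ≤ P.S + 1) : 6 * P.a + 5 ≤ P.lam i :=
  P.hL.trans (P.anti hi)

theorem disj_up (i : ℕ) : Disjoint (P.up i 0) (P.up i 1) := by
  rw [Finset.disjoint_left]
  intro c h1 h2
  rw [up, mem_Ico] at h1 h2
  unfold us u at h1 h2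
  simp only [if_true, Fin.isValue, one_ne_zero, if_false] at h1 h2
  omega

theorem disj_up_succ (i : ℕ) (j j' : Fin 2) : Disjoint (P.up i j) (P.up (i + 1) j') := by
  rw [Finset.disjoint_left]
  intro c h1 h2
  rw [up, mem_Ico] at h1 h2
  have hi := P.U_le i
  have hi' := P.U_le (i + 1)
  unfold us u at h1 h2
  rcases Nat.mod_two_eq_zero_or_one i with hm | hm
  · have hm' : (i + 1) % 2 = 1 := by omega
    rw [hm] at h1
    rw [hm'] at h2
    split_ifs at h1 h2 <;> omega
  · have hm' : (i + 1) % 2 = 0 := by omega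
    rw [hm] at h1
    rw [hm'] at h2
    split_ifs at h1 h2 <;> omega

theorem own_ge {i : ℕ} (hi : i ≤ P.S) {j : Fin 2} {c : ℕ} (h : c ∈ P.own i j) :
    2 * (P.a + 5) ≤ c := by
  have h0 := P.ha
  have h1 := P.lam_long (i + 1) (by omega)
  rw [own, mem_union, mem_Ico, mem_Ico] at h
  unfold os ss at h
  rcases h with h | h <;> split_ifs at h <;> omega

theorem disj_own_up {i i' : ℕ} (hi : i ≤ P.S) (j j' : Fin 2) :
    Disjoint (P.own i j) (P.up i' j') := by
  rw [Finset.disjoint_left]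
  intro c h1 h2
  have := P.own_ge hi h1
  have := P.up_lt h2
  omega

theorem card_own (i : ℕ) (hi : i ≤ P.S) (j : Fin 2) : (P.own i j).card = P.a - P.u i j := by
  have h0 := P.ha
  have h1 := P.lam_long (i + 1) (by omega)
  have h2 := P.u_le i j
  rw [own, card_union_of_disjoint]
  · simp
    omega
  · rw [Finset.disjoint_left]
    intro c h3 h4
    rw [mem_Ico] at h3 h4
    unfold os at h3
    unfold ss at h4
    split_ifs at h3 h4 <;> omega

theorem disj_own (i : ℕ) (hi : i ≤ P.S) : Disjoint (P.own i 0) (P.own i 1) := by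
  have h0 := P.ha
  have h1 := P.lam_long (i + 1) (by omega)
  have h2 := P.u_le i 0
  have h3 := P.u_le i 1
  rw [Finset.disjoint_left]
  intro c h4 h5
  rw [own, mem_union, mem_Ico, mem_Ico] at h4 h5
  unfold os ss at h4 h5
  simp only [if_true, Fin.isValue, one_ne_zero, if_false] at h4 h5
  omega

theorem own_sub (i : ℕ) (hi : i ≤ P.S) (j : Fin 2) : P.own i j ⊆ range (P.lam i) := by
  intro c h
  have h0 := P.ha
  have h1 := P.lam_long (i + 1) (by omega)
  have h2 := P.u_le i j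
  have h3 := P.rsv_le i hi
  have h4 := P.w_ge i hi
  have h5 : (P.k + 1) * 2 ≤ (P.k + 1) * (P.w i + 2) := Nat.mul_le_mul_left _ (by omega)
  rw [own, mem_union, mem_Ico, mem_Ico] at h
  rw [mem_range]
  unfold os ss at h
  rcases h with h | h <;> split_ifs at h <;> omega

theorem up_sub (i : ℕ) (hi : i ≤ P.S + 1) {i' : ℕ} (j : Fin 2) :
    P.up i' j ⊆ range (P.lam i) := by
  intro c h
  have h0 := P.ha
  have h1 := P.lam_long i hi
  have := P.up_lt h
  rw [mem_range]
  omega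

theorem own_short (i : ℕ) (hi : i ≤ P.S) {j : Fin 2} {c : ℕ} (h : c ∈ P.own i j)
    (hc : P.lam (P.S + 1) ≤ c) : c ∈ P.rsv i := by
  have h0 := P.ha
  have h1 := P.hL
  have h2 := P.u_le i j
  have h4 := P.w_ge i hi
  have h5 : (P.k + 1) * 2 ≤ (P.k + 1) * (P.w i + 2) := Nat.mul_le_mul_left _ (by omega)
  rw [own, mem_union, mem_Ico, mem_Ico] at h
  rw [rsv, mem_Ico]
  unfold os ss at h
  rcases h with h | h <;> split_ifs at h <;> omega

theorem mrk_sub (i p : ℕ) (hp : p < P.w i) : P.mrk i p ⊆ P.rsv i := by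
  intro c h
  rw [mrk, mem_Ico] at h
  rw [rsv, mem_Ico]
  have h1 : (p + 1) * (P.k + 1) ≤ P.w i * (P.k + 1) := Nat.mul_le_mul_right _ hp
  have h2 : (p + 1) * (P.k + 1) = p * (P.k + 1) + (P.k + 1) := by ring
  have h3 : (P.k + 1) * (P.w i + 2) = P.w i * (P.k + 1) + 2 * (P.k + 1) := by ring
  omega

theorem card_mrk (i p : ℕ) : (P.mrk i p).card = P.k + 1 := by
  simp [mrk]

theorem disj_mrk (i p q : ℕ) (hpq : p ≠ q) : Disjoint (P.mrk i p) (P.mrk i q) := by
  rw [Finset.disjoint_left]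
  intro c h1 h2
  rw [mrk, mem_Ico] at h1 h2
  rcases Nat.lt_or_gt_of_ne hpq with h | h
  · have h3 : (p + 1) * (P.k + 1) ≤ q * (P.k + 1) := Nat.mul_le_mul_right _ h
    have h4 : (p + 1) * (P.k + 1) = p * (P.k + 1) + (P.k + 1) := by ring
    omega
  · have h3 : (q + 1) * (P.k + 1) ≤ p * (P.k + 1) := Nat.mul_le_mul_right _ h
    have h4 : (q + 1) * (P.k + 1) = q * (P.k + 1) + (P.k + 1) := by ring
    omega

theorem disj_mrk_own (i p : ℕ) (hi : i ≤ P.S) (j : Fin 2) : Disjoint (P.mrk i p) (P.own i j) := by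
  have h0 := P.ha
  have h1 := P.lam_long (i + 1) (by omega)
  have h2 := P.u_le i j
  rw [Finset.disjoint_left]
  intro c h3 h4
  rw [mrk, mem_Ico] at h3
  rw [own, mem_union, mem_Ico, mem_Ico] at h4
  unfold os ss at h4
  have h5 : 0 ≤ p * (P.k + 1) := Nat.zero_le _
  rcases h4 with h | h <;> split_ifs at h <;> omega

theorem mrk_ge {i p c : ℕ} (hi : i ≤ P.S) (h : c ∈ P.mrk i p) : P.lam (P.S + 1) ≤ c := by
  rw [mrk, mem_Ico] at h
  have := P.anti (show i + 1 ≤ P.S + 1 by omega)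
  omega

end Par

end Vale.Agent.P181.H162
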